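import Claimed.Agent.R292.Defs.GaussArch
import Claimed.Agent.R292.Height
import Claimed.Agent.R292.Rsw.DictHt11

/-!
# Row 292 (S0540), Gauss/Flip162 : THE CLUSTER FLIP `[FLIP]` OF `gauss_bd`      (owner helper162, unit GAUSS; prefix `gf162_`, defs `gf162*`)

OWED to 181 / 172 (Defs/GaussArch): **`gf162_flip : At92hExt F → GaussFlip t F`**.      0 sorry.      AT paper, TEX[prop:boundary-decay]; blueprint R291/Bdy/Flip.

`𝒞 = gf162C F A ω` = the faces of `F` reachable from `A` by `GaussStep0 F ω` (steps across edges which do not block).   `gf162Flip F A ω = (S, D ∆ 𝒞, O)`.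
* the weight is invariant for EVERY `ω` (`gf162_wt`): an interior edge which is not open does not block, so its two faces are both in `𝒞` or both off `𝒞`;
* if `ω` has a height (weight `≠ 0` + `At92hExt F`): a corner common to a face of `𝒞` and a face of `F` off `𝒞` has height `0` (`gf162_zero`: else the four faces around it are in `F` and
  none of the edges at the corner blocks), so `-H` on the corners of `𝒞`, `H` elsewhere is the height of the flipped configuration (`gf162_isHeight`, `gf162_H_flip`);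
* same zero set ⟹ same blocking edges ⟹ same steps ⟹ same cluster, same separation event (`gf162_step_flip`, `gf162_C_flip`), so the flip is an involution (`gf162_flip_flip`);
* on the separation event `X` changes sign and `Y` does not (`gf162_obs`);  the sum over `D` (for fixed `S`, `O`) is its own opposite.
-/

set_option autoImplicit false

namespace Claimed.Agent.R292

open Claims Claims.C0468

section

variable {F : Finset (ℤ × ℤ)}

open Classical in
/-- the cluster of `A`: the faces of `F` reachable from `A` across edges which do not block -/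
noncomputable def gf162C (F A : Finset (ℤ × ℤ)) (ω : RswCfg) : Finset (ℤ × ℤ) :=
  F.filter fun f => ∃ a ∈ A, Relation.ReflTransGen (GaussStep0 F ω) a f

theorem gf162_mem_C {A : Finset (ℤ × ℤ)} {ω : RswCfg} {f : ℤ × ℤ} :
    f ∈ gf162C F A ω ↔ f ∈ F ∧ ∃ a ∈ A, Relation.ReflTransGen (GaussStep0 F ω) a f := by
  classical
  unfold gf162C
  rw [Finset.mem_filter]

/-- flip of the face spins on the cluster of `A` -/
noncomputable def gf162Flip (F A : Finset (ℤ × ℤ)) (ω : RswCfg) : RswCfg :=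
  ⟨ω.S, symmDiff ω.D (gf162C F A ω), ω.O⟩

theorem gf162_C_sub (A : Finset (ℤ × ℤ)) (ω : RswCfg) : gf162C F A ω ⊆ F := fun _ hf => (gf162_mem_C.1 hf).1

theorem gf162_C_step {A : Finset (ℤ × ℤ)} {ω : RswCfg} {f g : ℤ × ℤ} (hf : f ∈ gf162C F A ω) (h : GaussStep0 F ω f g) :
    g ∈ gf162C F A ω := by
  rw [gf162_mem_C] at hf ⊢
  obtain ⟨_, a, ha, hr⟩ := hf
  exact ⟨h.2.1, a, ha, hr.tail h⟩

theorem gf162_A_sub {A : Finset (ℤ × ℤ)} (ω : RswCfg) (hA : A ⊆ F) : A ⊆ gf162C F A ω :=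
  fun a ha => gf162_mem_C.2 ⟨hA ha, a, ha, Relation.ReflTransGen.refl⟩

/-- the two faces of an edge which does not block are both in the cluster or both off the cluster -/
theorem gf162_edge {A : Finset (ℤ × ℤ)} {ω : RswCfg} {e : (ℤ × ℤ) × Bool} (h1 : e.1 ∈ F) (h2 : rswCo e ∈ F)
    (hg : ¬ GaussGood0 F ω e) : e.1 ∈ gf162C F A ω ↔ rswCo e ∈ gf162C F A ω :=
  ⟨fun h => gf162_C_step h ⟨h1, h2, e, Or.inl ⟨rfl, rfl⟩, hg⟩, fun h => gf162_C_step h ⟨h2, h1, e, Or.inr ⟨rfl, rfl⟩, hg⟩⟩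

/-! ### the weight -/

theorem gf162_fac (t : ℝ) {A : Finset (ℤ × ℤ)} {ω : RswCfg} {e : (ℤ × ℤ) × Bool} (he : e ∈ rswInt F) :
    rswFac t (gf162Flip F A ω) e = rswFac t ω e := by
  classical
  obtain ⟨h1, h2⟩ := (rswd11_mem_int e).1 he
  unfold rswFac
  by_cases hO : e ∈ ω.O
  · have hO' : e ∈ (gf162Flip F A ω).O := hO
    rw [if_pos hO, if_pos hO']
    rfl
  · have hO' : e ∉ (gf162Flip F A ω).O := hO
    rw [if_neg hO, if_neg hO']
    have hg : ¬ GaussGood0 F ω e := fun h => hO h.1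
    have hC := gf162_edge (A := A) h1 h2 hg
    have hD : (e.1 ∈ (gf162Flip F A ω).D ↔ rswCo e ∈ (gf162Flip F A ω).D) ↔ (e.1 ∈ ω.D ↔ rswCo e ∈ ω.D) := by
      show (e.1 ∈ symmDiff ω.D (gf162C F A ω) ↔ rswCo e ∈ symmDiff ω.D (gf162C F A ω)) ↔ _
      rw [Finset.mem_symmDiff, Finset.mem_symmDiff]
      tauto
    by_cases hd : (e.1 ∈ ω.D ↔ rswCo e ∈ ω.D)
    · rw [if_pos hd, if_pos (hD.2 hd)]
      rfl
    · rw [if_neg hd, if_neg (fun h => hd (hD.1 h))]

/-- the weight is invariant (every configuration) -/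
theorem gf162_wt (t : ℝ) (b : Bool) (A : Finset (ℤ × ℤ)) (ω : RswCfg) :
    rswWt t F b (gf162Flip F A ω) = rswWt t F b ω := by
  classical
  unfold rswWt
  by_cases hb : RswBc F b ω
  · have hb' : RswBc F b (gf162Flip F A ω) := hb
    rw [if_pos hb, if_pos hb']
    exact Finset.prod_congr rfl fun e he => gf162_fac t he
  · have hb' : ¬ RswBc F b (gf162Flip F A ω) := hb
    rw [if_neg hb, if_neg hb']

/-! ### the height -/

/-- a corner common to a face of the cluster and to a face of `F` off the cluster has height zero -/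
theorem gf162_zero {A : Finset (ℤ × ℤ)} {ω : RswCfg} {Hf : ℤ × ℤ → ℝ}
    (h : IsATHeight (rswTau F ω) (rswTauD F ω) (rswH F ω) Hf) {v f f' : ℤ × ℤ} (hf : f ∈ gf162C F A ω) (hf' : f' ∈ F)
    (hf'C : f' ∉ gf162C F A ω) (hc : at92hCor f v) (hc' : at92hCor f' v) : rswH F ω v = 0 := by
  by_contra hne
  have hv : v ∈ cornersOf F := at92h_mem_corners.2 ⟨f', hf', hc'⟩
  have hP : ¬ OnPolygon F v := fun hP => hne ((at92h_isHeight_iff.1 h).1 v hv hP)
  unfold OnPolygon at hP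
  obtain ⟨q1, q2, q3, q4⟩ := not_not.1 hP
  have eE : v ∈ gf162C F A ω ↔ (v.1, v.2 - 1) ∈ gf162C F A ω :=
    gf162_edge (e := (v, false)) q1 q3 fun hg => hne hg.2.1
  have eN : v ∈ gf162C F A ω ↔ (v.1 - 1, v.2) ∈ gf162C F A ω :=
    gf162_edge (e := (v, true)) q1 q2 fun hg => hne hg.2.1
  have eW : (v.1 - 1, v.2) ∈ gf162C F A ω ↔ (v.1 - 1, v.2 - 1) ∈ gf162C F A ω := by
    refine gf162_edge (e := ((v.1 - 1, v.2), false)) q2 q4 fun hg => hne ?_
    have h2 := hg.2.2
    have e : rswEnd ((v.1 - 1, v.2), false) = v := by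
      unfold rswEnd
      simp
    rwa [e] at h2
  have key : ∀ g : ℤ × ℤ, at92hCor g v → (g ∈ gf162C F A ω ↔ v ∈ gf162C F A ω) := by
    rintro ⟨gx, gy⟩ ⟨h1, h2⟩
    simp only at h1 h2
    rcases h1 with h1 | h1 <;> rcases h2 with h2 | h2
    · have e : ((gx, gy) : ℤ × ℤ) = v := Prod.ext h1.symm h2.symm
      rw [e]
    · have e : ((gx, gy) : ℤ × ℤ) = (v.1, v.2 - 1) := Prod.ext h1.symm (by simp only; omega)
      rw [e, eE]
    · have e : ((gx, gy) : ℤ × ℤ) = (v.1 - 1, v.2) := Prod.ext (by simp only; omega) h2.symm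
      rw [e, eN]
    · have e : ((gx, gy) : ℤ × ℤ) = (v.1 - 1, v.2 - 1) := Prod.ext (by simp only; omega) (by simp only; omega)
      rw [e, ← eW, eN]
  exact hf'C ((key f' hc').2 ((key f hc).1 hf))

open Classical in
/-- the flipped height at the corners -/
noncomputable def gf162Hv (F A : Finset (ℤ × ℤ)) (ω : RswCfg) (v : ℤ × ℤ) : ℝ :=
  if ∃ f ∈ gf162C F A ω, at92hCor f v then -rswH F ω v else rswH F ω v

open Classical in
/-- the flipped height at the faces -/
noncomputable def gf162Hf (F A : Finset (ℤ × ℤ)) (ω : RswCfg) (Hf : ℤ × ℤ → ℝ) (f : ℤ × ℤ) : ℝ :=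
  if f ∈ gf162C F A ω then -Hf f else Hf f

theorem gf162_isHeight {A : Finset (ℤ × ℤ)} {ω : RswCfg} {Hf : ℤ × ℤ → ℝ}
    (h : IsATHeight (rswTau F ω) (rswTauD F ω) (rswH F ω) Hf) :
    IsATHeight (rswTau F (gf162Flip F A ω)) (rswTauD F (gf162Flip F A ω)) (gf162Hv F A ω) (gf162Hf F A ω Hf) := by
  classical
  have h0 := h
  rw [at92h_isHeight_iff] at h ⊢
  refine ⟨fun v hv hP => ?_, fun f hf v hc => ?_⟩
  · unfold gf162Hv
    rw [h.1 v hv hP]
    simp
  · have hS : rswTau F (gf162Flip F A ω) = rswTau F ω := rfl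
    have a := h.2 f hf v hc
    rw [hS, rswd11_dual (gf162Flip F A ω) hf]
    rw [rswd11_dual ω hf] at a
    have hD : f ∈ (gf162Flip F A ω).D ↔ (f ∈ ω.D ∧ f ∉ gf162C F A ω ∨ f ∈ gf162C F A ω ∧ f ∉ ω.D) := by
      show f ∈ symmDiff ω.D (gf162C F A ω) ↔ _
      rw [Finset.mem_symmDiff]
    unfold gf162Hv gf162Hf
    by_cases hfC : f ∈ gf162C F A ω
    · rw [if_pos hfC, if_pos ⟨f, hfC, hc⟩]
      by_cases hd : f ∈ ω.D
      · rw [if_neg (by rw [hD]; tauto)]
        rw [if_pos hd] at a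
        push_cast at a ⊢
        linarith
      · rw [if_pos (by rw [hD]; tauto)]
        rw [if_neg hd] at a
        push_cast at a ⊢
        linarith
    · rw [if_neg hfC]
      have hd' : (f ∈ (gf162Flip F A ω).D) ↔ f ∈ ω.D := by rw [hD]; tauto
      have e : (if f ∈ (gf162Flip F A ω).D then (1 : ℤ) else -1) = if f ∈ ω.D then 1 else -1 := by
        by_cases hd : f ∈ ω.D
        · rw [if_pos hd, if_pos (hd'.2 hd)]
        · rw [if_neg hd, if_neg (fun hh => hd (hd'.1 hh))]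
      rw [e]
      by_cases hex : ∃ f₁ ∈ gf162C F A ω, at92hCor f₁ v
      · obtain ⟨f₁, hf₁, hc₁⟩ := hex
        have hz := gf162_zero h0 hf₁ hf hfC hc₁ hc
        rw [if_pos ⟨f₁, hf₁, hc₁⟩]
        rw [hz] at a ⊢
        rw [neg_zero]
        exact a
      · rw [if_neg hex]
        exact a

/-- the height of the flipped configuration -/
theorem gf162_H_flip {A : Finset (ℤ × ℤ)} {ω : RswCfg} {Hf : ℤ × ℤ → ℝ}
    (h : IsATHeight (rswTau F ω) (rswTauD F ω) (rswH F ω) Hf) {v : ℤ × ℤ} (hv : v ∈ cornersOf F) :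
    rswH F (gf162Flip F A ω) v = gf162Hv F A ω v :=
  at92h_eq (gf162_isHeight h) v hv

theorem gf162_H_zero_iff {A : Finset (ℤ × ℤ)} {ω : RswCfg} {Hf : ℤ × ℤ → ℝ}
    (h : IsATHeight (rswTau F ω) (rswTauD F ω) (rswH F ω) Hf) {v : ℤ × ℤ} (hv : v ∈ cornersOf F) :
    rswH F (gf162Flip F A ω) v = 0 ↔ rswH F ω v = 0 := by
  classical
  rw [gf162_H_flip h hv]
  unfold gf162Hv
  split_ifs
  · exact neg_eq_zero
  · exact Iff.rfl

/-! ### invariance of the cluster -/

theorem gf162_good_flip {A : Finset (ℤ × ℤ)} {ω : RswCfg} {Hf : ℤ × ℤ → ℝ}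
    (h : IsATHeight (rswTau F ω) (rswTauD F ω) (rswH F ω) Hf) {e : (ℤ × ℤ) × Bool} (he : e.1 ∈ F) :
    GaussGood0 F (gf162Flip F A ω) e ↔ GaussGood0 F ω e := by
  unfold GaussGood0
  rw [gf162_H_zero_iff h (rswd11_face_corner he), gf162_H_zero_iff h (rswd11_end_corner he)]
  exact Iff.rfl

theorem gf162_step_flip {A : Finset (ℤ × ℤ)} {ω : RswCfg} {Hf : ℤ × ℤ → ℝ}
    (h : IsATHeight (rswTau F ω) (rswTauD F ω) (rswH F ω) Hf) :
    GaussStep0 F (gf162Flip F A ω) = GaussStep0 F ω := by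
  funext f g
  refine propext ⟨?_, ?_⟩
  · rintro ⟨hf, hg, e, he, hn⟩
    have heF : e.1 ∈ F := by
      rcases he with ⟨rfl, -⟩ | ⟨rfl, -⟩
      exacts [hf, hg]
    exact ⟨hf, hg, e, he, fun hh => hn ((gf162_good_flip h heF).2 hh)⟩
  · rintro ⟨hf, hg, e, he, hn⟩
    have heF : e.1 ∈ F := by
      rcases he with ⟨rfl, -⟩ | ⟨rfl, -⟩
      exacts [hf, hg]
    exact ⟨hf, hg, e, he, fun hh => hn ((gf162_good_flip h heF).1 hh)⟩

theorem gf162_C_flip {A : Finset (ℤ × ℤ)} {ω : RswCfg} {Hf : ℤ × ℤ → ℝ}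
    (h : IsATHeight (rswTau F ω) (rswTauD F ω) (rswH F ω) Hf) :
    gf162C F A (gf162Flip F A ω) = gf162C F A ω := by
  ext f
  rw [gf162_mem_C, gf162_mem_C, gf162_step_flip h]

theorem gf162_sep_flip {A : Finset (ℤ × ℤ)} {ω : RswCfg} {Hf : ℤ × ℤ → ℝ}
    (h : IsATHeight (rswTau F ω) (rswTauD F ω) (rswH F ω) Hf) (B : Finset (ℤ × ℤ)) :
    GaussSep0 F (gf162Flip F A ω) A B ↔ GaussSep0 F ω A B := by
  unfold GaussSep0
  rw [gf162_step_flip h]

theorem gf162_flip_flip {A : Finset (ℤ × ℤ)} {ω : RswCfg} {Hf : ℤ × ℤ → ℝ}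
    (h : IsATHeight (rswTau F ω) (rswTauD F ω) (rswH F ω) Hf) :
    gf162Flip F A (gf162Flip F A ω) = ω := by
  have e : gf162Flip F A (gf162Flip F A ω)
      = ⟨ω.S, symmDiff (symmDiff ω.D (gf162C F A ω)) (gf162C F A (gf162Flip F A ω)), ω.O⟩ := rfl
  rw [e, gf162_C_flip h, symmDiff_symmDiff_cancel_right]

/-! ### the observables -/

open Classical in
/-- the observable of `GaussFlip` -/
noncomputable def gf162Obs (F A B : Finset (ℤ × ℤ)) (X Y : (ℤ × ℤ → ℝ) → ℝ) (ω : RswCfg) : ℝ :=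
  if GaussSep0 F ω A B then X (rswH F ω) * Y (rswH F ω) else 0

theorem gf162_obs {A B : Finset (ℤ × ℤ)} {X Y : (ℤ × ℤ → ℝ) → ℝ} (hA : A ⊆ F) (hB : B ⊆ F)
    (hX : ∀ h h' : ℤ × ℤ → ℝ, (∀ v ∈ cornersOf A, h' v = -h v) → X h' = -X h)
    (hY : ∀ h h' : ℤ × ℤ → ℝ, (∀ v ∈ cornersOf B, h' v = h v) → Y h' = Y h)
    {ω : RswCfg} {Hf : ℤ × ℤ → ℝ} (h : IsATHeight (rswTau F ω) (rswTauD F ω) (rswH F ω) Hf) :
    gf162Obs F A B X Y (gf162Flip F A ω) = -gf162Obs F A B X Y ω := by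
  classical
  unfold gf162Obs
  by_cases hsep : GaussSep0 F ω A B
  · rw [if_pos hsep, if_pos ((gf162_sep_flip h B).2 hsep)]
    have e1 : X (rswH F (gf162Flip F A ω)) = -X (rswH F ω) := by
      refine hX _ _ fun v hv => ?_
      obtain ⟨a, ha, hc⟩ := at92h_mem_corners.1 hv
      rw [gf162_H_flip h (at92h_mem_corners.2 ⟨a, hA ha, hc⟩)]
      unfold gf162Hv
      rw [if_pos ⟨a, gf162_A_sub ω hA ha, hc⟩]
    have e2 : Y (rswH F (gf162Flip F A ω)) = Y (rswH F ω) := by
      refine hY _ _ fun v hv => ?_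
      obtain ⟨b, hb, hc⟩ := at92h_mem_corners.1 hv
      rw [gf162_H_flip h (at92h_mem_corners.2 ⟨b, hB hb, hc⟩)]
      have hbC : b ∉ gf162C F A ω := by
        intro hbC
        obtain ⟨-, a, ha, hr⟩ := gf162_mem_C.1 hbC
        exact hsep a ha b hb hr
      unfold gf162Hv
      by_cases hex : ∃ f ∈ gf162C F A ω, at92hCor f v
      · obtain ⟨f, hf, hcf⟩ := hex
        rw [if_pos ⟨f, hf, hcf⟩, gf162_zero h hf (hB hb) hbC hcf hc, neg_zero]
      · rw [if_neg hex]
    rw [e1, e2]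
    ring
  · rw [if_neg hsep, if_neg (fun hh => hsep ((gf162_sep_flip h B).1 hh)), neg_zero]

end

/-! ### the contract -/

/-- **[FLIP]** -/
theorem gf162_flip {F : Finset (ℤ × ℤ)} (hext : At92hExt F) (t : ℝ) : GaussFlip t F := by
  classical
  intro A B X Y hA hB hX hY
  have hsum : rswSum t F true (gf162Obs F A B X Y) = 0 := by
    unfold rswSum
    refine Finset.sum_eq_zero fun S _ => ?_
    rw [Finset.sum_comm]
    refine Finset.sum_eq_zero fun O _ => ?_
    set G : Finset (ℤ × ℤ) → ℝ := fun D => rswWt t F true ⟨S, D, O⟩ * gf162Obs F A B X Y ⟨S, D, O⟩ with hG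
    set ι : Finset (ℤ × ℤ) → Finset (ℤ × ℤ) := fun D =>
      if rswWt t F true ⟨S, D, O⟩ = 0 then D else symmDiff D (gf162C F A ⟨S, D, O⟩) with hι
    have hht : ∀ D, rswWt t F true ⟨S, D, O⟩ ≠ 0 →
        ∃ Hf, IsATHeight (rswTau F ⟨S, D, O⟩) (rswTauD F ⟨S, D, O⟩) (rswH F ⟨S, D, O⟩) Hf := fun D hw =>
      at92h_spec (at92h_exists hext (rswd11_adm_of_wt hw))
    have hfl : ∀ D, (⟨S, symmDiff D (gf162C F A ⟨S, D, O⟩), O⟩ : RswCfg) = gf162Flip F A ⟨S, D, O⟩ := fun D => rfl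
    have hmem : ∀ D ∈ F.powerset, ι D ∈ F.powerset := by
      intro D hD
      rw [Finset.mem_powerset] at hD ⊢
      simp only [hι]
      split_ifs
      · exact hD
      · intro f hf
        rw [Finset.mem_symmDiff] at hf
        rcases hf with hf | hf
        · exact hD hf.1
        · exact gf162_C_sub _ _ hf.1
    have hinv : ∀ D, ι (ι D) = D := by
      intro D
      by_cases hw : rswWt t F true ⟨S, D, O⟩ = 0
      · have e : ι D = D := by simp only [hι]; rw [if_pos hw]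
        rw [e, e]
      · have e : ι D = symmDiff D (gf162C F A ⟨S, D, O⟩) := by simp only [hι]; rw [if_neg hw]
        obtain ⟨Hf, h⟩ := hht D hw
        have hw' : rswWt t F true ⟨S, symmDiff D (gf162C F A ⟨S, D, O⟩), O⟩ ≠ 0 := by
          rw [hfl, gf162_wt]; exact hw
        have e' : ι (symmDiff D (gf162C F A ⟨S, D, O⟩))
            = symmDiff (symmDiff D (gf162C F A ⟨S, D, O⟩)) (gf162C F A ⟨S, symmDiff D (gf162C F A ⟨S, D, O⟩), O⟩) := by
          simp only [hι]; rw [if_neg hw']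
        rw [e, e', hfl, gf162_C_flip h, symmDiff_symmDiff_cancel_right]
    have hneg : ∀ D, G D = -G (ι D) := by
      intro D
      by_cases hw : rswWt t F true ⟨S, D, O⟩ = 0
      · have e : ι D = D := by simp only [hι]; rw [if_pos hw]
        rw [e]
        simp only [hG]
        rw [hw]
        simp
      · have e : ι D = symmDiff D (gf162C F A ⟨S, D, O⟩) := by simp only [hι]; rw [if_neg hw]
        obtain ⟨Hf, h⟩ := hht D hw
        rw [e]
        simp only [hG]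
        rw [hfl, gf162_wt, gf162_obs hA hB hX hY h]
        ring
    have key := Finset.sum_nbij' (s := F.powerset) (t := F.powerset) (f := G) (g := fun D => -G D) ι ι hmem hmem
      (fun D _ => hinv D) (fun D _ => hinv D) (fun D _ => hneg D)
    rw [Finset.sum_neg_distrib] at key
    have : ∑ D ∈ F.powerset, G D = 0 := by linarith
    exact this
  have e : (fun ω => if GaussSep0 F ω A B then X (rswH F ω) * Y (rswH F ω) else 0) = gf162Obs F A B X Y := by
    funext ω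
    unfold gf162Obs
    congr
  unfold rswE
  rw [e, hsum, zero_div]

end Claimed.Agent.R292
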