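import Claimed.Agent.R292.Defs.SPEC
import Claimed.Agent.R292.Height
import Claimed.Agent.R291.Wick.Weyl

/-!
# Row 292 (S0540), Gauss/Riem262 : CELL WEIGHTS AGAINST POINT WEIGHTS (block G-NEUT of unit GAUSS)      (owner helper262; prefix `riem262_`)      0 sorry

Model free.  Consumer: `R292/Gauss/Dec72.lean` (helper72), shapes of his message 111847, kept literally.
The frozen pairing of Def_0468 uses the POINT weights `δ² g(δ v)`; unit SPEC uses the CELL weights `aspWt δ g u = ∫_{aspCell δ u} g` (exactly neutral if `∫ g = 0`).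
* cells: `riem262_mem_cell`, `riem262_cell_meas`, `riem262_cell_disj`, `riem262_cell_cover`, `riem262_cell_vol`, `riem262_cell_dist`
* `riem262_Wt_zero`, `riem262_Wt_support`, `riem262_W_apply`, `riem262_W_tot`
* `riem262_Wt_sub_le`, `riem262_osc`, **`riem262_tendsto`** (continuity + compact support only, no rate)
* **`riem262_ultra`**: `K` compact, every subsequence of `x` has a sub-subsequence converging to a point of `K`  ⟹  `x` converges along every ultrafilter `𝒰 ≤ atTop` to a point of `K`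
* **`riem262_spec_ultra`**: the subsequential output of `exit_spec_green` read along an ultrafilter of meshes: ONE `β ∈ [β₀, β₁]` for all pairs of tests
* arrays: `riem262_polar` (neutral arrays: product of two linear statistics = combination of squared increments), `riem262_gam_eq`, `riem262_gam_cell`, linearity and size of `aspWt`
* geometry (port of `lim_dec_geo` of R291): `riem262_site_int`, `riem262_thick`, **`riem262_geo`** (the two boxes around an interior point), `riem262_small_box`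
-/

set_option autoImplicit false

namespace Claimed.Agent.R292

open Claims Claims.C0468 MeasureTheory Filter Topology Set
open Claimed.Agent.R291

/-! ### the cells -/

theorem riem262_mem_cell (δ : ℝ) (u : AspG) (z : ℝ × ℝ) :
    z ∈ aspCell δ u ↔ (δ * ((u.1 : ℝ) - 1 / 2) < z.1 ∧ z.1 ≤ δ * ((u.1 : ℝ) + 1 / 2)) ∧
      (δ * ((u.2 : ℝ) - 1 / 2) < z.2 ∧ z.2 ≤ δ * ((u.2 : ℝ) + 1 / 2)) := by
  simp only [aspCell, Set.mem_prod, Set.mem_Ioc]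

theorem riem262_cell_meas (δ : ℝ) (u : AspG) : MeasurableSet (aspCell δ u) :=
  measurableSet_Ioc.prod measurableSet_Ioc

theorem riem262_int_eq {δ : ℝ} (hδ : 0 < δ) {a b : ℤ} {x : ℝ} (h1 : δ * ((a : ℝ) - 1 / 2) < x) (h2 : x ≤ δ * ((a : ℝ) + 1 / 2))
    (h3 : δ * ((b : ℝ) - 1 / 2) < x) (h4 : x ≤ δ * ((b : ℝ) + 1 / 2)) : a = b := by
  have k1 : δ * ((a : ℝ) - 1 / 2) < δ * ((b : ℝ) + 1 / 2) := lt_of_lt_of_le h1 h4
  have k2 : δ * ((b : ℝ) - 1 / 2) < δ * ((a : ℝ) + 1 / 2) := lt_of_lt_of_le h3 h2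
  have k1' : (a : ℝ) - 1 / 2 < (b : ℝ) + 1 / 2 := lt_of_mul_lt_mul_left k1 hδ.le
  have k2' : (b : ℝ) - 1 / 2 < (a : ℝ) + 1 / 2 := lt_of_mul_lt_mul_left k2 hδ.le
  have e1 : (a : ℝ) < (b : ℝ) + 1 := by linarith
  have e2 : (b : ℝ) < (a : ℝ) + 1 := by linarith
  have f1 : a < b + 1 := by exact_mod_cast e1
  have f2 : b < a + 1 := by exact_mod_cast e2
  omega

theorem riem262_cell_disj {δ : ℝ} (hδ : 0 < δ) : Pairwise (Function.onFun Disjoint (aspCell δ)) := by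
  intro u v huv
  show Disjoint (aspCell δ u) (aspCell δ v)
  rw [Set.disjoint_left]
  intro z hu hv
  rw [riem262_mem_cell] at hu hv
  exact huv (Prod.ext (riem262_int_eq hδ hu.1.1 hu.1.2 hv.1.1 hv.1.2) (riem262_int_eq hδ hu.2.1 hu.2.2 hv.2.1 hv.2.2))

theorem riem262_ceil {δ : ℝ} (hδ : 0 < δ) (x : ℝ) :
    δ * (((⌈x / δ - 1 / 2⌉ : ℤ) : ℝ) - 1 / 2) < x ∧ x ≤ δ * (((⌈x / δ - 1 / 2⌉ : ℤ) : ℝ) + 1 / 2) := by
  have h1 := Int.ceil_lt_add_one (x / δ - 1 / 2)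
  have h2 := Int.le_ceil (x / δ - 1 / 2)
  have e : δ * (x / δ) = x := by field_simp
  constructor
  · have : δ * (((⌈x / δ - 1 / 2⌉ : ℤ) : ℝ) - 1 / 2) < δ * (x / δ) := mul_lt_mul_of_pos_left (by linarith) hδ
    rwa [e] at this
  · have : δ * (x / δ) ≤ δ * (((⌈x / δ - 1 / 2⌉ : ℤ) : ℝ) + 1 / 2) := mul_le_mul_of_nonneg_left (by linarith) hδ.le
    rwa [e] at this

theorem riem262_cell_cover {δ : ℝ} (hδ : 0 < δ) (z : ℝ × ℝ) : ∃ u : AspG, z ∈ aspCell δ u :=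
  ⟨(⌈z.1 / δ - 1 / 2⌉, ⌈z.2 / δ - 1 / 2⌉), (riem262_mem_cell _ _ _).2 ⟨riem262_ceil hδ z.1, riem262_ceil hδ z.2⟩⟩

theorem riem262_iUnion {δ : ℝ} (hδ : 0 < δ) : (⋃ u, aspCell δ u) = univ :=
  eq_univ_of_forall fun z => mem_iUnion.2 (riem262_cell_cover hδ z)

theorem riem262_cell_vol {δ : ℝ} (hδ : 0 < δ) (u : AspG) : volume (aspCell δ u) = ENNReal.ofReal (δ ^ 2) := by
  unfold aspCell
  rw [Measure.volume_eq_prod, Measure.prod_prod, Real.volume_Ioc, Real.volume_Ioc, ← ENNReal.ofReal_mul (by nlinarith)]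
  congr 1
  ring

theorem riem262_cell_real {δ : ℝ} (hδ : 0 < δ) (u : AspG) : volume.real (aspCell δ u) = δ ^ 2 := by
  rw [Measure.real, riem262_cell_vol hδ, ENNReal.toReal_ofReal (by positivity)]

theorem riem262_cell_lt_top {δ : ℝ} (hδ : 0 < δ) (u : AspG) : volume (aspCell δ u) < ⊤ := by
  rw [riem262_cell_vol hδ]; exact ENNReal.ofReal_lt_top

/-- a point of a cell is within `δ / 2` (sup metric) of its centre -/
theorem riem262_cell_dist {δ : ℝ} (_hδ : 0 < δ) {u : AspG} {z : ℝ × ℝ} (hz : z ∈ aspCell δ u) :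
    dist z (δ * (u.1 : ℝ), δ * (u.2 : ℝ)) ≤ δ / 2 := by
  rw [riem262_mem_cell] at hz
  rw [Prod.dist_eq, max_le_iff, Real.dist_eq, Real.dist_eq, abs_le, abs_le]
  refine ⟨⟨?_, ?_⟩, ?_, ?_⟩ <;> simp only [] <;> nlinarith [hz.1.1, hz.1.2, hz.2.1, hz.2.2]

theorem riem262_cell_integrableOn {g : ℝ × ℝ → ℝ} (hg : Continuous g) (δ : ℝ) (u : AspG) : IntegrableOn g (aspCell δ u) :=
  (hg.continuousOn.integrableOn_compact (isCompact_Icc.prod isCompact_Icc)).mono_set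
    (Set.prod_mono Ioc_subset_Icc_self Ioc_subset_Icc_self)

/-! ### the cell weights -/

theorem riem262_Wt_zero {δ : ℝ} {g : ℝ × ℝ → ℝ} {u : AspG} (h : ∀ z ∈ aspCell δ u, g z = 0) : aspWt δ g u = 0 :=
  setIntegral_eq_zero_of_forall_eq_zero h

/-- the box of sites of sup norm at most `N` -/
noncomputable def riem262Box (N : ℕ) : Finset (ℤ × ℤ) := Finset.Icc (-(N : ℤ)) N ×ˢ Finset.Icc (-(N : ℤ)) N

theorem riem262_mem_box (N : ℕ) (u : ℤ × ℤ) : u ∈ riem262Box N ↔ (-(N : ℤ) ≤ u.1 ∧ u.1 ≤ N) ∧ (-(N : ℤ) ≤ u.2 ∧ u.2 ≤ N) := by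
  simp only [riem262Box, Finset.mem_product, Finset.mem_Icc]

theorem riem262_box_card (N : ℕ) : ((riem262Box N).card : ℝ) = (2 * (N : ℝ) + 1) ^ 2 := by
  unfold riem262Box
  rw [Finset.card_product, Int.card_Icc]
  have : ((N : ℤ) + 1 - -(N : ℤ)).toNat = 2 * N + 1 := by omega
  rw [this]
  push_cast
  ring

/-- one coordinate: a site whose cell (or which itself) is within `δ` of a point of modulus `≤ R` -/
theorem riem262_coord {δ R x : ℝ} (hδ : 0 < δ) {a : ℤ} {N : ℕ} (hN : R / δ + 1 ≤ N) (hx : |x| ≤ R) (h : |x - δ * (a : ℝ)| ≤ δ) :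
    -(N : ℤ) ≤ a ∧ a ≤ N := by
  rw [abs_le] at hx h
  have hN' : R + δ ≤ δ * N := by
    have : δ * (R / δ + 1) ≤ δ * N := mul_le_mul_of_nonneg_left hN hδ.le
    have e : δ * (R / δ + 1) = R + δ := by field_simp
    linarith
  have h1 : δ * (a : ℝ) ≤ δ * (N : ℝ) := by linarith [h.1, hx.2]
  have h2 : δ * (-(N : ℝ)) ≤ δ * (a : ℝ) := by linarith [h.2, hx.1]
  have h1' : (a : ℝ) ≤ (N : ℝ) := le_of_mul_le_mul_left h1 hδ
  have h2' : -(N : ℝ) ≤ (a : ℝ) := le_of_mul_le_mul_left h2 hδ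
  constructor
  · exact_mod_cast h2'
  · exact_mod_cast h1'

/-- radius of the support -/
theorem riem262_radius {g : ℝ × ℝ → ℝ} (hc : HasCompactSupport g) : ∃ R : ℝ, 0 ≤ R ∧ ∀ z, g z ≠ 0 → |z.1| ≤ R ∧ |z.2| ≤ R := by
  obtain ⟨R, hR⟩ := hc.isCompact.isBounded.subset_closedBall 0
  refine ⟨max R 0, le_max_right _ _, fun z hz => ?_⟩
  have h1 : z ∈ Metric.closedBall (0 : ℝ × ℝ) R := hR (subset_tsupport g hz)
  rw [Metric.mem_closedBall, Prod.dist_eq, max_le_iff, Real.dist_eq, Real.dist_eq] at h1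
  simp only [Prod.fst_zero, Prod.snd_zero, sub_zero] at h1
  exact ⟨h1.1.trans (le_max_left _ _), h1.2.trans (le_max_left _ _)⟩

theorem riem262_Wt_box {δ R : ℝ} (hδ : 0 < δ) {g : ℝ × ℝ → ℝ} (hR : ∀ z, g z ≠ 0 → |z.1| ≤ R ∧ |z.2| ≤ R) {N : ℕ} (hN : R / δ + 1 ≤ N)
    {u : AspG} (hu : u ∉ riem262Box N) : aspWt δ g u = 0 := by
  refine riem262_Wt_zero fun z hz => ?_
  by_contra hne
  apply hu
  have hd := riem262_cell_dist hδ hz
  rw [Prod.dist_eq, max_le_iff, Real.dist_eq, Real.dist_eq] at hd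
  rw [riem262_mem_box]
  exact ⟨riem262_coord hδ hN (hR z hne).1 (hd.1.trans (by linarith)), riem262_coord hδ hN (hR z hne).2 (hd.2.trans (by linarith))⟩

theorem riem262_pt_box {δ R : ℝ} (hδ : 0 < δ) {g : ℝ × ℝ → ℝ} (hR : ∀ z, g z ≠ 0 → |z.1| ≤ R ∧ |z.2| ≤ R) {N : ℕ} (hN : R / δ + 1 ≤ N)
    {u : ℤ × ℤ} (hu : u ∉ riem262Box N) : g (δ * (u.1 : ℝ), δ * (u.2 : ℝ)) = 0 := by
  by_contra hne
  apply hu
  rw [riem262_mem_box]
  have := hR _ hne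
  exact ⟨riem262_coord hδ hN this.1 (by simp [hδ.le]), riem262_coord hδ hN this.2 (by simp [hδ.le])⟩

theorem riem262_Wt_support {δ : ℝ} (hδ : 0 < δ) {g : ℝ × ℝ → ℝ} (hc : HasCompactSupport g) : (Function.support (aspWt δ g)).Finite := by
  obtain ⟨R, -, hR⟩ := riem262_radius hc
  obtain ⟨N, hN⟩ := exists_nat_ge (R / δ + 1)
  refine (riem262Box N).finite_toSet.subset fun u hu => ?_
  by_contra hn
  exact hu (riem262_Wt_box hδ hR hN hn)

theorem riem262_W_apply {δ : ℝ} (hδ : 0 < δ) {g : ℝ × ℝ → ℝ} (hc : HasCompactSupport g) (u : AspG) : aspW δ g u = aspWt δ g u := by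
  unfold aspW
  rw [dif_pos (riem262_Wt_support hδ hc)]
  rfl

theorem riem262_hasSum {δ : ℝ} (hδ : 0 < δ) {g : ℝ × ℝ → ℝ} (hg : Continuous g) (hc : HasCompactSupport g) :
    HasSum (aspWt δ g) (∫ z, g z) := by
  have h := hasSum_integral_iUnion (f := g) (μ := volume) (s := aspCell δ) (riem262_cell_meas δ) (riem262_cell_disj hδ)
    (hg.integrable_of_hasCompactSupport hc).integrableOn
  rw [riem262_iUnion hδ, setIntegral_univ] at h
  exact h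

/-- the integral is the finite sum of the cell weights over any finite set which contains their support -/
theorem riem262_sum_Wt {δ : ℝ} (hδ : 0 < δ) {g : ℝ × ℝ → ℝ} (hg : Continuous g) (hc : HasCompactSupport g) {S : Finset AspG}
    (hS : ∀ u, u ∉ S → aspWt δ g u = 0) : ∑ u ∈ S, aspWt δ g u = ∫ z, g z :=
  (hasSum_sum_of_ne_finset_zero hS).unique (riem262_hasSum hδ hg hc)

theorem riem262_W_tot {δ : ℝ} (hδ : 0 < δ) {g : ℝ × ℝ → ℝ} (hg : Continuous g) (hc : HasCompactSupport g) : aspTot (aspW δ g) = ∫ z, g z := by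
  unfold aspTot Finsupp.sum
  rw [← riem262_sum_Wt hδ hg hc (S := (aspW δ g).support) fun u hu => by
    rw [← riem262_W_apply hδ hc]; exact Finsupp.notMem_support_iff.1 hu]
  exact Finset.sum_congr rfl fun u _ => riem262_W_apply hδ hc u

theorem riem262_Wt_sub_le {δ : ℝ} (hδ : 0 < δ) {g : ℝ × ℝ → ℝ} (hg : Continuous g) (u : AspG) {ω : ℝ}
    (h : ∀ z ∈ aspCell δ u, |g z - g (δ * u.1, δ * u.2)| ≤ ω) : |aspWt δ g u - δ ^ 2 * g (δ * u.1, δ * u.2)| ≤ δ ^ 2 * ω := by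
  have e : aspWt δ g u - δ ^ 2 * g (δ * u.1, δ * u.2) = ∫ z in aspCell δ u, (g z - g (δ * u.1, δ * u.2)) := by
    rw [integral_sub (riem262_cell_integrableOn hg δ u) (integrableOn_const (riem262_cell_lt_top hδ u).ne), setIntegral_const,
      riem262_cell_real hδ, smul_eq_mul]
    rfl
  rw [e]
  have := norm_setIntegral_le_of_norm_le_const (μ := volume) (f := fun z => g z - g (δ * u.1, δ * u.2)) (riem262_cell_lt_top hδ u)
    (C := ω) (fun z hz => by rw [Real.norm_eq_abs]; exact h z hz)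
  rw [Real.norm_eq_abs, riem262_cell_real hδ] at this
  linarith

theorem riem262_osc {g : ℝ × ℝ → ℝ} (hg : Continuous g) (hc : HasCompactSupport g) {ε : ℝ} (hε : 0 < ε) :
    ∃ ρ : ℝ, 0 < ρ ∧ ∀ δ : ℝ, 0 < δ → δ < ρ → ∀ u : AspG, ∀ z ∈ aspCell δ u, |g z - g (δ * u.1, δ * u.2)| ≤ ε := by
  obtain ⟨ρ, hρ, H⟩ := Metric.uniformContinuous_iff.1 (hc.uniformContinuous_of_continuous hg) ε hε
  refine ⟨ρ, hρ, fun δ hδ hδρ u z hz => ?_⟩
  have := H (a := z) (b := (δ * (u.1 : ℝ), δ * (u.2 : ℝ))) (lt_of_le_of_lt (riem262_cell_dist hδ hz) (by linarith))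
  rw [Real.dist_eq] at this
  exact this.le

theorem riem262_sum_eq {ι : Type*} (S T : Finset ι) (f : ι → ℝ) (hS : ∀ v, f v ≠ 0 → v ∈ S) (hT : ∀ v, f v ≠ 0 → v ∈ T) :
    ∑ v ∈ S, f v = ∑ v ∈ T, f v := by
  classical
  have h1 : ∑ v ∈ S, f v = ∑ v ∈ S ∪ T, f v := Finset.sum_subset Finset.subset_union_left fun v _ hv => by
    by_contra hne; exact hv (hS v hne)
  have h2 : ∑ v ∈ T, f v = ∑ v ∈ S ∪ T, f v := Finset.sum_subset Finset.subset_union_right fun v _ hv => by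
    by_contra hne; exact hv (hT v hne)
  rw [h1, h2]

/-- quantitative form at one mesh -/
theorem riem262_one {g : ℝ × ℝ → ℝ} (hg : Continuous g) (hc : HasCompactSupport g) {R : ℝ} (hR0 : 0 ≤ R)
    (hR : ∀ z, g z ≠ 0 → |z.1| ≤ R ∧ |z.2| ≤ R) {δ ω : ℝ} (hδ : 0 < δ) (hδ1 : δ ≤ 1)
    (hω : ∀ u : AspG, ∀ z ∈ aspCell δ u, |g z - g (δ * u.1, δ * u.2)| ≤ ω) (S : Finset (ℤ × ℤ))
    (hS : ∀ v : ℤ × ℤ, g (δ * v.1, δ * v.2) ≠ 0 → v ∈ S) :
    |δ ^ 2 * ∑ v ∈ S, g (δ * v.1, δ * v.2) - ∫ y, g y| ≤ (2 * R + 5) ^ 2 * ω := by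
  set N : ℕ := ⌈R / δ + 1⌉₊ with hNdef
  have hN : R / δ + 1 ≤ N := Nat.le_ceil _
  have hN2 : (N : ℝ) < R / δ + 1 + 1 := Nat.ceil_lt_add_one (by positivity)
  have hω0 : 0 ≤ ω := (abs_nonneg _).trans (hω 0 (0, 0) (by
    rw [riem262_mem_cell]; simp only [Prod.fst_zero, Prod.snd_zero, Int.cast_zero]
    refine ⟨⟨?_, ?_⟩, ?_, ?_⟩ <;> nlinarith))
  rw [riem262_sum_eq S (riem262Box N) (fun v => g (δ * v.1, δ * v.2)) hS fun v hv => by
    by_contra hn; exact hv (riem262_pt_box hδ hR hN hn)]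
  rw [← riem262_sum_Wt hδ hg hc (S := riem262Box N) fun u hu => riem262_Wt_box hδ hR hN hu, Finset.mul_sum, ← Finset.sum_sub_distrib]
  refine (Finset.abs_sum_le_sum_abs _ _).trans ?_
  have h1 : ∀ u ∈ riem262Box N, |δ ^ 2 * g (δ * u.1, δ * u.2) - aspWt δ g u| ≤ δ ^ 2 * ω := fun u _ => by
    rw [abs_sub_comm]; exact riem262_Wt_sub_le hδ hg u (hω u)
  refine (Finset.sum_le_card_nsmul _ _ _ h1).trans ?_
  rw [nsmul_eq_mul, riem262_box_card, ← mul_assoc]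
  refine mul_le_mul_of_nonneg_right ?_ hω0
  rw [← mul_pow]
  refine pow_le_pow_left₀ (by positivity) ?_ 2
  have e : δ * (R / δ) = R := by field_simp
  have : (2 * (N : ℝ) + 1) * δ < (2 * (R / δ + 1 + 1) + 1) * δ := mul_lt_mul_of_pos_right (by linarith) hδ
  nlinarith

theorem riem262_tendsto {g : ℝ × ℝ → ℝ} (hg : Continuous g) (hc : HasCompactSupport g) {δ : ℕ → ℝ} (hδ : ∀ n, 0 < δ n)
    (hδ0 : Filter.Tendsto δ Filter.atTop (nhds 0)) (S : ℕ → Finset (ℤ × ℤ))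
    (hS : ∀ᶠ n in Filter.atTop, ∀ v : ℤ × ℤ, g (δ n * v.1, δ n * v.2) ≠ 0 → v ∈ S n) :
    Filter.Tendsto (fun n => δ n ^ 2 * ∑ v ∈ S n, g (δ n * v.1, δ n * v.2)) Filter.atTop (nhds (∫ y, g y)) := by
  obtain ⟨R, hR0, hR⟩ := riem262_radius hc
  rw [Metric.tendsto_nhds]
  intro ε hε
  have hε' : 0 < ε / (2 * (2 * R + 5) ^ 2) := by positivity
  obtain ⟨ρ, hρ, H⟩ := riem262_osc hg hc hε'
  filter_upwards [hS, hδ0.eventually (gt_mem_nhds hρ), hδ0.eventually (ge_mem_nhds one_pos)] with n h1 h2 h3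
  rw [Real.dist_eq]
  refine lt_of_le_of_lt (riem262_one hg hc hR0 hR (hδ n) h3 (H (δ n) (hδ n) h2) (S n) h1) ?_
  have : (2 * R + 5) ^ 2 * (ε / (2 * (2 * R + 5) ^ 2)) = ε / 2 := by field_simp
  rw [this]
  linarith

/-! ### from subsequences to ultrafilters -/

/-- a set of an ultrafilter finer than `atTop` is visited frequently -/
theorem riem262_frequently {𝒰 : Ultrafilter ℕ} (hU : (𝒰 : Filter ℕ) ≤ atTop) {A : Set ℕ} (hA : A ∈ 𝒰) : ∃ᶠ n in atTop, n ∈ A := by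
  intro h
  have h1 : Aᶜ ∈ (𝒰 : Filter ℕ) := hU h
  have h2 : A ∩ Aᶜ ∈ (𝒰 : Filter ℕ) := Filter.inter_mem hA h1
  rw [Set.inter_compl_self] at h2
  exact 𝒰.neBot.ne (Filter.empty_mem_iff_bot.1 h2)

/-- **subsequences to ultrafilters**: if every subsequence of `x` has a sub-subsequence which converges to a point of the compact set `K`, then `x` converges along
every ultrafilter finer than `atTop` to a point of `K` -/
theorem riem262_ultra {X : Type*} [TopologicalSpace X] {K : Set X} (hK : IsCompact K) (x : ℕ → X)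
    (h : ∀ ns : ℕ → ℕ, StrictMono ns → ∃ ms : ℕ → ℕ, StrictMono ms ∧ ∃ k ∈ K, Tendsto (fun j => x (ns (ms j))) atTop (𝓝 k))
    (𝒰 : Ultrafilter ℕ) (hU : (𝒰 : Filter ℕ) ≤ atTop) : ∃ k ∈ K, Tendsto x 𝒰 (𝓝 k) := by
  classical
  by_contra hcon
  push Not at hcon
  have key : ∀ k ∈ K, ∃ V : Set X, IsOpen V ∧ k ∈ V ∧ (x ⁻¹' V)ᶜ ∈ 𝒰 := by
    intro k hk
    have h1 := hcon k hk
    rw [Filter.tendsto_def] at h1
    push Not at h1
    obtain ⟨W, hW, hW'⟩ := h1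
    obtain ⟨V, hVW, hVo, hkV⟩ := mem_nhds_iff.1 hW
    refine ⟨V, hVo, hkV, Ultrafilter.compl_mem_iff_notMem.2 fun hm => hW' ?_⟩
    exact Filter.mem_of_superset hm (Set.preimage_mono hVW)
  choose! V hVo hkV hVU using key
  obtain ⟨T, hTK, hcov⟩ := hK.elim_nhds_subcover V fun k hk => (hVo k hk).mem_nhds (hkV k hk)
  have hA : (⋂ k ∈ T, (x ⁻¹' V k)ᶜ) ∈ (𝒰 : Filter ℕ) := (Filter.biInter_finset_mem T).2 fun k hk => hVU k (hTK k hk)
  obtain ⟨ns, hns, hP⟩ := extraction_of_frequently_atTop (riem262_frequently hU hA)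
  obtain ⟨ms, -, k, hk, hlim⟩ := h ns hns
  obtain ⟨k0, hk0⟩ := Set.mem_iUnion.1 (hcov hk)
  obtain ⟨hk0T, hkV0⟩ := Set.mem_iUnion.1 hk0
  obtain ⟨j, hj⟩ := (hlim.eventually ((hVo k0 (hTK k0 hk0T)).mem_nhds hkV0)).exists
  have := Set.mem_iInter₂.1 (hP (ms j)) k0 hk0T
  exact this hj

/-- the same for a family of real sequences whose limits are an affine image of one parameter `β ∈ [β₀, β₁]` -/
theorem riem262_ultra_fam {ι : Type*} (Q : ℕ → ι → ℝ) (I : ι → ℝ) {β₀ β₁ : ℝ}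
    (h : ∀ ns : ℕ → ℕ, StrictMono ns → ∃ ms : ℕ → ℕ, StrictMono ms ∧ ∃ β : ℝ, β₀ ≤ β ∧ β ≤ β₁ ∧
      ∀ i, Tendsto (fun j => Q (ns (ms j)) i) atTop (𝓝 (β * I i)))
    (𝒰 : Ultrafilter ℕ) (hU : (𝒰 : Filter ℕ) ≤ atTop) :
    ∃ β : ℝ, β₀ ≤ β ∧ β ≤ β₁ ∧ ∀ i, Tendsto (fun n => Q n i) 𝒰 (𝓝 (β * I i)) := by
  have hcont : Continuous fun β : ℝ => fun i => β * I i := continuous_pi fun i => continuous_id.mul continuous_const
  have hK : IsCompact ((fun β : ℝ => fun i => β * I i) '' Set.Icc β₀ β₁) := isCompact_Icc.image hcont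
  obtain ⟨k, ⟨β, hβ, rfl⟩, hlim⟩ := riem262_ultra hK Q (fun ns hns => by
    obtain ⟨ms, hms, β, h1, h2, h3⟩ := h ns hns
    exact ⟨ms, hms, _, ⟨β, ⟨h1, h2⟩, rfl⟩, tendsto_pi_nhds.2 h3⟩) 𝒰 hU
  exact ⟨β, hβ.1, hβ.2, fun i => tendsto_pi_nhds.1 hlim i⟩

/-- Laplacian form of TEX[prop:plane-green] ALONG A FILTER of meshes -/
def Riem262PC (G : (AspG →₀ ℝ) → (AspG →₀ ℝ) → ℝ) (δ : ℕ → ℝ) (l : Filter ℕ) (v : ℝ) : Prop :=
  ∀ η g : ℝ × ℝ → ℝ, AspTest η → AspTest g → ∫ z, g z = 0 →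
    Tendsto (fun n => G (aspW (δ n) (lap2 η)) (aspW (δ n) g)) l (𝓝 (-v * ∫ z, η z * g z))

/-- TEX[prop:plane-green] ALONG A FILTER of meshes -/
def Riem262Green (G : (AspG →₀ ℝ) → (AspG →₀ ℝ) → ℝ) (δ : ℕ → ℝ) (l : Filter ℕ) (β : ℝ) : Prop :=
  ∀ f g : ℝ × ℝ → ℝ, AspTest f → AspTest g → ∫ z, f z = 0 → ∫ z, g z = 0 →
    Tendsto (fun n => G (aspW (δ n) f) (aspW (δ n) g)) l (𝓝 (β * aspL f g))

theorem riem262_PC_atTop {G : (AspG →₀ ℝ) → (AspG →₀ ℝ) → ℝ} {δ : ℕ → ℝ} {v : ℝ} : Riem262PC G δ atTop v ↔ AspPC G δ v := Iff.rfl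

theorem riem262_Green_atTop {G : (AspG →₀ ℝ) → (AspG →₀ ℝ) → ℝ} {δ : ℕ → ℝ} {β : ℝ} : Riem262Green G δ atTop β ↔ AspGreen G δ β := Iff.rfl

/-- **the conclusion of `exit_spec_green` read along an ultrafilter of meshes**: ONE `β ∈ [β₀, β₁]` for all pairs of tests, in both forms -/
theorem riem262_spec_ultra {G : (AspG →₀ ℝ) → (AspG →₀ ℝ) → ℝ} {β₀ β₁ : ℝ}
    (h : ∀ δ : ℕ → ℝ, (∀ n, 0 < δ n) → Tendsto δ atTop (𝓝 0) →
      ∃ ns : ℕ → ℕ, StrictMono ns ∧ ∃ β : ℝ, β₀ ≤ β ∧ β ≤ β₁ ∧ AspGreen G (δ ∘ ns) β ∧ AspPC G (δ ∘ ns) (2 * Real.pi * β))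
    (δ : ℕ → ℝ) (hδ : ∀ n, 0 < δ n) (hδ0 : Tendsto δ atTop (𝓝 0)) (𝒰 : Ultrafilter ℕ) (hU : (𝒰 : Filter ℕ) ≤ atTop) :
    ∃ β : ℝ, β₀ ≤ β ∧ β ≤ β₁ ∧ Riem262Green G δ 𝒰 β ∧ Riem262PC G δ 𝒰 (2 * Real.pi * β) := by
  classical
  -- index: a flag (Green / Laplacian form) and a pair of functions; invalid indices are sent to zero
  set okG : (ℝ × ℝ → ℝ) × (ℝ × ℝ → ℝ) → Prop := fun p => AspTest p.1 ∧ AspTest p.2 ∧ ∫ z, p.1 z = 0 ∧ ∫ z, p.2 z = 0 with hokG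
  set okP : (ℝ × ℝ → ℝ) × (ℝ × ℝ → ℝ) → Prop := fun p => AspTest p.1 ∧ AspTest p.2 ∧ ∫ z, p.2 z = 0 with hokP
  set Q : ℕ → ((ℝ × ℝ → ℝ) × (ℝ × ℝ → ℝ)) ⊕ ((ℝ × ℝ → ℝ) × (ℝ × ℝ → ℝ)) → ℝ := fun n i =>
    match i with
    | Sum.inl p => if okG p then G (aspW (δ n) p.1) (aspW (δ n) p.2) else 0
    | Sum.inr p => if okP p then G (aspW (δ n) (lap2 p.1)) (aspW (δ n) p.2) else 0 with hQ
  set I : ((ℝ × ℝ → ℝ) × (ℝ × ℝ → ℝ)) ⊕ ((ℝ × ℝ → ℝ) × (ℝ × ℝ → ℝ)) → ℝ := fun i =>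
    match i with
    | Sum.inl p => if okG p then aspL p.1 p.2 else 0
    | Sum.inr p => if okP p then -(2 * Real.pi) * ∫ z, p.1 z * p.2 z else 0 with hI
  obtain ⟨β, h1, h2, h3⟩ := riem262_ultra_fam Q I (β₀ := β₀) (β₁ := β₁) (fun ns hns => by
    obtain ⟨ms, hms, β, b1, b2, b3, b4⟩ := h (δ ∘ ns) (fun n => hδ _) (hδ0.comp hns.tendsto_atTop)
    refine ⟨ms, hms, β, b1, b2, fun i => ?_⟩
    rcases i with p | p
    · by_cases hp : okG p
      · simp only [hQ, hI, if_pos hp]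
        exact b3 p.1 p.2 hp.1 hp.2.1 hp.2.2.1 hp.2.2.2
      · simp only [hQ, hI, if_neg hp, mul_zero]
        exact tendsto_const_nhds
    · by_cases hp : okP p
      · simp only [hQ, hI, if_pos hp]
        have := b4 p.1 p.2 hp.1 hp.2.1 hp.2.2
        have e : β * (-(2 * Real.pi) * ∫ z, p.1 z * p.2 z) = -(2 * Real.pi * β) * ∫ z, p.1 z * p.2 z := by ring
        rw [e]
        exact this
      · simp only [hQ, hI, if_neg hp, mul_zero]
        exact tendsto_const_nhds) 𝒰 hU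
  refine ⟨β, h1, h2, fun f g hf hg h0 h0' => ?_, fun η g hη hg h0 => ?_⟩
  · have hp : okG (f, g) := ⟨hf, hg, h0, h0'⟩
    have := h3 (Sum.inl (f, g))
    simp only [hQ, hI, if_pos hp] at this
    exact this
  · have hp : okP (η, g) := ⟨hη, hg, h0⟩
    have := h3 (Sum.inr (η, g))
    simp only [hQ, hI, if_pos hp] at this
    have e : β * (-(2 * Real.pi) * ∫ z, η z * g z) = -(2 * Real.pi * β) * ∫ z, η z * g z := by ring
    rw [e] at this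
    exact this

/-! ### arrays -/

/-- polarisation of the variogram: for NEUTRAL arrays the product of the two linear statistics is a combination of squared increments -/
theorem riem262_polar {ι : Type*} (B : Finset ι) (w w' H : ι → ℝ) (h : ∑ u ∈ B, w u = 0) (h' : ∑ u ∈ B, w' u = 0) :
    (∑ u ∈ B, w u * H u) * (∑ v ∈ B, w' v * H v) = -(1 / 2) * ∑ u ∈ B, ∑ v ∈ B, w u * w' v * (H u - H v) ^ 2 := by
  have e : ∀ u v, w u * w' v * (H u - H v) ^ 2 = (w u * H u ^ 2) * w' v - 2 * ((w u * H u) * (w' v * H v)) + w u * (w' v * H v ^ 2) := by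
    intro u v; ring
  simp only [e, Finset.sum_add_distrib, Finset.sum_sub_distrib, ← Finset.mul_sum, ← Finset.sum_mul, h, h']
  ring

/-- `aspGam` as a double finite sum over any finite set which contains the two supports -/
theorem riem262_gam_eq (a : AspG → ℝ) (b b' : AspG →₀ ℝ) {B : Finset AspG} (hb : b.support ⊆ B) (hb' : b'.support ⊆ B) :
    aspGam a b b' = -(1 / 2) * ∑ u ∈ B, ∑ v ∈ B, b u * b' v * a (u - v) := by
  unfold aspGam
  congr 1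
  rw [Finsupp.sum_of_support_subset b hb _ (fun u _ => by simp [Finsupp.sum])]
  refine Finset.sum_congr rfl fun u _ => ?_
  rw [Finsupp.sum_of_support_subset b' hb' _ (fun v _ => by simp)]

theorem riem262_W_support {δ : ℝ} (hδ : 0 < δ) {g : ℝ × ℝ → ℝ} (hc : HasCompactSupport g) {B : Finset AspG}
    (hB : ∀ u, u ∉ B → aspWt δ g u = 0) : (aspW δ g).support ⊆ B := by
  intro u hu
  by_contra hn
  rw [Finsupp.mem_support_iff, riem262_W_apply hδ hc] at hu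
  exact hu (hB u hn)

/-- `aspGam` of two cell arrays -/
theorem riem262_gam_cell (a : AspG → ℝ) {δ : ℝ} (hδ : 0 < δ) {f g : ℝ × ℝ → ℝ} (hf : HasCompactSupport f) (hg : HasCompactSupport g)
    {B : Finset AspG} (hBf : ∀ u, u ∉ B → aspWt δ f u = 0) (hBg : ∀ u, u ∉ B → aspWt δ g u = 0) :
    aspGam a (aspW δ f) (aspW δ g) = -(1 / 2) * ∑ u ∈ B, ∑ v ∈ B, aspWt δ f u * aspWt δ g v * a (u - v) := by
  rw [riem262_gam_eq a _ _ (riem262_W_support hδ hf hBf) (riem262_W_support hδ hg hBg)]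
  simp only [riem262_W_apply hδ hf, riem262_W_apply hδ hg]

theorem riem262_Wt_add {f g : ℝ × ℝ → ℝ} (hf : Continuous f) (hg : Continuous g) (δ : ℝ) (u : AspG) :
    aspWt δ (fun z => f z + g z) u = aspWt δ f u + aspWt δ g u :=
  integral_add (riem262_cell_integrableOn hf δ u) (riem262_cell_integrableOn hg δ u)

theorem riem262_Wt_smul (c : ℝ) (f : ℝ × ℝ → ℝ) (δ : ℝ) (u : AspG) : aspWt δ (fun z => c * f z) u = c * aspWt δ f u :=
  integral_const_mul c _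

theorem riem262_Wt_neg (f : ℝ × ℝ → ℝ) (δ : ℝ) (u : AspG) : aspWt δ (fun z => -f z) u = -aspWt δ f u :=
  integral_neg _

/-- size of a cell weight -/
theorem riem262_Wt_abs_le {δ : ℝ} (hδ : 0 < δ) {g : ℝ × ℝ → ℝ} {M : ℝ} (hM : ∀ z, |g z| ≤ M) (u : AspG) : |aspWt δ g u| ≤ δ ^ 2 * M := by
  have := norm_setIntegral_le_of_norm_le_const (μ := volume) (f := g) (riem262_cell_lt_top hδ u) (C := M)
    (fun z _ => by rw [Real.norm_eq_abs]; exact hM z)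
  rw [Real.norm_eq_abs, riem262_cell_real hδ] at this
  unfold aspWt
  linarith

/-! ### geometry of an admissible approximation around an interior point (port of `lim_dec_geo` of R291/Lim/DecB) -/

/-- a lattice site inside the face region is an interior corner -/
theorem riem262_site_int {δ : ℝ} (hδ : 0 < δ) {F : Finset (ℤ × ℤ)} {u : ℤ × ℤ}
    (h : (δ * (u.1 : ℝ), δ * (u.2 : ℝ)) ∈ faceRegionSq δ F) : u ∈ cornersOf F ∧ ¬ OnPolygon F u := by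
  rw [at92h_region hδ F] at h
  have key : ∀ f : ℤ × ℤ, (f.1 = u.1 ∨ f.1 = u.1 - 1) → (f.2 = u.2 ∨ f.2 = u.2 - 1) → f ∈ F := by
    intro f h1 h2
    apply h f
    rw [at92h_mem_sq]
    simp only []
    rcases h1 with h1 | h1 <;> rcases h2 with h2 | h2 <;> rw [h1, h2] <;> push_cast <;>
      refine ⟨⟨?_, ?_⟩, ?_, ?_⟩ <;> nlinarith
  have hu : u ∈ F := key u (Or.inl rfl) (Or.inl rfl)
  refine ⟨at92h_self_mem_corners hu, fun hP => hP ⟨hu, key _ (Or.inr rfl) (Or.inl rfl), key _ (Or.inl rfl) (Or.inr rfl),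
    key _ (Or.inr rfl) (Or.inr rfl)⟩⟩

/-- the union of the closed discs of radius `R0` centred on a compact set lies in a compact subset of `D` -/
theorem riem262_thick {D K0 : Set (ℝ × ℝ)} (hK0 : IsCompact K0) {R0 : ℝ} (hR0 : 0 ≤ R0) (hsub : ∀ y0 ∈ K0, wkBall y0 R0 ⊆ D) :
    ∃ K : Set (ℝ × ℝ), IsCompact K ∧ K ⊆ D ∧ ∀ y0 ∈ K0, wkBall y0 R0 ⊆ K := by
  refine ⟨(fun p : (ℝ × ℝ) × (ℝ × ℝ) => p.1 + p.2) '' (K0 ×ˢ wkBall 0 R0), (hK0.prod (wk_ball_compact 0 hR0)).image (by fun_prop), ?_, ?_⟩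
  · rintro _ ⟨⟨y0, w⟩, ⟨h1, h2⟩, rfl⟩
    apply hsub y0 h1
    have h2' : C0467.sqDist w 0 ≤ R0 ^ 2 := h2
    show C0467.sqDist (y0 + w) y0 ≤ R0 ^ 2
    unfold C0467.sqDist at h2' ⊢
    simpa using h2'
  · intro y0 hy0 z hz
    refine ⟨(y0, z - y0), ⟨hy0, ?_⟩, by simp⟩
    have hz' : C0467.sqDist z y0 ≤ R0 ^ 2 := hz
    show C0467.sqDist (z - y0) 0 ≤ R0 ^ 2
    unfold C0467.sqDist at hz' ⊢
    simpa using hz'

theorem riem262_floor {δ : ℝ} (hδ : 0 < δ) (x : ℝ) : |δ * ((⌊x / δ⌋ : ℤ) : ℝ) - x| ≤ δ := by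
  have h1 := Int.floor_le (x / δ)
  have h2 := Int.lt_floor_add_one (x / δ)
  have e : δ * (x / δ) = x := by field_simp
  have a1 : δ * ((⌊x / δ⌋ : ℤ) : ℝ) ≤ δ * (x / δ) := mul_le_mul_of_nonneg_left h1 hδ.le
  have a2 : δ * (x / δ) < δ * (((⌊x / δ⌋ : ℤ) : ℝ) + 1) := mul_lt_mul_of_pos_left h2 hδ
  rw [e] at a1 a2
  rw [abs_le]
  constructor <;> nlinarith

/-- **the two boxes around an interior point**.  `u0` = a site within `δ` of `y0`; the small box of radius `ρ` (`s + 2 δ ≤ ρ δ ≤ 3 s`) contains all the sites and all the cells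
which meet the disc of radius `s`; the big box of radius `L` (`cL ≤ L δ`) is made of INTERIOR corners of `F n` which lie in `wkBall y0 R0`. -/
theorem riem262_geo {D : Set (ℝ × ℝ)} {δ : ℕ → ℝ} {F : ℕ → Finset (ℤ × ℤ)} (hF : IsAdmissibleApprox D δ F)
    {K0 : Set (ℝ × ℝ)} (hK0 : IsCompact K0) {R0 : ℝ} (hR0 : 0 < R0) (hsub : ∀ y0 ∈ K0, wkBall y0 R0 ⊆ D) :
    ∀ y0 ∈ K0, ∀ s : ℝ, 0 < s → ∀ᶠ n in atTop, ∃ (u0 : ℤ × ℤ) (ρ L : ℕ),
      |δ n * (u0.1 : ℝ) - y0.1| ≤ δ n ∧ |δ n * (u0.2 : ℝ) - y0.2| ≤ δ n ∧ 1 ≤ ρ ∧ s + 2 * δ n ≤ ρ * δ n ∧ (ρ : ℝ) * δ n ≤ 3 * s ∧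
      R0 / 4 ≤ L * δ n ∧
      ∀ u : ℤ × ℤ, |u.1 - u0.1| ≤ (L : ℤ) → |u.2 - u0.2| ≤ (L : ℤ) →
        u ∈ cornersOf (F n) ∧ ¬ OnPolygon (F n) u ∧ (δ n * (u.1 : ℝ), δ n * (u.2 : ℝ)) ∈ wkBall y0 R0 := by
  obtain ⟨K, hK, hKD, hKsub⟩ := riem262_thick hK0 hR0.le hsub
  intro y0 hy0 s hs
  have e1 : ∀ᶠ n in atTop, δ n < 2 * s / 3 := hF.2.1.eventually (gt_mem_nhds (by positivity))
  have e2 : ∀ᶠ n in atTop, δ n < R0 / 8 := hF.2.1.eventually (gt_mem_nhds (by positivity))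
  filter_upwards [hF.2.2.1 K hK hKD, e1, e2] with n hn hn1 hn2
  have hδ : 0 < δ n := hF.1 n
  have hq : 0 < (s + 2 * δ n) / δ n := by positivity
  have hfl : (4 : ℝ) ≤ R0 / (2 * δ n) := by rw [le_div_iff₀ (by positivity)]; linarith
  have hfl1 : (⌊R0 / (2 * δ n)⌋₊ : ℝ) ≤ R0 / (2 * δ n) := Nat.floor_le (by positivity)
  have hfl2 : R0 / (2 * δ n) < (⌊R0 / (2 * δ n)⌋₊ : ℝ) + 1 := Nat.lt_floor_add_one _
  have hfl3 : 1 ≤ ⌊R0 / (2 * δ n)⌋₊ := by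
    have : (3 : ℝ) < (⌊R0 / (2 * δ n)⌋₊ : ℝ) := by linarith
    have : 3 < ⌊R0 / (2 * δ n)⌋₊ := by exact_mod_cast this
    omega
  have hLc : ((⌊R0 / (2 * δ n)⌋₊ - 1 : ℕ) : ℝ) = (⌊R0 / (2 * δ n)⌋₊ : ℝ) - 1 := by
    rw [Nat.cast_sub hfl3]; norm_num
  have hfd : (⌊R0 / (2 * δ n)⌋₊ : ℝ) * δ n ≤ R0 / 2 := by
    have := mul_le_mul_of_nonneg_right hfl1 hδ.le
    have e : R0 / (2 * δ n) * δ n = R0 / 2 := by field_simp
    linarith
  have hfd2 : R0 / 2 < ((⌊R0 / (2 * δ n)⌋₊ : ℝ) + 1) * δ n := by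
    have := mul_lt_mul_of_pos_right hfl2 hδ
    have e : R0 / (2 * δ n) * δ n = R0 / 2 := by field_simp
    linarith
  refine ⟨(⌊y0.1 / δ n⌋, ⌊y0.2 / δ n⌋), ⌈(s + 2 * δ n) / δ n⌉₊, ⌊R0 / (2 * δ n)⌋₊ - 1, riem262_floor hδ _, riem262_floor hδ _,
    Nat.ceil_pos.2 hq, ?_, ?_, ?_, ?_⟩
  · rw [← div_le_iff₀ hδ]; exact Nat.le_ceil _
  · have := Nat.ceil_lt_add_one hq.le
    have h2 : (⌈(s + 2 * δ n) / δ n⌉₊ : ℝ) * δ n < ((s + 2 * δ n) / δ n + 1) * δ n := mul_lt_mul_of_pos_right this hδ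
    have h3 : ((s + 2 * δ n) / δ n + 1) * δ n = s + 3 * δ n := by field_simp; ring
    linarith
  · rw [hLc]; nlinarith
  · intro u hu1 hu2
    have hball : (δ n * (u.1 : ℝ), δ n * (u.2 : ℝ)) ∈ wkBall y0 R0 := by
      have c : ∀ (a b : ℤ) (x : ℝ), |a - b| ≤ ((⌊R0 / (2 * δ n)⌋₊ - 1 : ℕ) : ℤ) → |δ n * (b : ℝ) - x| ≤ δ n → |δ n * (a : ℝ) - x| ≤ R0 / 2 := by
        intro a b x h1 h2
        have h1' : |(a : ℝ) - (b : ℝ)| ≤ (⌊R0 / (2 * δ n)⌋₊ : ℝ) - 1 := by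
          rw [← hLc]; exact_mod_cast h1
        have h3 : |δ n * (a : ℝ) - δ n * (b : ℝ)| ≤ δ n * ((⌊R0 / (2 * δ n)⌋₊ : ℝ) - 1) := by
          rw [← mul_sub, abs_mul, abs_of_pos hδ]
          exact mul_le_mul_of_nonneg_left h1' hδ.le
        have h4 : δ n * (a : ℝ) - x = (δ n * (a : ℝ) - δ n * (b : ℝ)) + (δ n * (b : ℝ) - x) := by ring
        rw [h4]
        refine (abs_add_le _ _).trans ?_
        nlinarith
      have c1 := c u.1 _ y0.1 hu1 (riem262_floor hδ _)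
      have c2 := c u.2 _ y0.2 hu2 (riem262_floor hδ _)
      show C0467.sqDist _ y0 ≤ R0 ^ 2
      unfold C0467.sqDist
      simp only []
      have d1 : (δ n * (u.1 : ℝ) - y0.1) ^ 2 ≤ (R0 / 2) ^ 2 := sq_le_sq' (by linarith [(abs_le.1 c1).1]) (abs_le.1 c1).2
      have d2 : (δ n * (u.2 : ℝ) - y0.2) ^ 2 ≤ (R0 / 2) ^ 2 := sq_le_sq' (by linarith [(abs_le.1 c2).1]) (abs_le.1 c2).2
      nlinarith
    have := riem262_site_int hδ (hn (hKsub y0 hy0 hball))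
    exact ⟨this.1, this.2, hball⟩

/-- a site (or the centre of a cell which meets the disc) within `s + δ / 2` of `y0` lies in the small box -/
theorem riem262_small_box {δ s x y : ℝ} (hδ : 0 < δ) {a b : ℤ} {ρ : ℕ} (hρ : s + 2 * δ ≤ ρ * δ) (hb : |δ * (b : ℝ) - y| ≤ δ)
    (hx : |x - y| ≤ s) (ha : |x - δ * (a : ℝ)| ≤ δ / 2) : |a - b| ≤ (ρ : ℤ) := by
  have h1 : |δ * ((a : ℝ) - (b : ℝ))| ≤ ρ * δ := by
    have e : δ * ((a : ℝ) - (b : ℝ)) = -(x - δ * (a : ℝ)) + (x - y) - (δ * (b : ℝ) - y) := by ring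
    rw [e]
    refine (abs_sub _ _).trans ?_
    have := abs_add_le (-(x - δ * (a : ℝ))) (x - y)
    rw [abs_neg] at this
    linarith
  rw [abs_mul, abs_of_pos hδ, mul_comm] at h1
  have h2 : |(a : ℝ) - (b : ℝ)| ≤ ρ := le_of_mul_le_mul_right h1 hδ
  exact_mod_cast h2

end Claimed.Agent.R292
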