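import Claimed.Agent.R292.Defs.RSW
import Claimed.Agent.R292.Defs.GAUSS
import Claimed.Agent.R292.Defs.GaussArch
import Claimed.Agent.R292.Height

/-!
# Row 292 (S0540), Gauss/Dict292 : THE DICTIONARY  `rswSum / rswE` (Defs/RSW)  <->  `at92Adm / at92W / gaussM` (Api, Defs/GAUSS)      (owner helper292; prefix `at92d`)

0 sorry.  THE CONSTANT IS ONE: per interior edge pair the sum of `rswFac` over open / closed is `1` (both agree), `t` (exactly one disagrees), `0` (both disagree);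
an edge which is not interior has both ends on the polygon, so it carries no primal disagreement under the PLUS boundary condition.
* `at92dP F ω`         the pair `(rswTau F ω, rswTauD F ω) : at92Cfg F`;      `rswH F ω = atHeight (at92dP F ω).1 (at92dP F ω).2` is `rfl`
* `at92d_marg_O`       `∑_O ∏_e rswFac = ∏_e at92dEw`;      `at92d_prod_fac` the product form of the conditional law of `O` given `(S, D)`
* `at92d_adm_iff`      `IsAdmissibleSpins` in the words of edges;      `at92d_dis` `atDisagreements = ∑_{e ∈ rswInt F} at92dN ω e`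
* `at92d_marg_wt`      `∑_O rswWt t F true ⟨S, D, O⟩ = at92W` on admissible pairs, `0` else
* **`at92d_sum`, `at92d_E`**   `rswSum / rswE t F true (Y ∘ at92dP F) = ∑_{at92Adm} at92W * Y` / `lmE (at92Adm F) (at92W t) Y`
* `at92d_Z`, `at92d_Z_pos`, **`at92d_gaussM`** (mixed moments), **`at92d_expect`** (frozen `atExpect`), `at92dX` (smeared height on `RswCfg`)
PART 2 (prefix `at92f`): THE ATTACHMENT OF THE ARCH TO THE WALL IS FREE (no topology).
* `At92fWall F A`      every face of `A` is chained inside `A` (faces sharing a corner) to a face with a corner on the polygon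
* **`at92f_sep0`**     `At92hExt F`, admissible pair, `A B ⊆ F` touch the wall: plain colour separation `RswSep F true ω A B` (Defs/RSW) ⟹ `GaussSep0 F ω A B` (Defs/GaussArch)
* **`at92f_P_le`**, **`at92f_box_P_le`**   `rswP (¬ GaussSep0) ≤ rswP (¬ RswSep)`; box form `A = F ∩ rswBox z r` (box not inside `F`), `B = F \ rswBox z R` = the shape of `exit_rsw_arm`
* `at92f_wall_in`, `at92f_wall_out`, `at92f_walk`, `at92f_adm_of_wt`, `at92f_P_mono`, `at92f_sep0_mono`, `at92fK`, `at92fFlip`, `at92f_flip_adm`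
PART 1, continued:
* `at92dAll`, `at92d_mem_all`, `at92d_sum_all`, **`at92d_E_all`** (`rswE t F b X = lmE (at92dAll F) (rswWt t F b) X`, any `X`, both colours), `at92d_wt_nonneg`, `at92d_Z_all_pos`
-/

set_option autoImplicit false

namespace Claimed.Agent.R292

open Claims Claims.C0468 Claimed.Agent.R291

/-! ## 1. powersets and Boolean functions -/

theorem at92d_pow_sum {α : Type*} [DecidableEq α] (A : Finset α) (h : (A → Bool) → ℝ) :
    ∑ S ∈ A.powerset, h (fun v => decide (v.1 ∈ S)) = ∑ τ : A → Bool, h τ := by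
  classical
  refine Finset.sum_bij' (fun S _ => fun v : A => decide (v.1 ∈ S))
    (fun τ _ => A.filter (fun v => ∃ hv : v ∈ A, τ ⟨v, hv⟩ = true)) ?_ ?_ ?_ ?_ ?_
  · intro S _; exact Finset.mem_univ _
  · intro τ _; exact Finset.mem_powerset.2 (Finset.filter_subset _ _)
  · intro S hS
    have hS' := Finset.mem_powerset.1 hS
    ext v
    simp only [Finset.mem_filter, decide_eq_true_eq]
    constructor
    · rintro ⟨_, _, h⟩; exact h
    · intro h; exact ⟨hS' h, hS' h, h⟩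
  · intro τ _
    funext v
    rcases hτ : τ v with _ | _
    · simp only [Finset.mem_filter, decide_eq_false_iff_not, not_and, not_exists]
      intro _ hv
      have : (⟨v.1, hv⟩ : A) = v := rfl
      rw [this, hτ]; simp
    · simp only [Finset.mem_filter, decide_eq_true_eq]
      exact ⟨v.2, v.2, hτ⟩
  · intro S _; rfl

/-! ## 2. the marginal over the `W` edges -/

/-- the weight of an interior edge after the sum over open / closed -/
noncomputable def at92dEw (t : ℝ) (S D : Finset (ℤ × ℤ)) (e : (ℤ × ℤ) × Bool) : ℝ :=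
  open Classical in
  if (e.1 ∈ S ↔ rswEnd e ∈ S) then (if (e.1 ∈ D ↔ rswCo e ∈ D) then 1 else t)
  else (if (e.1 ∈ D ↔ rswCo e ∈ D) then t else 0)

/-- factor of an open edge -/
noncomputable def at92dFo (t : ℝ) (S : Finset (ℤ × ℤ)) (e : (ℤ × ℤ) × Bool) : ℝ :=
  open Classical in if (e.1 ∈ S ↔ rswEnd e ∈ S) then t else 0

/-- factor of a closed edge -/
noncomputable def at92dFc (t : ℝ) (S D : Finset (ℤ × ℤ)) (e : (ℤ × ℤ) × Bool) : ℝ :=
  open Classical in
  if (e.1 ∈ D ↔ rswCo e ∈ D) then (if (e.1 ∈ S ↔ rswEnd e ∈ S) then 1 - t else t) else 0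

theorem at92d_ew_eq (t : ℝ) (S D : Finset (ℤ × ℤ)) (e : (ℤ × ℤ) × Bool) :
    at92dEw t S D e = at92dFo t S e + at92dFc t S D e := by
  unfold at92dEw at92dFo at92dFc
  split_ifs <;> ring

theorem at92d_prod_fac (t : ℝ) (E : Finset ((ℤ × ℤ) × Bool)) (S D : Finset (ℤ × ℤ)) {O : Finset ((ℤ × ℤ) × Bool)} (hO : O ⊆ E) :
    ∏ e ∈ E, rswFac t ⟨S, D, O⟩ e = (∏ e ∈ O, at92dFo t S e) * ∏ e ∈ E \ O, at92dFc t S D e := by
  classical
  rw [← Finset.prod_sdiff hO, mul_comm]
  congr 1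
  · refine Finset.prod_congr rfl fun e he => ?_
    unfold rswFac at92dFo
    rw [if_pos he]
  · refine Finset.prod_congr rfl fun e he => ?_
    unfold rswFac at92dFc
    rw [if_neg (Finset.mem_sdiff.1 he).2]

theorem at92d_marg_O (t : ℝ) (E : Finset ((ℤ × ℤ) × Bool)) (S D : Finset (ℤ × ℤ)) :
    ∑ O ∈ E.powerset, ∏ e ∈ E, rswFac t ⟨S, D, O⟩ e = ∏ e ∈ E, at92dEw t S D e := by
  classical
  simp only [at92d_ew_eq]
  rw [Finset.prod_add]
  exact Finset.sum_congr rfl fun O hO => at92d_prod_fac t E S D (Finset.mem_powerset.1 hO)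

/-! ## 3. the spins of Def_0468 read off a configuration -/

/-- the pair of Def_0468 read off a configuration -/
def at92dP (F : Finset (ℤ × ℤ)) (ω : RswCfg) : at92Cfg F := (rswTau F ω, rswTauD F ω)

theorem at92d_spin (F : Finset (ℤ × ℤ)) (ω : RswCfg) (v : ℤ × ℤ) :
    atSpin (rswTau F ω) v = if v ∈ cornersOf F then (if v ∈ ω.S then 1 else -1) else 1 := by
  unfold atSpin rswTau
  by_cases hv : v ∈ cornersOf F
  · rw [dif_pos hv, if_pos hv]; simp
  · rw [dif_neg hv, if_neg hv]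

theorem at92d_dual (F : Finset (ℤ × ℤ)) (ω : RswCfg) (f : ℤ × ℤ) :
    atDual (rswTauD F ω) f = if f ∈ F then (if f ∈ ω.D then 1 else -1) else 1 := by
  unfold atDual rswTauD
  by_cases hf : f ∈ F
  · rw [dif_pos hf, if_pos hf]; simp
  · rw [dif_neg hf, if_neg hf]

theorem at92d_spin_eq_one {F : Finset (ℤ × ℤ)} (ω : RswCfg) {v : ℤ × ℤ} (hv : v ∈ cornersOf F) :
    atSpin (rswTau F ω) v = 1 ↔ v ∈ ω.S := by
  rw [at92d_spin, if_pos hv]
  split_ifs with h <;> simp [h]

theorem at92d_spin_eq {F : Finset (ℤ × ℤ)} (ω : RswCfg) {v w : ℤ × ℤ} (hv : v ∈ cornersOf F) (hw : w ∈ cornersOf F) :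
    atSpin (rswTau F ω) v = atSpin (rswTau F ω) w ↔ (v ∈ ω.S ↔ w ∈ ω.S) := by
  rw [at92d_spin, at92d_spin, if_pos hv, if_pos hw]
  split_ifs with h1 h2 h2 <;> simp [h1, h2]

theorem at92d_dual_eq {F : Finset (ℤ × ℤ)} (ω : RswCfg) {f g : ℤ × ℤ} (hf : f ∈ F) (hg : g ∈ F) :
    atDual (rswTauD F ω) f = atDual (rswTauD F ω) g ↔ (f ∈ ω.D ↔ g ∈ ω.D) := by
  rw [at92d_dual, at92d_dual, if_pos hf, if_pos hg]
  split_ifs with h1 h2 h2 <;> simp [h1, h2]

theorem at92d_mem_int {F : Finset (ℤ × ℤ)} {e : (ℤ × ℤ) × Bool} : e ∈ rswInt F ↔ e.1 ∈ F ∧ rswCo e ∈ F := by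
  unfold rswInt
  simp [Finset.mem_filter, Finset.mem_product]

theorem at92d_end_corner {F : Finset (ℤ × ℤ)} {e : (ℤ × ℤ) × Bool} (he : e.1 ∈ F) : rswEnd e ∈ cornersOf F := by
  rw [at92h_mem_corners]
  refine ⟨e.1, he, ?_⟩
  unfold rswEnd at92hCor
  split_ifs <;> simp

theorem at92d_bc_iff (F : Finset (ℤ × ℤ)) (ω : RswCfg) :
    RswBc F true ω ↔ ∀ v ∈ cornersOf F, OnPolygon F v → atSpin (rswTau F ω) v = 1 := by
  unfold RswBc
  refine forall₂_congr fun v hv => ?_
  rw [at92d_spin_eq_one ω hv]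
  simp

theorem at92d_spin_one {F : Finset (ℤ × ℤ)} {ω : RswCfg} (h : RswBc F true ω) {v : ℤ × ℤ} (hv : OnPolygon F v) :
    atSpin (rswTau F ω) v = 1 := by
  by_cases hc : v ∈ cornersOf F
  · exact (at92d_bc_iff F ω).1 h v hc hv
  · unfold atSpin; rw [dif_neg hc]

/-- the two ends of an edge which is not interior are on the polygon -/
theorem at92d_bdry_edge {F : Finset (ℤ × ℤ)} {e : (ℤ × ℤ) × Bool} (he : e ∉ rswInt F) :
    OnPolygon F e.1 ∧ OnPolygon F (rswEnd e) := by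
  rw [at92d_mem_int, not_and_or] at he
  obtain ⟨⟨a, b⟩, c⟩ := e
  rcases he with he | he
  · refine ⟨at92h_onPolygon he (by simp [at92hCor]), at92h_onPolygon he ?_⟩
    unfold rswEnd at92hCor
    split_ifs <;> simp
  · refine ⟨at92h_onPolygon he ?_, at92h_onPolygon he ?_⟩
    · unfold rswCo at92hCor
      split_ifs <;> simp
    · unfold rswCo rswEnd at92hCor
      split_ifs <;> simp

/-- admissibility in the words of edges -/
theorem at92d_adm_iff (F : Finset (ℤ × ℤ)) (ω : RswCfg) :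
    IsAdmissibleSpins (rswTau F ω) (rswTauD F ω) ↔
      RswBc F true ω ∧ ∀ e ∈ rswInt F, (e.1 ∈ ω.S ↔ rswEnd e ∈ ω.S) ∨ (e.1 ∈ ω.D ↔ rswCo e ∈ ω.D) := by
  unfold IsAdmissibleSpins
  rw [← at92d_bc_iff]
  refine and_congr_right fun _ => ?_
  constructor
  · rintro h ⟨v, b⟩ he
    have he' := at92d_mem_int.1 he
    have hv := at92h_self_mem_corners he'.1
    have hw := at92d_end_corner (e := (v, b)) he'.1
    rw [← at92d_spin_eq ω hv hw, ← at92d_dual_eq ω he'.1 he'.2]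
    cases b
    · have := (h v hv).1 he'
      rw [mul_eq_zero, sub_eq_zero, sub_eq_zero] at this
      exact this
    · have := (h v hv).2 he'
      rw [mul_eq_zero, sub_eq_zero, sub_eq_zero] at this
      exact this
  · intro h v hv
    constructor
    · intro hh
      have he : (v, false) ∈ rswInt F := at92d_mem_int.2 hh
      have hw := at92d_end_corner (e := (v, false)) hh.1
      have he' := at92d_mem_int.1 he
      have := h _ he
      rw [← at92d_spin_eq ω hv hw, ← at92d_dual_eq ω he'.1 he'.2] at this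
      rw [mul_eq_zero, sub_eq_zero, sub_eq_zero]
      exact this
    · intro hh
      have he : (v, true) ∈ rswInt F := at92d_mem_int.2 hh
      have hw := at92d_end_corner (e := (v, true)) hh.1
      have he' := at92d_mem_int.1 he
      have := h _ he
      rw [← at92d_spin_eq ω hv hw, ← at92d_dual_eq ω he'.1 he'.2] at this
      rw [mul_eq_zero, sub_eq_zero, sub_eq_zero]
      exact this

/-! ## 4. the number of disagreements, edge by edge -/

/-- number of disagreements carried by one edge pair -/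
noncomputable def at92dN (ω : RswCfg) (e : (ℤ × ℤ) × Bool) : ℕ :=
  open Classical in
  (if (e.1 ∈ ω.S ↔ rswEnd e ∈ ω.S) then 0 else 1) + (if (e.1 ∈ ω.D ↔ rswCo e ∈ ω.D) then 0 else 1)

theorem at92d_spin_ne {F : Finset (ℤ × ℤ)} {ω : RswCfg} (h : RswBc F true ω) (e : (ℤ × ℤ) × Bool) (P : Prop) (hP : e ∈ rswInt F → P) :
    (P ∧ atSpin (rswTau F ω) e.1 ≠ atSpin (rswTau F ω) (rswEnd e)) ↔ (e ∈ rswInt F ∧ ¬ (e.1 ∈ ω.S ↔ rswEnd e ∈ ω.S)) := by
  by_cases he : e ∈ rswInt F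
  · have he' := at92d_mem_int.1 he
    rw [Ne, at92d_spin_eq ω (at92h_self_mem_corners he'.1) (at92d_end_corner he'.1)]
    simp [he, hP he]
  · have := at92d_bdry_edge he
    rw [Ne, at92d_spin_one h this.1, at92d_spin_one h this.2]
    simp [he]

theorem at92d_dual_ne {F : Finset (ℤ × ℤ)} (ω : RswCfg) (e : (ℤ × ℤ) × Bool) :
    ((e.1 ∈ F ∧ rswCo e ∈ F) ∧ atDual (rswTauD F ω) e.1 ≠ atDual (rswTauD F ω) (rswCo e)) ↔
      (e ∈ rswInt F ∧ ¬ (e.1 ∈ ω.D ↔ rswCo e ∈ ω.D)) := by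
  rw [← at92d_mem_int]
  refine and_congr_right fun he => ?_
  have he' := at92d_mem_int.1 he
  rw [Ne, at92d_dual_eq ω he'.1 he'.2]

theorem at92d_dis {F : Finset (ℤ × ℤ)} {ω : RswCfg} (h : RswBc F true ω) :
    atDisagreements (rswTau F ω) (rswTauD F ω) = ∑ e ∈ rswInt F, at92dN ω e := by
  classical
  have hsub : rswInt F ⊆ cornersOf F ×ˢ (Finset.univ : Finset Bool) := by
    intro e he
    rw [Finset.mem_product]
    exact ⟨at92h_self_mem_corners (at92d_mem_int.1 he).1, Finset.mem_univ _⟩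
  have e1 : ∑ e ∈ rswInt F, at92dN ω e = ∑ e ∈ cornersOf F ×ˢ (Finset.univ : Finset Bool), (if e ∈ rswInt F then at92dN ω e else 0) := by
    rw [← Finset.sum_subset hsub (fun e _ he => if_neg he)]
    exact Finset.sum_congr rfl fun e he => (if_pos he).symm
  rw [e1, Finset.sum_product]
  unfold atDisagreements
  refine Finset.sum_congr rfl fun v _ => ?_
  rw [Fintype.sum_bool]
  have a1 := at92d_spin_ne h (v, false) (v ∈ F ∨ (v.1, v.2 - 1) ∈ F) (fun he => Or.inl (at92d_mem_int.1 he).1)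
  have a2 := at92d_spin_ne h (v, true) (v ∈ F ∨ (v.1 - 1, v.2) ∈ F) (fun he => Or.inl (at92d_mem_int.1 he).1)
  have a3 := at92d_dual_ne (F := F) ω (v, false)
  have a4 := at92d_dual_ne (F := F) ω (v, true)
  have r1 : rswEnd (v, false) = (v.1 + 1, v.2) := rfl
  have r2 : rswEnd (v, true) = (v.1, v.2 + 1) := rfl
  have r3 : rswCo (v, false) = (v.1, v.2 - 1) := rfl
  have r4 : rswCo (v, true) = (v.1 - 1, v.2) := rfl
  rw [r1] at a1
  rw [r2] at a2
  rw [r3] at a3
  rw [r4] at a4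
  simp only [] at a1 a2 a3 a4
  simp only [a1, a2, a3, a4]
  unfold at92dN
  rw [r1, r2, r3, r4]
  by_cases h1 : (v, false) ∈ rswInt F <;> by_cases h2 : (v, true) ∈ rswInt F <;>
  simp only [h1, h2, true_and, false_and, if_true, if_false, ite_not] <;> ring

/-! ## 5. the marginal of the flat `W` law on the pair of spins is the frozen law (constant one) -/

theorem at92d_ew_pow (t : ℝ) (ω : RswCfg) (e : (ℤ × ℤ) × Bool)
    (h : (e.1 ∈ ω.S ↔ rswEnd e ∈ ω.S) ∨ (e.1 ∈ ω.D ↔ rswCo e ∈ ω.D)) : at92dEw t ω.S ω.D e = t ^ at92dN ω e := by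
  unfold at92dEw at92dN
  by_cases h1 : (e.1 ∈ ω.S ↔ rswEnd e ∈ ω.S) <;> by_cases h2 : (e.1 ∈ ω.D ↔ rswCo e ∈ ω.D)
  · rw [if_pos h1, if_pos h2, if_pos h1, if_pos h2]; simp
  · rw [if_pos h1, if_neg h2, if_pos h1, if_neg h2]; simp
  · rw [if_neg h1, if_pos h2, if_neg h1, if_pos h2]; simp
  · exact absurd h (by tauto)

theorem at92d_ew_zero (t : ℝ) (ω : RswCfg) (e : (ℤ × ℤ) × Bool)
    (h : ¬ ((e.1 ∈ ω.S ↔ rswEnd e ∈ ω.S) ∨ (e.1 ∈ ω.D ↔ rswCo e ∈ ω.D))) : at92dEw t ω.S ω.D e = 0 := by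
  rw [not_or] at h
  unfold at92dEw
  rw [if_neg h.1, if_neg h.2]

open Classical in
/-- the weight of `(S, D)` after the sum over the `W` edges -/
theorem at92d_marg_wt (t : ℝ) (F : Finset (ℤ × ℤ)) (S D : Finset (ℤ × ℤ)) :
    ∑ O ∈ (rswInt F).powerset, rswWt t F true ⟨S, D, O⟩ =
      if at92dP F ⟨S, D, ∅⟩ ∈ at92Adm F then at92W t (at92dP F ⟨S, D, ∅⟩) else 0 := by
  have hbc : ∀ O, RswBc F true ⟨S, D, O⟩ ↔ RswBc F true ⟨S, D, ∅⟩ := fun _ => Iff.rfl
  have hiff : at92dP F ⟨S, D, ∅⟩ ∈ at92Adm F ↔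
      RswBc F true ⟨S, D, ∅⟩ ∧ ∀ e ∈ rswInt F, (e.1 ∈ S ↔ rswEnd e ∈ S) ∨ (e.1 ∈ D ↔ rswCo e ∈ D) := by
    rw [at92_mem_adm]
    exact at92d_adm_iff F ⟨S, D, ∅⟩
  by_cases hb : RswBc F true ⟨S, D, ∅⟩
  · have e1 : ∑ O ∈ (rswInt F).powerset, rswWt t F true ⟨S, D, O⟩ = ∏ e ∈ rswInt F, at92dEw t S D e := by
      rw [← at92d_marg_O]
      refine Finset.sum_congr rfl fun O _ => ?_
      unfold rswWt
      rw [if_pos ((hbc O).2 hb)]
    rw [e1]
    by_cases ha : ∀ e ∈ rswInt F, (e.1 ∈ S ↔ rswEnd e ∈ S) ∨ (e.1 ∈ D ↔ rswCo e ∈ D)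
    · rw [if_pos (hiff.2 ⟨hb, ha⟩)]
      unfold at92W at92dP
      rw [at92d_dis hb, ← Finset.prod_pow_eq_pow_sum]
      exact Finset.prod_congr rfl fun e he => at92d_ew_pow t ⟨S, D, ∅⟩ e (ha e he)
    · rw [if_neg (fun h => ha (hiff.1 h).2)]
      simp only [not_forall] at ha
      obtain ⟨e, he, h1⟩ := ha
      exact Finset.prod_eq_zero he (at92d_ew_zero t ⟨S, D, ∅⟩ e h1)
  · rw [if_neg (fun h => hb (hiff.1 h).1)]
    refine Finset.sum_eq_zero fun O _ => ?_
    unfold rswWt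
    rw [if_neg (fun h => hb ((hbc O).1 h))]

/-- **THE DICTIONARY (sums)**: an observable of the pair of spins has the same unnormalised sum in the two vocabularies -/
theorem at92d_sum (t : ℝ) (F : Finset (ℤ × ℤ)) (Y : at92Cfg F → ℝ) :
    rswSum t F true (fun ω => Y (at92dP F ω)) = ∑ p ∈ at92Adm F, at92W t p * Y p := by
  classical
  unfold rswSum
  have e1 : ∀ S D : Finset (ℤ × ℤ), ∑ O ∈ (rswInt F).powerset, rswWt t F true ⟨S, D, O⟩ * Y (at92dP F ⟨S, D, O⟩) =
      (fun p : at92Cfg F => if p ∈ at92Adm F then at92W t p * Y p else 0)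
        (fun v => decide (v.1 ∈ S), fun f => decide (f.1 ∈ D)) := by
    intro S D
    have : ∀ O, at92dP F ⟨S, D, O⟩ = at92dP F ⟨S, D, ∅⟩ := fun _ => rfl
    simp only [this]
    rw [← Finset.sum_mul, at92d_marg_wt]
    change _ = if at92dP F ⟨S, D, ∅⟩ ∈ at92Adm F then at92W t (at92dP F ⟨S, D, ∅⟩) * Y (at92dP F ⟨S, D, ∅⟩) else 0
    split_ifs <;> simp
  simp only [e1]
  have e2 : ∀ S : Finset (ℤ × ℤ), ∑ D ∈ F.powerset, (fun p : at92Cfg F => if p ∈ at92Adm F then at92W t p * Y p else 0)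
        (fun v => decide (v.1 ∈ S), fun f => decide (f.1 ∈ D)) =
      ∑ τd : F → Bool, (fun p : at92Cfg F => if p ∈ at92Adm F then at92W t p * Y p else 0) (fun v => decide (v.1 ∈ S), τd) := by
    intro S
    exact at92d_pow_sum F (fun τd => (fun p : at92Cfg F => if p ∈ at92Adm F then at92W t p * Y p else 0) (fun v => decide (v.1 ∈ S), τd))
  simp only [e2]
  rw [at92d_pow_sum (cornersOf F) (fun τ => ∑ τd : F → Bool, (fun p : at92Cfg F => if p ∈ at92Adm F then at92W t p * Y p else 0) (τ, τd))]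
  rw [← Finset.sum_product', Finset.univ_product_univ, ← Finset.sum_filter]
  refine Finset.sum_congr ?_ fun _ _ => rfl
  ext p
  simp

theorem at92d_Z (t : ℝ) (F : Finset (ℤ × ℤ)) : rswSum t F true (fun _ => 1) = ∑ p ∈ at92Adm F, at92W t p := by
  have := at92d_sum t F (fun _ => 1)
  simpa using this

/-- **THE DICTIONARY (expectations)** -/
theorem at92d_E (t : ℝ) (F : Finset (ℤ × ℤ)) (Y : at92Cfg F → ℝ) :
    rswE t F true (fun ω => Y (at92dP F ω)) = lmE (at92Adm F) (at92W t) Y := by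
  unfold rswE lmE
  rw [at92d_sum, at92d_Z]

theorem at92d_Z_pos {t : ℝ} (ht : 0 < t) (F : Finset (ℤ × ℤ)) : 0 < rswSum t F true (fun _ => 1) := by
  rw [at92d_Z]; exact at92_Z_pos ht F

/-- the smeared height in the words of Defs/RSW -/
noncomputable def at92dX (δ : ℝ) (F : Finset (ℤ × ℤ)) (g : ℝ × ℝ → ℝ) (ω : RswCfg) : ℝ :=
  δ ^ 2 * ∑ v ∈ cornersOf F, rswH F ω v * g (δ * v.1, δ * v.2)

theorem at92d_X (δ : ℝ) (F : Finset (ℤ × ℤ)) (g : ℝ × ℝ → ℝ) (ω : RswCfg) : at92dX δ F g ω = at92X δ g (at92dP F ω) := rfl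

/-- **THE DICTIONARY (mixed moments)** -/
theorem at92d_gaussM (t δ : ℝ) (F : Finset (ℤ × ℤ)) (s : Multiset (ℝ × ℝ → ℝ)) :
    gaussM t δ F s = rswE t F true (fun ω => (s.map fun g => at92dX δ F g ω).prod) := by
  unfold gaussM lmM
  rw [← at92d_E]
  rfl

/-- **THE DICTIONARY (frozen expectation)** -/
theorem at92d_expect (t δ : ℝ) (F : Finset (ℤ × ℤ)) (φ : ℝ × ℝ → ℝ) (ψ : ℝ → ℝ) :
    atExpect t δ F φ ψ = rswE t F true (fun ω => ψ (at92dX δ F φ ω)) := by
  rw [at92_expect_eq]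
  exact (at92d_E t F (fun p => ψ (at92X δ φ p))).symm

/-! ## 6. `rswE` as an `lmE` on a finite set of configurations (so that the kit of R291/Lim applies), both colours -/

/-- all configurations of the flat problem on `F` -/
noncomputable def at92dAll (F : Finset (ℤ × ℤ)) : Finset RswCfg :=
  ((cornersOf F).powerset ×ˢ F.powerset ×ˢ (rswInt F).powerset).map
    ⟨fun x => ⟨x.1, x.2.1, x.2.2⟩, fun x y h => by
      obtain ⟨x1, x2, x3⟩ := x
      obtain ⟨y1, y2, y3⟩ := y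
      simp only [RswCfg.mk.injEq] at h
      obtain ⟨rfl, rfl, rfl⟩ := h
      rfl⟩

theorem at92d_mem_all {F : Finset (ℤ × ℤ)} {ω : RswCfg} :
    ω ∈ at92dAll F ↔ ω.S ⊆ cornersOf F ∧ ω.D ⊆ F ∧ ω.O ⊆ rswInt F := by
  unfold at92dAll
  rw [Finset.mem_map]
  constructor
  · rintro ⟨⟨x1, x2, x3⟩, hx, rfl⟩
    simp only [Finset.mem_product, Finset.mem_powerset] at hx
    exact hx
  · rintro ⟨h1, h2, h3⟩
    exact ⟨(ω.S, ω.D, ω.O), by simp [Finset.mem_product, Finset.mem_powerset, h1, h2, h3], rfl⟩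

theorem at92d_sum_all (t : ℝ) (F : Finset (ℤ × ℤ)) (b : Bool) (X : RswCfg → ℝ) :
    rswSum t F b X = ∑ ω ∈ at92dAll F, rswWt t F b ω * X ω := by
  unfold rswSum at92dAll
  rw [Finset.sum_map, Finset.sum_product]
  refine Finset.sum_congr rfl fun S _ => ?_
  rw [Finset.sum_product]
  rfl

theorem at92d_E_all (t : ℝ) (F : Finset (ℤ × ℤ)) (b : Bool) (X : RswCfg → ℝ) :
    rswE t F b X = lmE (at92dAll F) (rswWt t F b) X := by
  unfold rswE lmE
  rw [at92d_sum_all, at92d_sum_all]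
  simp

theorem at92d_fac_nonneg {t : ℝ} (h0 : 0 ≤ t) (h1 : t ≤ 1) (ω : RswCfg) (e : (ℤ × ℤ) × Bool) : 0 ≤ rswFac t ω e := by
  unfold rswFac
  split_ifs <;> linarith

theorem at92d_wt_nonneg {t : ℝ} (h0 : 0 ≤ t) (h1 : t ≤ 1) (F : Finset (ℤ × ℤ)) (b : Bool) (ω : RswCfg) : 0 ≤ rswWt t F b ω := by
  unfold rswWt
  split_ifs
  · exact Finset.prod_nonneg fun e _ => at92d_fac_nonneg h0 h1 ω e
  · exact le_rfl

theorem at92d_Z_all_pos {t : ℝ} (ht : 0 < t) (F : Finset (ℤ × ℤ)) : 0 < ∑ ω ∈ at92dAll F, rswWt t F true ω := by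
  have := at92d_Z_pos ht F
  rw [at92d_sum_all] at this
  simpa using this


/-! ## 7. plain colour separation implies separation by height-zero edges (no topology) -/

/-- every face of `A` is chained inside `A` (consecutive faces share a corner) to a face with a corner on the polygon -/
def At92fWall (F A : Finset (ℤ × ℤ)) : Prop :=
  ∀ f ∈ A, ∃ g, Relation.ReflTransGen (fun a b => b ∈ A ∧ at92hAdj a b) f g ∧ ∃ v, at92hCor g v ∧ OnPolygon F v

theorem at92f_rev {α : Type*} {r : α → α → Prop} (hs : ∀ x y, r x y → r y x) {a b : α}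
    (h : Relation.ReflTransGen r a b) : Relation.ReflTransGen r b a := by
  induction h with
  | refl => exact Relation.ReflTransGen.refl
  | tail _ hbc ih => exact Relation.ReflTransGen.head (hs _ _ hbc) ih

theorem at92f_mono {α : Type*} {r r' : α → α → Prop} (hs : ∀ x y, r x y → r' x y) {a b : α}
    (h : Relation.ReflTransGen r a b) : Relation.ReflTransGen r' a b := by
  induction h with
  | refl => exact Relation.ReflTransGen.refl
  | tail _ hbc ih => exact ih.tail (hs _ _ hbc)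

/-- propagation from the wall -/
theorem at92f_prop {F A : Finset (ℤ × ℤ)} (hA : A ⊆ F) (w : At92fWall F A) (P Q : ℤ × ℤ → ℝ)
    (hPQ : ∀ f ∈ A, ∀ v, at92hCor f v → P f = Q v) (hQ : ∀ v ∈ cornersOf F, OnPolygon F v → Q v = 0) : ∀ f ∈ A, P f = 0 := by
  intro f hf
  obtain ⟨g, hpath, v, hv, hpol⟩ := w f hf
  have key0 : ∀ x, Relation.ReflTransGen (fun a b => b ∈ A ∧ at92hAdj a b) f x → x ∈ A ∧ P x = P f := by
    intro x hx
    induction hx with
    | refl => exact ⟨hf, rfl⟩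
    | tail _ hbc ih =>
      obtain ⟨hc, hadj⟩ := hbc
      obtain ⟨u, hu1, hu2⟩ := at92h_common_corner hadj
      exact ⟨hc, by rw [hPQ _ hc u hu2, ← hPQ _ ih.1 u hu1, ih.2]⟩
  have key := key0 g hpath
  rw [← key.2, hPQ g key.1 v hv]
  exact hQ v (at92h_mem_corners.2 ⟨g, hA key.1, hv⟩) hpol

theorem at92f_cor (e : (ℤ × ℤ) × Bool) :
    at92hCor e.1 e.1 ∧ at92hCor e.1 (rswEnd e) ∧ at92hCor (rswCo e) e.1 ∧ at92hCor (rswCo e) (rswEnd e) := by
  unfold rswCo rswEnd at92hCor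
  split_ifs <;> simp

/-- the faces reached from `B` by dual steps across edges which are not good -/
noncomputable def at92fK (F : Finset (ℤ × ℤ)) (ω : RswCfg) (B : Finset (ℤ × ℤ)) : Finset (ℤ × ℤ) :=
  open Classical in F.filter fun f => ∃ g ∈ B, Relation.ReflTransGen (RswStep F true ω) g f

theorem at92f_mem_K {F : Finset (ℤ × ℤ)} {ω : RswCfg} {B : Finset (ℤ × ℤ)} {f : ℤ × ℤ} :
    f ∈ at92fK F ω B ↔ f ∈ F ∧ ∃ g ∈ B, Relation.ReflTransGen (RswStep F true ω) g f := by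
  classical
  unfold at92fK
  rw [Finset.mem_filter]

/-- the face spins off `at92fK` are reversed -/
noncomputable def at92fFlip (F B : Finset (ℤ × ℤ)) (ω : RswCfg) : RswCfg :=
  ⟨ω.S, symmDiff ω.D (F \ at92fK F ω B), ω.O⟩

theorem at92f_step_K {F : Finset (ℤ × ℤ)} {ω : RswCfg} {B : Finset (ℤ × ℤ)} {f g : ℤ × ℤ} (hf : f ∈ at92fK F ω B)
    (h : RswStep F true ω f g) : g ∈ at92fK F ω B := by
  rw [at92f_mem_K] at hf ⊢
  obtain ⟨_, b, hb, hp⟩ := hf
  exact ⟨h.2.1, b, hb, hp.tail h⟩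

theorem at92f_edge_K {F : Finset (ℤ × ℤ)} {ω : RswCfg} {B : Finset (ℤ × ℤ)} {e : (ℤ × ℤ) × Bool} (he : e ∈ rswInt F)
    (hg : ¬ RswGood true ω e) : e.1 ∈ at92fK F ω B ↔ rswCo e ∈ at92fK F ω B := by
  have he' := at92d_mem_int.1 he
  exact ⟨fun h => at92f_step_K h ⟨he'.1, he'.2, e, Or.inl ⟨rfl, rfl⟩, hg⟩,
    fun h => at92f_step_K h ⟨he'.2, he'.1, e, Or.inr ⟨rfl, rfl⟩, hg⟩⟩

theorem at92f_mem_D {F B : Finset (ℤ × ℤ)} {ω : RswCfg} {f : ℤ × ℤ} (hf : f ∈ F) :
    f ∈ (at92fFlip F B ω).D ↔ (f ∈ ω.D ↔ f ∈ at92fK F ω B) := by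
  unfold at92fFlip
  simp only [Finset.mem_symmDiff, Finset.mem_sdiff, hf, true_and, not_not]
  tauto

theorem at92f_dual_K {F B : Finset (ℤ × ℤ)} {ω : RswCfg} {f : ℤ × ℤ} (hf : f ∈ at92fK F ω B) :
    atDual (rswTauD F (at92fFlip F B ω)) f = atDual (rswTauD F ω) f := by
  have hF := (at92f_mem_K.1 hf).1
  rw [at92d_dual, at92d_dual, if_pos hF, if_pos hF]
  have := at92f_mem_D (B := B) (ω := ω) hF
  by_cases h : f ∈ ω.D
  · rw [if_pos h, if_pos (this.2 (by tauto))]
  · rw [if_neg h, if_neg (fun hh => h ((this.1 hh).2 hf))]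

theorem at92f_dual_C {F B : Finset (ℤ × ℤ)} {ω : RswCfg} {f : ℤ × ℤ} (hF : f ∈ F) (hf : f ∉ at92fK F ω B) :
    atDual (rswTauD F (at92fFlip F B ω)) f = - atDual (rswTauD F ω) f := by
  rw [at92d_dual, at92d_dual, if_pos hF, if_pos hF]
  have := at92f_mem_D (B := B) (ω := ω) hF
  by_cases h : f ∈ ω.D
  · rw [if_pos h, if_neg (fun hh => hf ((this.1 hh).1 h))]
  · rw [if_neg h, if_pos (this.2 (by tauto))]; simp

theorem at92f_flip_adm {F B : Finset (ℤ × ℤ)} {ω : RswCfg} (h : IsAdmissibleSpins (rswTau F ω) (rswTauD F ω)) :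
    IsAdmissibleSpins (rswTau F (at92fFlip F B ω)) (rswTauD F (at92fFlip F B ω)) := by
  rw [at92d_adm_iff] at h ⊢
  refine ⟨h.1, fun e he => ?_⟩
  have he' := at92d_mem_int.1 he
  by_cases hg : RswGood true ω e
  · left
    have h1 : e.1 ∈ ω.S := hg.2.1.2 rfl
    have h2 : rswEnd e ∈ ω.S := hg.2.2.2 rfl
    exact ⟨fun _ => h2, fun _ => h1⟩
  · rcases h.2 e he with h1 | h1
    · exact Or.inl h1
    · right
      rw [at92f_mem_D he'.1, at92f_mem_D he'.2, at92f_edge_K he hg, h1]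

/-- **THE ADAPTER**: plain colour separation of two sets of faces which touch the wall is a separation by open edges of height zero -/
theorem at92f_sep0 {F : Finset (ℤ × ℤ)} (hext : At92hExt F) {ω : RswCfg}
    (hadm : IsAdmissibleSpins (rswTau F ω) (rswTauD F ω)) {A B : Finset (ℤ × ℤ)} (hA : A ⊆ F) (hB : B ⊆ F)
    (wA : At92fWall F A) (wB : At92fWall F B) (hsep : RswSep F true ω A B) : GaussSep0 F ω A B := by
  obtain ⟨Hf, hH⟩ := at92h_spec (at92h_exists hext hadm)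
  obtain ⟨Hf', hH'⟩ := at92h_spec (at92h_exists hext (at92f_flip_adm (B := B) hadm))
  rw [at92h_isHeight_iff] at hH hH'
  change (∀ v ∈ cornersOf F, OnPolygon F v → rswH F ω v = 0) ∧
    ∀ f ∈ F, ∀ v, at92hCor f v → Hf f - rswH F ω v = ((atSpin (rswTau F ω) v : ℝ) * (atDual (rswTauD F ω) f : ℝ)) / 2 at hH
  change (∀ v ∈ cornersOf F, OnPolygon F v → rswH F (at92fFlip F B ω) v = 0) ∧
    ∀ f ∈ F, ∀ v, at92hCor f v → Hf' f - rswH F (at92fFlip F B ω) v =
      ((atSpin (rswTau F ω) v : ℝ) * (atDual (rswTauD F (at92fFlip F B ω)) f : ℝ)) / 2 at hH'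
  have hBK : ∀ g ∈ B, g ∈ at92fK F ω B := fun g hg => at92f_mem_K.2 ⟨hB hg, g, hg, Relation.ReflTransGen.refl⟩
  have hAK : ∀ f ∈ A, f ∉ at92fK F ω B := by
    intro f hf hK
    obtain ⟨_, g, hg, hp⟩ := at92f_mem_K.1 hK
    have hsymm : ∀ x y, RswStep F true ω x y → RswStep F true ω y x := by
      rintro x y ⟨h1, h2, e, he, hn⟩
      exact ⟨h2, h1, e, he.symm, hn⟩
    exact hsep f hf g hg (at92f_rev hsymm hp)
  -- (a) the two heights agree on the corners of `K`
  have hKd : ∀ f ∈ at92fK F ω B, ∀ v, at92hCor f v → Hf' f - Hf f = rswH F (at92fFlip F B ω) v - rswH F ω v := by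
    intro f hf v hv
    have hF := (at92f_mem_K.1 hf).1
    have a1 := hH.2 f hF v hv
    have a2 := hH'.2 f hF v hv
    rw [at92f_dual_K hf] at a2
    linarith
  have hB0 : ∀ g ∈ B, Hf' g - Hf g = 0 :=
    at92f_prop hB wB (fun f => Hf' f - Hf f) (fun v => rswH F (at92fFlip F B ω) v - rswH F ω v)
      (fun f hf v hv => hKd f (hBK f hf) v hv) (fun v hv hp => by rw [hH.1 v hv hp, hH'.1 v hv hp, sub_zero])
  have hK0 : ∀ f ∈ at92fK F ω B, Hf' f - Hf f = 0 := by
    intro f hf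
    obtain ⟨_, g, hg, hp⟩ := at92f_mem_K.1 hf
    have : ∀ x, Relation.ReflTransGen (RswStep F true ω) g x → x ∈ at92fK F ω B ∧ Hf' x - Hf x = 0 := by
      intro x hx
      induction hx with
      | refl => exact ⟨hBK g hg, hB0 g hg⟩
      | tail _ hbc ih =>
        have hc := at92f_step_K ih.1 hbc
        refine ⟨hc, ?_⟩
        obtain ⟨_, _, e, he, _⟩ := hbc
        have hcor := at92f_cor e
        rcases he with ⟨rfl, rfl⟩ | ⟨rfl, rfl⟩
        · rw [hKd _ hc e.1 hcor.2.2.1, ← hKd _ ih.1 e.1 hcor.1, ih.2]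
        · rw [hKd _ hc e.1 hcor.1, ← hKd _ ih.1 e.1 hcor.2.2.1, ih.2]
    exact (this f hp).2
  -- (b) the two heights are opposite on the corners of the part of `F \ K` which touches the wall
  have hCd : ∀ f ∈ F, f ∉ at92fK F ω B → ∀ v, at92hCor f v → Hf' f + Hf f = rswH F (at92fFlip F B ω) v + rswH F ω v := by
    intro f hF hf v hv
    have a1 := hH.2 f hF v hv
    have a2 := hH'.2 f hF v hv
    rw [at92f_dual_C hF hf] at a2
    push_cast at a2
    linarith
  have hA0 : ∀ f ∈ A, Hf' f + Hf f = 0 :=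
    at92f_prop hA wA (fun f => Hf' f + Hf f) (fun v => rswH F (at92fFlip F B ω) v + rswH F ω v)
      (fun f hf v hv => hCd f (hA hf) (hAK f hf) v hv) (fun v hv hp => by rw [hH.1 v hv hp, hH'.1 v hv hp, add_zero])
  -- (c) a path which avoids the blocking edges stays there
  intro f hf g hg hp
  have : ∀ x, Relation.ReflTransGen (GaussStep0 F ω) f x → x ∈ F ∧ x ∉ at92fK F ω B ∧ Hf' x + Hf x = 0 := by
    intro x hx
    induction hx with
    | refl => exact ⟨hA hf, hAK f hf, hA0 f hf⟩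
    | @tail b c _ hbc ih =>
      obtain ⟨h1F, h2F, e, he, hnb⟩ := hbc
      obtain ⟨_, ihK, ih0⟩ := ih
      have hcor := at92f_cor e
      have hcb : at92hCor b e.1 ∧ at92hCor b (rswEnd e) ∧ at92hCor c e.1 ∧ at92hCor c (rswEnd e) := by
        rcases he with ⟨rfl, rfl⟩ | ⟨rfl, rfl⟩
        · exact hcor
        · exact ⟨hcor.2.2.1, hcor.2.2.2, hcor.1, hcor.2.1⟩
      by_cases hcK : c ∈ at92fK F ω B
      · exfalso
        have hgood : RswGood true ω e := by
          by_contra hng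
          exact ihK (at92f_step_K hcK ⟨h2F, h1F, e, he.symm, hng⟩)
        have hz : ∀ v, at92hCor b v → at92hCor c v → rswH F ω v = 0 := by
          intro v hv1 hv2
          have a1 := hCd b h1F ihK v hv1
          have a2 := hKd c hcK v hv2
          rw [hK0 c hcK] at a2
          linarith
        exact hnb ⟨hgood.1, hz _ hcb.1 hcb.2.2.1, hz _ hcb.2.1 hcb.2.2.2⟩
      · exact ⟨h2F, hcK, by rw [hCd c h2F hcK e.1 hcb.2.2.1, ← hCd b h1F ihK e.1 hcb.1, ih0]⟩
  exact (this g hp).2.1 (hBK g hg)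

/-- a configuration of nonzero weight is an admissible pair -/
theorem at92f_adm_of_wt {t : ℝ} {F : Finset (ℤ × ℤ)} {ω : RswCfg} (h : rswWt t F true ω ≠ 0) :
    IsAdmissibleSpins (rswTau F ω) (rswTauD F ω) := by
  rw [at92d_adm_iff]
  unfold rswWt at h
  by_cases hb : RswBc F true ω
  · rw [if_pos hb] at h
    refine ⟨hb, fun e he => ?_⟩
    have h1 := (Finset.prod_ne_zero_iff.1 h) e he
    unfold rswFac at h1
    by_contra hcon
    rw [not_or] at hcon
    by_cases hO : e ∈ ω.O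
    · rw [if_pos hO, if_neg hcon.1] at h1; exact h1 rfl
    · rw [if_neg hO, if_neg hcon.2] at h1; exact h1 rfl
  · rw [if_neg hb] at h; exact absurd rfl h

/-- monotonicity of `rswP` on the support of the weight -/
theorem at92f_P_mono {t : ℝ} (h0 : 0 < t) (h1 : t ≤ 1) (F : Finset (ℤ × ℤ)) {L L' : RswCfg → Prop}
    (h : ∀ ω, rswWt t F true ω ≠ 0 → L ω → L' ω) : rswP t F true L ≤ rswP t F true L' := by
  classical
  unfold rswP rswE
  refine div_le_div_of_nonneg_right ?_ (at92d_Z_pos h0 F).le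
  rw [at92d_sum_all, at92d_sum_all]
  refine Finset.sum_le_sum fun ω _ => ?_
  by_cases hw : rswWt t F true ω = 0
  · rw [hw]; simp
  · refine mul_le_mul_of_nonneg_left ?_ (at92d_wt_nonneg h0.le h1 F true ω)
    by_cases hL : L ω
    · rw [if_pos hL, if_pos (h ω hw hL)]
    · rw [if_neg hL]; split_ifs <;> norm_num

/-- **THE ADAPTER, probabilities** -/
theorem at92f_P_le {t : ℝ} (h0 : 0 < t) (h1 : t ≤ 1) {F : Finset (ℤ × ℤ)} (hext : At92hExt F) {A B : Finset (ℤ × ℤ)}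
    (hA : A ⊆ F) (hB : B ⊆ F) (wA : At92fWall F A) (wB : At92fWall F B) :
    rswP t F true (fun ω => ¬ GaussSep0 F ω A B) ≤ rswP t F true (fun ω => ¬ RswSep F true ω A B) :=
  at92f_P_mono h0 h1 F fun _ hw hn hs => hn (at92f_sep0 hext (at92f_adm_of_wt hw) hA hB wA wB hs)

/-- `GaussSep0` is monotone in the two sets -/
theorem at92f_sep0_mono {F : Finset (ℤ × ℤ)} {ω : RswCfg} {A B A' B' : Finset (ℤ × ℤ)} (hA : A' ⊆ A) (hB : B' ⊆ B)
    (h : GaussSep0 F ω A B) : GaussSep0 F ω A' B' := fun f hf g hg => h f (hA hf) g (hB hg)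

/-! ### the two shapes which touch the wall -/

/-- a straight walk inside `A` ends at the wall -/
theorem at92f_walk {F A : Finset (ℤ × ℤ)} (d : ℤ × ℤ) (hd : |d.1| ≤ 1 ∧ |d.2| ≤ 1) (hd0 : d ≠ 0)
    (hstep : ∀ x ∈ A, x + d ∈ F → x + d ∈ A) {f : ℤ × ℤ} (hf : f ∈ A) :
    ∃ g, Relation.ReflTransGen (fun a b => b ∈ A ∧ at92hAdj a b) f g ∧ ∃ v, at92hCor g v ∧ OnPolygon F v := by
  by_contra hcon
  have hadj : ∀ x : ℤ × ℤ, at92hAdj x (x + d) := by
    intro x
    unfold at92hAdj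
    simp only [Prod.fst_add, Prod.snd_add, sub_add_cancel_left, abs_neg]
    exact hd
  have key : ∀ k : ℕ, Relation.ReflTransGen (fun a b => b ∈ A ∧ at92hAdj a b) f (f + k • d) ∧ f + k • d ∈ A := by
    intro k
    induction k with
    | zero => simpa using ⟨Relation.ReflTransGen.refl, hf⟩
    | succ k ih =>
      have e1 : f + (k + 1) • d = (f + k • d) + d := by rw [succ_nsmul, add_assoc]
      rw [e1]
      by_cases hF : (f + k • d) + d ∈ F
      · have := hstep _ ih.2 hF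
        exact ⟨ih.1.tail ⟨this, hadj _⟩, this⟩
      · exfalso
        obtain ⟨v, hv1, hv2⟩ := at92h_common_corner (hadj (f + k • d))
        exact hcon ⟨_, ih.1, v, hv1, at92h_onPolygon hF hv2⟩
  have hinj : Function.Injective (fun k : ℕ => f + k • d) := by
    intro a b hab
    simp only [add_right_inj] at hab
    have h1 : (a : ℤ) * d.1 = b * d.1 := by have := congrArg Prod.fst hab; simpa using this
    have h2 : (a : ℤ) * d.2 = b * d.2 := by have := congrArg Prod.snd hab; simpa using this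
    by_cases hd1 : d.1 = 0
    · have hd2 : d.2 ≠ 0 := fun h => hd0 (Prod.ext hd1 h)
      exact_mod_cast mul_right_cancel₀ hd2 h2
    · exact_mod_cast mul_right_cancel₀ hd1 h1
  exact (Set.infinite_of_injective_forall_mem hinj (fun k => (key k).2)) A.finite_toSet

theorem at92f_mem_box {z f : ℤ × ℤ} {n : ℕ} :
    f ∈ rswBox z n ↔ (z.1 - n ≤ f.1 ∧ f.1 < z.1 + n) ∧ (z.2 - n ≤ f.2 ∧ f.2 < z.2 + n) := by
  unfold rswBox
  rw [Finset.mem_product, Finset.mem_Ico, Finset.mem_Ico]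

/-- the faces of `F` off a box touch the wall -/
theorem at92f_wall_out (F : Finset (ℤ × ℤ)) (z : ℤ × ℤ) (R : ℕ) : At92fWall F (F \ rswBox z R) := by
  intro f hf
  have hf' := Finset.mem_sdiff.1 hf
  have hnb := hf'.2
  rw [at92f_mem_box] at hnb
  have hcase : f.1 < z.1 - R ∨ z.1 + R ≤ f.1 ∨ f.2 < z.2 - R ∨ z.2 + R ≤ f.2 := by
    by_contra hc
    push Not at hc
    exact hnb ⟨⟨hc.1, hc.2.1⟩, hc.2.2.1, hc.2.2.2⟩
  classical
  rcases hcase with h | h | h | h
  · obtain ⟨g, hg, hv⟩ := at92f_walk (F := F) (A := (F \ rswBox z R).filter fun x => x.1 < z.1 - R) (-1, 0) (by simp) (by simp)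
      (fun x hx hF => by
        have hx' := (Finset.mem_filter.1 hx).2
        have h3 : (x + (-1, 0) : ℤ × ℤ).1 < z.1 - R := by simp only [Prod.fst_add]; omega
        refine Finset.mem_filter.2 ⟨Finset.mem_sdiff.2 ⟨hF, fun hb => ?_⟩, h3⟩
        have := (at92f_mem_box.1 hb).1.1
        omega) (Finset.mem_filter.2 ⟨hf, h⟩)
    exact ⟨g, at92f_mono (fun a b hab => ⟨(Finset.mem_filter.1 hab.1).1, hab.2⟩) hg, hv⟩
  · obtain ⟨g, hg, hv⟩ := at92f_walk (F := F) (A := (F \ rswBox z R).filter fun x => z.1 + R ≤ x.1) (1, 0) (by simp) (by simp)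
      (fun x hx hF => by
        have hx' := (Finset.mem_filter.1 hx).2
        have h3 : z.1 + R ≤ (x + (1, 0) : ℤ × ℤ).1 := by simp only [Prod.fst_add]; omega
        refine Finset.mem_filter.2 ⟨Finset.mem_sdiff.2 ⟨hF, fun hb => ?_⟩, h3⟩
        have := (at92f_mem_box.1 hb).1.2
        omega) (Finset.mem_filter.2 ⟨hf, h⟩)
    exact ⟨g, at92f_mono (fun a b hab => ⟨(Finset.mem_filter.1 hab.1).1, hab.2⟩) hg, hv⟩
  · obtain ⟨g, hg, hv⟩ := at92f_walk (F := F) (A := (F \ rswBox z R).filter fun x => x.2 < z.2 - R) (0, -1) (by simp) (by simp)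
      (fun x hx hF => by
        have hx' := (Finset.mem_filter.1 hx).2
        have h3 : (x + (0, -1) : ℤ × ℤ).2 < z.2 - R := by simp only [Prod.snd_add]; omega
        refine Finset.mem_filter.2 ⟨Finset.mem_sdiff.2 ⟨hF, fun hb => ?_⟩, h3⟩
        have := (at92f_mem_box.1 hb).2.1
        omega) (Finset.mem_filter.2 ⟨hf, h⟩)
    exact ⟨g, at92f_mono (fun a b hab => ⟨(Finset.mem_filter.1 hab.1).1, hab.2⟩) hg, hv⟩
  · obtain ⟨g, hg, hv⟩ := at92f_walk (F := F) (A := (F \ rswBox z R).filter fun x => z.2 + R ≤ x.2) (0, 1) (by simp) (by simp)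
      (fun x hx hF => by
        have hx' := (Finset.mem_filter.1 hx).2
        have h3 : z.2 + R ≤ (x + (0, 1) : ℤ × ℤ).2 := by simp only [Prod.snd_add]; omega
        refine Finset.mem_filter.2 ⟨Finset.mem_sdiff.2 ⟨hF, fun hb => ?_⟩, h3⟩
        have := (at92f_mem_box.1 hb).2.2
        omega) (Finset.mem_filter.2 ⟨hf, h⟩)
    exact ⟨g, at92f_mono (fun a b hab => ⟨(Finset.mem_filter.1 hab.1).1, hab.2⟩) hg, hv⟩

/-- the faces of `F` in a box which is not inside `F` touch the wall -/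
theorem at92f_wall_in (F : Finset (ℤ × ℤ)) (z : ℤ × ℤ) (r : ℕ) (h : ¬ rswBox z r ⊆ F) : At92fWall F (F ∩ rswBox z r) := by
  rw [Finset.not_subset] at h
  obtain ⟨g0, hg0, hg0F⟩ := h
  have hb0 := at92f_mem_box.1 hg0
  have key : ∀ n : ℕ, ∀ x ∈ F ∩ rswBox z r, (g0.1 - x.1).natAbs + (g0.2 - x.2).natAbs = n →
      ∃ g, Relation.ReflTransGen (fun a b => b ∈ F ∩ rswBox z r ∧ at92hAdj a b) x g ∧ ∃ v, at92hCor g v ∧ OnPolygon F v := by
    intro n
    induction n with
    | zero =>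
      intro x hx hn
      exfalso
      have : x = g0 := by ext <;> omega
      exact hg0F (this ▸ (Finset.mem_inter.1 hx).1)
    | succ n ih =>
      intro x hx hn
      have hxb := at92f_mem_box.1 (Finset.mem_inter.1 hx).2
      obtain ⟨y, hyb, hadj, hyn⟩ : ∃ y, y ∈ rswBox z r ∧ at92hAdj x y ∧ (g0.1 - y.1).natAbs + (g0.2 - y.2).natAbs = n := by
        by_cases h1 : x.1 < g0.1
        · refine ⟨(x.1 + 1, x.2), at92f_mem_box.2 ?_, ?_, ?_⟩
          · simp only; omega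
          · unfold at92hAdj; simp
          · simp only; omega
        · by_cases h2 : g0.1 < x.1
          · refine ⟨(x.1 - 1, x.2), at92f_mem_box.2 ?_, ?_, ?_⟩
            · simp only; omega
            · unfold at92hAdj; simp
            · simp only; omega
          · by_cases h3 : x.2 < g0.2
            · refine ⟨(x.1, x.2 + 1), at92f_mem_box.2 ?_, ?_, ?_⟩
              · simp only; omega
              · unfold at92hAdj; simp
              · simp only; omega
            · refine ⟨(x.1, x.2 - 1), at92f_mem_box.2 ?_, ?_, ?_⟩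
              · simp only; omega
              · unfold at92hAdj; simp
              · simp only; omega
      by_cases hyF : y ∈ F
      · have hy : y ∈ F ∩ rswBox z r := Finset.mem_inter.2 ⟨hyF, hyb⟩
        obtain ⟨g, hg, hv⟩ := ih y hy hyn
        exact ⟨g, Relation.ReflTransGen.head ⟨hy, hadj⟩ hg, hv⟩
      · obtain ⟨v, hv1, hv2⟩ := at92h_common_corner hadj
        exact ⟨x, Relation.ReflTransGen.refl, v, hv1, at92h_onPolygon hyF hv2⟩
  exact fun f hf => key _ f hf rfl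

/-- **THE ADAPTER, box form**: the shape of `exit_rsw_arm` with the plain colour separation gives the height-zero separation -/
theorem at92f_box_P_le {t : ℝ} (h0 : 0 < t) (h1 : t ≤ 1) {F : Finset (ℤ × ℤ)} (hext : At92hExt F) (z : ℤ × ℤ) (r R : ℕ)
    (h : ¬ rswBox z r ⊆ F) :
    rswP t F true (fun ω => ¬ GaussSep0 F ω (F ∩ rswBox z r) (F \ rswBox z R)) ≤
      rswP t F true (fun ω => ¬ RswSep F true ω (F ∩ rswBox z r) (F \ rswBox z R)) :=
  at92f_P_le h0 h1 hext Finset.inter_subset_left Finset.sdiff_subset (at92f_wall_in F z r h) (at92f_wall_out F z R)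

end Claimed.Agent.R292
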