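import Claimed.Agent.R292.Defs.GAUSS
import Claimed.Agent.R292.Height
import Claimed.Agent.R291.Lim.Bind

/-!
# Row 292 (S0540), Gauss/Glue172 : THE GLUE OF UNIT GAUSS = contract `gauss_glue` of Exit/GAUSS, CLOSED      (owner helper172; prefix `gauss172u_`)      0 sorry

AT paper, Sec. 6, [prop:gaussian-moments], read through the machines of row 291: ultrafilter limits of the mixed moments (`lmT`, Lim/Ult) and the abstract
Wick identity `wk_main` (Wick/Diag).  The collision contract is consumed ALONG THE ULTRAFILTER (the constant is subsequential before the normalisation).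

MODEL FREE (any moment system `LmOk (lmV D) A w X`)
* `gauss172u_pow`, `gauss172u_hol` (sharp Hoelder without roots), `gauss172u_coll`
* **`gauss172u_data`**   discrete A0 A1 A2 A3 (eventually in `n`) + A4 (eventually along `𝒰`)  ⟹  `WkData D v (lmT 𝒰 A w X)`
* **`gauss172u_out`**    ... + mean `→ 0`  ⟹  `lmE (A n) (w n) (X n f ^ k) → tmmWick (v ∫_D f u) k` along `𝒰`
THE FROZEN LAW (API of 292)
* `gauss172u_X_add`, `gauss172u_X_smul`, `gauss172u_M_pow` (`gaussM (replicate k g) = atExpect .. (· ^ k)`), `gauss172u_ok` (`LmOk` from `GaussSM.fix`)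
* **`gauss172_glue`**    the statement of `gauss_glue`, word for word
-/

set_option autoImplicit false

namespace Claimed.Agent.R292

open MeasureTheory Filter Topology Set
open scoped ContDiff
open Claims Claims.C0468 Claimed.Agent.R291

/-! ## model free -/

section sys

variable {Ω : ℕ → Type} {D : Set (ℝ × ℝ)} {v : ℝ} {A : ∀ n, Finset (Ω n)} {w : ∀ n, Ω n → ℝ}
  {X : ∀ n, (ℝ × ℝ → ℝ) → Ω n → ℝ}

theorem gauss172u_M_replicate {α τ : Type} (B : Finset α) (u : α → ℝ) (Y : τ → α → ℝ) (g : τ) (k : ℕ) :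
    lmM B u Y (Multiset.replicate k g) = lmE B u fun h => Y g h ^ k := by
  unfold lmM
  congr 1
  funext h
  rw [Multiset.map_replicate, Multiset.prod_replicate]

theorem gauss172u_pow (H : LmOk (lmV D) A w X) (𝒰 : Ultrafilter ℕ) (hU : (𝒰 : Filter ℕ) ≤ atTop)
    {g : ℝ × ℝ → ℝ} (hg : WkTest D g) (k : ℕ) :
    Tendsto (fun n => lmE (A n) (w n) fun h => X n g h ^ k) 𝒰 (𝓝 (lmT 𝒰 A w X (Multiset.replicate k g))) := by
  have := lm_T_tendsto 𝒰 H hU (s := Multiset.replicate k g) (fun f hf => by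
    rw [Multiset.eq_of_mem_replicate hf]; exact hg)
  simpa only [gauss172u_M_replicate] using this

/-- field `hol` : sharp Hoelder without roots along the ultrafilter -/
theorem gauss172u_hol (H : LmOk (lmV D) A w X) (𝒰 : Ultrafilter ℕ) (hU : (𝒰 : Filter ℕ) ≤ atTop)
    (s : Multiset ((ℝ × ℝ → ℝ) × ℝ))
    (h : ∀ p ∈ s, WkTest D p.1 ∧ 0 ≤ p.2 ∧
      lmT 𝒰 A w X (Multiset.replicate (2 * Multiset.card s) p.1) ≤ p.2 ^ (2 * Multiset.card s)) :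
    |lmT 𝒰 A w X (s.map Prod.fst)| ≤ (s.map Prod.snd).prod := by
  by_cases hs : s = 0
  · subst hs
    have : lmT 𝒰 A w X 0 = 1 := lm_T_zero 𝒰 H
    simp [this]
  have hcard : 0 < Multiset.card s := Multiset.card_pos.2 hs
  have step : ∀ ε : ℝ, 0 < ε → |lmT 𝒰 A w X (s.map Prod.fst)| ≤ (s.map fun p => p.2 + ε).prod := by
    intro ε hε
    have ev : ∀ᶠ n in (𝒰 : Filter ℕ), ∀ p ∈ s,
        lmE (A n) (w n) (fun h => X n p.1 h ^ (2 * Multiset.card s)) ≤ (p.2 + ε) ^ (2 * Multiset.card s) := by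
      refine lmb_eventually_all s _ fun p hp => ?_
      obtain ⟨t, p0, pm⟩ := h p hp
      have hlt : lmT 𝒰 A w X (Multiset.replicate (2 * Multiset.card s) p.1) < (p.2 + ε) ^ (2 * Multiset.card s) :=
        lt_of_le_of_lt pm (pow_lt_pow_left₀ (by linarith) p0 (by omega))
      exact ((gauss172u_pow H 𝒰 hU t _).eventually_lt_const hlt).mono fun n hn => hn.le
    refine lm_U_abs_le 𝒰 (ev.mono fun n hn => ?_)
    have := lmb_E_sharp (H.wnn n) (H.Zpos n) s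
      (fun p h => X n p.1 h) (fun p => p.2 + ε) (fun p hp => by linarith [(h p hp).2.1]) hn
    unfold lmM
    simpa only [Multiset.map_map, Function.comp_def] using this
  have hcont : Tendsto (fun ε : ℝ => (s.map fun p => p.2 + ε).prod) (𝓝[>] 0) (𝓝 (s.map fun p => p.2 + 0).prod) := by
    refine tendsto_multiset_prod s fun p _ => ?_
    exact (tendsto_const_nhds.add tendsto_id).mono_left nhdsWithin_le_nhds
  simp only [add_zero] at hcont
  exact ge_of_tendsto hcont (eventually_mem_nhdsWithin.mono fun ε hε => step ε hε)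

/-- one collision estimate passes to the limit along `𝒰` -/
theorem gauss172u_coll (H : LmOk (lmV D) A w X) (𝒰 : Ultrafilter ℕ) (hU : (𝒰 : Filter ℕ) ≤ atTop)
    {s : Multiset (ℝ × ℝ → ℝ)} (hs : ∀ k ∈ s, WkTest D k) (a b : ℝ × ℝ → ℝ) (c ε : ℝ)
    (ev : ∀ᶠ n in (𝒰 : Filter ℕ), |lmM (A n) (w n) (X n) (a ::ₘ b ::ₘ s) - c * lmM (A n) (w n) (X n) s| ≤ ε) :
    |lmT 𝒰 A w X (a ::ₘ b ::ₘ s) - c * lmT 𝒰 A w X s| ≤ ε := by
  have tb := lm_T_tendsto 𝒰 H hU (s := s) hs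
  obtain ⟨C, hC⟩ := lm_M_bdd H (s := s) hs
  have hC' := hU hC
  have ta : Tendsto (fun n => lmM (A n) (w n) (X n) (a ::ₘ b ::ₘ s)) 𝒰 (𝓝 (lmT 𝒰 A w X (a ::ₘ b ::ₘ s))) := by
    refine lm_U_tendsto 𝒰 (C := ε + |c| * C) ?_
    filter_upwards [ev, hC'] with n h1 h2
    have h3 : |c * lmM (A n) (w n) (X n) s| ≤ |c| * C := by
      rw [abs_mul]; exact mul_le_mul_of_nonneg_left h2 (abs_nonneg _)
    have h4 := abs_sub_abs_le_abs_sub (lmM (A n) (w n) (X n) (a ::ₘ b ::ₘ s)) (c * lmM (A n) (w n) (X n) s)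
    linarith
  exact le_of_tendsto (ta.sub (tb.const_mul c)).abs ev

/-- **THE INSTANCE**: the limits along `𝒰` of the mixed moments satisfy the contract of the abstract Wick identity -/
theorem gauss172u_data (H : LmOk (lmV D) A w X) (𝒰 : Ultrafilter ℕ) (hU : (𝒰 : Filter ℕ) ≤ atTop)
    (fix : ∀ (m : ℕ) (K : Set (ℝ × ℝ)), IsCompact K → K ⊆ D → ∃ C : ℝ, 0 < C ∧
      ∀ (M : ℝ) (g : ℝ × ℝ → ℝ), WkTest D g → (∀ y, |g y| ≤ M) → (∀ y, y ∉ K → g y = 0) →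
        ∀ᶠ n in atTop, lmM (A n) (w n) (X n) (Multiset.replicate (2 * m) g) ≤ C * M ^ (2 * m))
    (small : ∀ (m : ℕ) (K : Set (ℝ × ℝ)), IsCompact K → K ⊆ D → ∃ C r0 : ℝ, 0 < C ∧ 0 < r0 ∧ r0 ≤ 1 ∧
      ∀ z ∈ K, ∀ r : ℝ, 0 < r → r ≤ r0 → ∀ (M : ℝ) (g : ℝ × ℝ → ℝ), WkTest D g → (∀ y, |g y| ≤ M) →
        (∀ y, y ∉ wkBall z r → g y = 0) →
        ∀ᶠ n in atTop, lmM (A n) (w n) (X n) (Multiset.replicate (2 * m) g)
          ≤ C * (M * r ^ 2) ^ (2 * m) * (1 + Real.log (1 / r)) ^ m)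
    (harm : ∀ (z0 : ℝ × ℝ) (ρ : ℝ) (φ : ℝ × ℝ → ℝ) (s : Multiset (ℝ × ℝ → ℝ)), 0 < ρ → wkBall z0 ρ ⊆ D →
      ContDiff ℝ ∞ φ → tsupport φ ⊆ wkBall z0 (ρ / 2000) →
      (∀ g ∈ s, WkTest D g ∧ ∃ (c : ℝ × ℝ) (r : ℝ), 0 < r ∧ r < ρ / (4000 * ((Multiset.card s : ℝ) + 1)) ∧ wkBall c r ⊆ D ∧
        (2 * ρ) ^ 2 ≤ C0467.sqDist c z0 ∧ ∀ y, y ∉ wkBall c r → g y = 0) →
      Tendsto (fun n => lmM (A n) (w n) (X n) (C0467.lap2 φ ::ₘ s)) atTop (𝓝 0))
    (bdry : ∃ θ : ℝ, 0 < θ ∧ θ ≤ 1 / 4 ∧ ∀ s : Multiset (ℝ × ℝ → ℝ), (∀ k ∈ s, WkTest D k) → ∀ B : ℝ, 0 < B → ∀ η : ℝ, 0 < η →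
      ∃ a : ℝ, 0 < a ∧ ∀ z ∈ D, limDep D z < a → ∀ g : ℝ × ℝ → ℝ, Continuous g → (∀ y, 0 ≤ g y) →
        (∀ y, g y ≤ B / limDep D z ^ 2) → (∀ y, y ∉ wkBall z (θ * limDep D z) → g y = 0) →
        ∀ᶠ n in atTop, |lmM (A n) (w n) (X n) (g ::ₘ s)| ≤ η)
    (coll : ∀ (K0 : Set (ℝ × ℝ)) (R0 : ℝ), IsCompact K0 → 0 < R0 → (∀ y0 ∈ K0, wkBall y0 R0 ⊆ D) →
      ∀ s : Multiset (ℝ × ℝ → ℝ), (∀ k ∈ s, WkTest D k) → (∀ k ∈ s, ∀ y0 ∈ K0, ∀ y ∈ wkBall y0 R0, k y = 0) →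
      ∀ η β : ℝ × ℝ → ℝ, ContDiff ℝ ∞ η → HasCompactSupport η → ContDiff ℝ ∞ β → HasCompactSupport β → ∫ y, β y = 0 →
      ∀ ε : ℝ, 0 < ε → ∃ r0 : ℝ, 0 < r0 ∧ ∀ y0 ∈ K0, ∀ r : ℝ, 0 < r → r < r0 → ∀ᶠ n in (𝒰 : Filter ℕ),
        |lmM (A n) (w n) (X n) ((fun y => -C0467.lap2 (limSc η y0 r) y) ::ₘ (fun y => (r ^ 2)⁻¹ * limSc β y0 r y) ::ₘ s)
          - v * (∫ y, η y * β y) * lmM (A n) (w n) (X n) s| ≤ ε) :
    WkData D v (lmT 𝒰 A w X) := by
  refine ⟨fun g g' s hg hg' hs => lm_T_add 𝒰 H hU hg hg' hs, fun c g s hg hs => lm_T_smul 𝒰 H hU c hg hs,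
    gauss172u_hol H 𝒰 hU, ?_, ?_, ?_, ?_, ?_⟩
  · intro m K hK hKD
    obtain ⟨C, hC, H0⟩ := fix m K hK hKD
    refine ⟨C, hC, fun M g hg hM h0 => ?_⟩
    have := H0 M g hg hM h0
    simp only [gauss172u_M_replicate] at this
    exact le_of_tendsto (gauss172u_pow H 𝒰 hU hg (2 * m)) (hU this)
  · intro m K hK hKD
    obtain ⟨C, r0, hC, hr0, hr1, H0⟩ := small m K hK hKD
    refine ⟨C, r0, hC, hr0, hr1, fun z hz r hr hrr M g hg hM h0 => ?_⟩
    have := H0 z hz r hr hrr M g hg hM h0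
    simp only [gauss172u_M_replicate] at this
    exact le_of_tendsto (gauss172u_pow H 𝒰 hU hg (2 * m)) (hU this)
  · intro z0 ρ φ s hρ hball hφ hφs hs
    exact lm_T_eq 𝒰 hU (harm z0 ρ φ s hρ hball hφ hφs hs)
  · obtain ⟨θ, h0, h1, H0⟩ := bdry
    refine ⟨θ, h0, h1, fun s hs B hB η hη => ?_⟩
    obtain ⟨a, ha, Ha⟩ := H0 s hs B hB η hη
    exact ⟨a, ha, fun z hz hdz g hg g0 gA gs => lm_T_abs_le 𝒰 hU (Ha z hz hdz g hg g0 gA gs)⟩
  · intro K0 R0 hK0 hR0 hb s hs hs0 η β hη hηc hβ hβc hβ0 ε hε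
    obtain ⟨r0, hr0, H0⟩ := coll K0 R0 hK0 hR0 hb s hs hs0 η β hη hηc hβ hβc hβ0 ε hε
    exact ⟨r0, hr0, fun y0 hy0 r hr hrr => gauss172u_coll H 𝒰 hU hs _ _ _ ε (H0 y0 hy0 r hr hrr)⟩

/-- **the Wick numbers along `𝒰`** from the contract `WkData` of the limit functional and a vanishing mean -/
theorem gauss172u_out (H : LmOk (lmV D) A w X) (𝒰 : Ultrafilter ℕ) (hU : (𝒰 : Filter ℕ) ≤ atTop)
    (hdata : WkData D v (lmT 𝒰 A w X)) (hD : IsOpen D) (hB : Bornology.IsBounded D)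
    {f u : ℝ × ℝ → ℝ} (hf : Continuous f) (hfc : HasCompactSupport f) (hfs : tsupport f ⊆ D)
    (hmean : Tendsto (fun n => lmE (A n) (w n) (X n f)) atTop (𝓝 0))
    (hu : ContDiffOn ℝ 2 u D) (huc : ContinuousOn u (closure D)) (hu0 : ∀ z ∈ frontier D, u z = 0)
    (hlap : ∀ z ∈ D, -C0467.lap2 u z = f z) (k : ℕ) :
    Tendsto (fun n => lmE (A n) (w n) fun h => X n f h ^ k) 𝒰 (𝓝 (tmmWick (v * ∫ z in D, f z * u z) k)) := by
  have hg : WkTest D f := ⟨hf, hfc, hfs⟩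
  have key : ∀ k : ℕ, lmT 𝒰 A w X (Multiset.replicate k f) = tmmWick (v * ∫ z in D, f z * u z) k := by
    intro k
    induction k using Nat.twoStepInduction with
    | zero => exact lm_T_zero 𝒰 H
    | one =>
      refine lm_T_eq 𝒰 hU ?_
      simp only [gauss172u_M_replicate, pow_one]
      exact hmean
    | more j ih _ =>
      rw [wk_main hdata hD hB hf hfc hfs hu huc hu0 hlap j, ih, tmm_wick_succ]
      ring
  have := gauss172u_pow H 𝒰 hU hg k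
  rwa [key k] at this

end sys

/-! ## the frozen law -/

theorem gauss172u_X_add (δ : ℝ) {F : Finset (ℤ × ℤ)} (g g' : ℝ × ℝ → ℝ) (p : at92Cfg F) :
    at92X δ (g + g') p = at92X δ g p + at92X δ g' p := by
  unfold at92X
  rw [← mul_add, ← Finset.sum_add_distrib]
  congr 1
  refine Finset.sum_congr rfl fun v _ => ?_
  rw [Pi.add_apply, mul_add]

theorem gauss172u_X_smul (δ : ℝ) {F : Finset (ℤ × ℤ)} (c : ℝ) (g : ℝ × ℝ → ℝ) (p : at92Cfg F) :
    at92X δ (c • g) p = c * at92X δ g p := by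
  unfold at92X
  rw [mul_left_comm c, Finset.mul_sum (a := c)]
  congr 1
  refine Finset.sum_congr rfl fun v _ => ?_
  rw [Pi.smul_apply, smul_eq_mul]
  ring

/-- the frozen expectation in the shape of the moment systems -/
theorem gauss172u_expect (t δ : ℝ) (F : Finset (ℤ × ℤ)) (g : ℝ × ℝ → ℝ) (ψ : ℝ → ℝ) :
    atExpect t δ F g ψ = lmE (at92Adm F) (at92W t) fun p => ψ (at92X δ g p) := by
  rw [at92_expect_eq]
  rfl

/-- a power moment is a frozen expectation -/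
theorem gauss172u_M_pow (t δ : ℝ) (F : Finset (ℤ × ℤ)) (g : ℝ × ℝ → ℝ) (k : ℕ) :
    gaussM t δ F (Multiset.replicate k g) = atExpect t δ F g fun x => x ^ k := by
  unfold gaussM
  rw [gauss172u_M_replicate, gauss172u_expect]

/-- THE MOMENT SYSTEM OF THE FROZEN ASHKIN-TELLER LAW -/
theorem gauss172u_ok {t : ℝ} (ht : 0 < t) {D : Set (ℝ × ℝ)} {δ : ℕ → ℝ} {F : ℕ → Finset (ℤ × ℤ)} (hSM : GaussSM t D δ F) :
    LmOk (lmV D) (fun n => at92Adm (F n)) (fun _ => at92W t) (fun n g p => at92X (δ n) g p) where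
  wnn := fun _ _ _ => (pow_pos ht _).le
  Zpos := fun n => at92_Z_pos ht (F n)
  add := fun n g g' _ _ p _ => gauss172u_X_add (δ n) g g' p
  smul := fun n c g _ p _ => gauss172u_X_smul (δ n) c g p
  bdd := by
    intro g hg p hp
    have hg' : WkTest D g := lm_mem_V.1 hg
    obtain ⟨m, rfl⟩ : ∃ m, p = 2 * m := by
      obtain ⟨m, hm⟩ := hp
      exact ⟨m, by omega⟩
    obtain ⟨C, -, h⟩ := hSM.fix m (tsupport g) hg'.comp.isCompact hg'.sub
    obtain ⟨M, -, hM⟩ := hg'.bound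
    refine ⟨C * M ^ (2 * m), (h M g hg' hM (wk_zero_of_tsupport subset_rfl)).mono fun n hn => ?_⟩
    unfold gaussM at hn
    rwa [gauss172u_M_replicate] at hn

/-- **THE GLUE OF UNIT GAUSS** (the statement of `gauss_glue`, Exit/GAUSS, word for word) -/
theorem gauss172_glue {t v : ℝ} (ht : 0 < t) {D : Set (ℝ × ℝ)} (hD : GaussDom D) {δ : ℕ → ℝ} {F : ℕ → Finset (ℤ × ℤ)}
    (hF : IsAdmissibleApprox D δ F) (𝒰 : Ultrafilter ℕ) (hU : (𝒰 : Filter ℕ) ≤ atTop)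
    (hSM : GaussSM t D δ F) (hH : GaussHarm t D δ F) (hBD : GaussBD t D δ F) (hDec : GaussDec t v D δ F 𝒰)
    (φ : ℝ × ℝ → ℝ) (hφ : ContDiff ℝ ((⊤ : ℕ∞) : WithTop ℕ∞) φ) (hφc : HasCompactSupport φ) (hφD : tsupport φ ⊆ D)
    (u : ℝ × ℝ → ℝ) (hu2 : ContDiffOn ℝ 2 u D) (huc : ContinuousOn u (closure D))
    (hu0 : ∀ z ∈ frontier D, u z = 0) (hueq : ∀ z ∈ D, -C0468.lap2 u z = φ z) (k : ℕ) :
    Tendsto (fun n => atExpect t (δ n) (F n) φ (fun s => s ^ k)) (𝒰 : Filter ℕ) (𝓝 (tmmWick (v * ∫ z in D, φ z * u z) k)) := by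
  have hok := gauss172u_ok ht hSM
  have hdata : WkData D v (lmT 𝒰 (fun n => at92Adm (F n)) (fun _ => at92W t) (fun n g p => at92X (δ n) g p)) :=
    gauss172u_data hok 𝒰 hU hSM.fix hSM.small hH hBD hDec
  have hmean : Tendsto (fun n => lmE (at92Adm (F n)) (at92W t) (fun p => at92X (δ n) φ p)) atTop (𝓝 0) := by
    have e : ∀ n, lmE (at92Adm (F n)) (at92W t) (fun p => at92X (δ n) φ p) = 0 := by
      intro n
      have h := at92h_odd_moment t (δ n) (F n) φ 0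
      rw [gauss172u_expect] at h
      simpa using h
    simp only [e]
    exact tendsto_const_nhds
  have h := gauss172u_out hok 𝒰 hU hdata hD.1 hD.2.1 hφ.continuous hφc hφD hmean hu2 huc hu0 hueq k
  simpa only [gauss172u_expect] using h

end Claimed.Agent.R292
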