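import Claimed.Agent.R292.Defs.GaussArch
import Claimed.Agent.R292.Gauss.Dict292
import Claimed.Agent.R292.Gauss.Glue172
import Claimed.Agent.R292.Rsw.Base31
import Claimed.Agent.R291.Geo.Hex

/-!
# Row 292 (S0540), Gauss/Bd172 : CONTRACT `gauss_bd` (A3) FROM [ARCH] + [FLIP] + [DEPTH] + [SM]      (owner helper172; prefix `gbd172_`)      0 sorry

TEX[prop:boundary-decay] (06-gaussian.tex).  Port of R291/Bdy/Mom Part 1 (`bdy_bd_step`, `bdy_bd`) to the vocabulary of Defs/RSW + Defs/GaussArch.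
* `gbd172_fin_pos`, `gbd172_clearance`, `gbd172_corner_face`, `gbd172_face_dist`      tools
* `gbd172_in`, `gbd172_out`      the sites which see a test carried near `p` (far from `p`) are corners of faces of `gaussIn` (`gaussOut`)
* **`gbd172_step`**    one mesh, one centre: cluster flip + Cauchy-Schwarz:   `gaussM (g ::ₘ s)² ≤ (E X(g)⁴ + E Y⁴)/2 · P(no separation)`
* `gbd172_spec_mom`    fourth moment of the product of the fixed interior spectators (eventually bounded; from `GaussSM.fix` through `lm_M_bdd`)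
* **`gbd172_bd`**      `GaussArch → (∀ n, GaussFlip) → GaussDepth → GaussSM → GaussBD`      (finite cover of the frontier)
-/

set_option autoImplicit false

namespace Claimed.Agent.R292

open MeasureTheory Filter Topology Set
open Claims Claims.C0468 Claimed.Agent.R291

/-! ### tools -/

/-- a finite family of positive numbers has a positive lower bound -/
theorem gbd172_fin_pos {α : Type*} (t : Finset α) (r : α → ℝ) (h : ∀ p ∈ t, 0 < r p) :
    ∃ a : ℝ, 0 < a ∧ ∀ p ∈ t, a ≤ r p := by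
  classical
  induction t using Finset.induction_on with
  | empty => exact ⟨1, one_pos, fun p hp => absurd hp (Finset.notMem_empty p)⟩
  | insert q t hq ih =>
    obtain ⟨a, ha, hat⟩ := ih fun p hp => h p (Finset.mem_insert_of_mem hp)
    refine ⟨min a (r q), lt_min ha (h q (Finset.mem_insert_self q t)), fun p hp => ?_⟩
    rcases Finset.mem_insert.mp hp with rfl | hp
    · exact min_le_right _ _
    · exact (min_le_left _ _).trans (hat p hp)

/-- a compact subset of the region `D` is at a positive distance of the frontier -/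
theorem gbd172_clearance {D K : Set (ℝ × ℝ)} (hD : IsOpen D) (hK : IsCompact K) (hKD : K ⊆ D) :
    ∃ R : ℝ, 0 < R ∧ ∀ p ∈ frontier D, ∀ y ∈ K, 2 * R ≤ dist y p := by
  obtain ⟨r, hr, hrD⟩ := hK.exists_cthickening_subset_open hD hKD
  refine ⟨r / 2, by positivity, fun p hp y hy => ?_⟩
  by_contra hc
  have h1 : p ∈ Metric.cthickening r K :=
    Metric.mem_cthickening_of_dist_le p y r K hy (by rw [dist_comm]; linarith [not_le.mp hc])
  have h2 : p ∈ D := hrD h1
  have h3 : p ∉ interior D := (mem_sdiff p).mp hp |>.2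
  rw [hD.interior_eq] at h3
  exact h3 h2

/-- a corner of `F` is a corner of a face of `F` -/
theorem gbd172_corner_face {F : Finset (ℤ × ℤ)} {v : ℤ × ℤ} (hv : v ∈ cornersOf F) :
    ∃ f ∈ F, (v.1 = f.1 ∨ v.1 = f.1 + 1) ∧ (v.2 = f.2 ∨ v.2 = f.2 + 1) := by
  unfold cornersOf at hv
  rw [Finset.mem_biUnion] at hv
  obtain ⟨f, hf, hv⟩ := hv
  refine ⟨f, hf, ?_⟩
  simp only [Finset.mem_insert, Finset.mem_singleton] at hv
  rcases hv with rfl | rfl | rfl | rfl <;> simp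

theorem gbd172_corner_of_face {A : Finset (ℤ × ℤ)} {f v : ℤ × ℤ} (hf : f ∈ A)
    (h : (v.1 = f.1 ∨ v.1 = f.1 + 1) ∧ (v.2 = f.2 ∨ v.2 = f.2 + 1)) : v ∈ cornersOf A := by
  unfold cornersOf
  rw [Finset.mem_biUnion]
  refine ⟨f, hf, ?_⟩
  simp only [Finset.mem_insert, Finset.mem_singleton, Prod.ext_iff]
  omega

/-- the lower left corner of a face is within `δ` (sup metric) of each of its corners -/
theorem gbd172_face_dist {δ : ℝ} (hδ : 0 < δ) {f v : ℤ × ℤ}
    (h : (v.1 = f.1 ∨ v.1 = f.1 + 1) ∧ (v.2 = f.2 ∨ v.2 = f.2 + 1)) :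
    dist ((δ * f.1, δ * f.2) : ℝ × ℝ) (δ * v.1, δ * v.2) ≤ δ := by
  rw [Prod.dist_eq, Real.dist_eq, Real.dist_eq]
  refine max_le ?_ ?_
  · rcases h.1 with e | e <;> rw [e]
    · simp [hδ.le]
    · push_cast
      have : δ * (f.1 : ℝ) - δ * ((f.1 : ℝ) + 1) = -δ := by ring
      rw [this, abs_neg, abs_of_pos hδ]
  · rcases h.2 with e | e <;> rw [e]
    · simp [hδ.le]
    · push_cast
      have : δ * (f.2 : ℝ) - δ * ((f.2 : ℝ) + 1) = -δ := by ring
      rw [this, abs_neg, abs_of_pos hδ]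

/-- sites within `r/2 - δ` of `p` are corners of faces of `gaussIn` -/
theorem gbd172_in {δ r : ℝ} (hδ : 0 < δ) (hr : 0 < r) {F : Finset (ℤ × ℤ)} {p : ℝ × ℝ} {v : ℤ × ℤ} (hv : v ∈ cornersOf F)
    (h : δ + dist ((δ * v.1, δ * v.2) : ℝ × ℝ) p ≤ r / 2) : v ∈ cornersOf (gaussIn δ F p r) := by
  classical
  obtain ⟨f, hf, hc⟩ := gbd172_corner_face hv
  refine gbd172_corner_of_face (f := f) ?_ hc
  unfold gaussIn
  rw [Finset.mem_filter]
  refine ⟨hf, ?_⟩
  have h1 := gbd172_face_dist hδ hc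
  have h2 := dist_triangle ((δ * f.1, δ * f.2) : ℝ × ℝ) (δ * v.1, δ * v.2) p
  have h3 : dist ((δ * f.1, δ * f.2) : ℝ × ℝ) p ≤ r / 2 := by linarith
  have h4 := hg_sqDist_le_dist_sq ((δ * f.1, δ * f.2) : ℝ × ℝ) p
  have h5 : dist ((δ * f.1, δ * f.2) : ℝ × ℝ) p ^ 2 ≤ (r / 2) ^ 2 := pow_le_pow_left₀ dist_nonneg h3 2
  nlinarith

/-- sites at distance `≥ R + δ` of `p` are corners of faces of `gaussOut` -/
theorem gbd172_out {δ R : ℝ} (hδ : 0 < δ) (hR : 0 < R) {F : Finset (ℤ × ℤ)} {p : ℝ × ℝ} {v : ℤ × ℤ} (hv : v ∈ cornersOf F)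
    (h : R + δ ≤ dist ((δ * v.1, δ * v.2) : ℝ × ℝ) p) : v ∈ cornersOf (gaussOut δ F p R) := by
  classical
  obtain ⟨f, hf, hc⟩ := gbd172_corner_face hv
  refine gbd172_corner_of_face (f := f) ?_ hc
  unfold gaussOut
  rw [Finset.mem_filter]
  refine ⟨hf, ?_⟩
  have h1 := gbd172_face_dist hδ hc
  have h2 := dist_triangle ((δ * v.1, δ * v.2) : ℝ × ℝ) (δ * f.1, δ * f.2) p
  have h2' := dist_comm ((δ * v.1, δ * v.2) : ℝ × ℝ) (δ * f.1, δ * f.2)
  have h3 : R ≤ dist ((δ * f.1, δ * f.2) : ℝ × ℝ) p := by linarith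
  have h4 := hg_dist_sq_le_sqDist ((δ * f.1, δ * f.2) : ℝ × ℝ) p
  have h5 : R ^ 2 ≤ dist ((δ * f.1, δ * f.2) : ℝ × ℝ) p ^ 2 := pow_le_pow_left₀ hR.le h3 2
  linarith

/-! ### one mesh, one centre -/

/-- the smeared field as a function of the height -/
noncomputable def gbd172X (δ : ℝ) (F : Finset (ℤ × ℤ)) (g : ℝ × ℝ → ℝ) (h : ℤ × ℤ → ℝ) : ℝ :=
  δ ^ 2 * ∑ v ∈ cornersOf F, h v * g (δ * v.1, δ * v.2)

theorem gbd172X_eqns_cite : True := by
  have := @gbd172X.eq_1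
  trivial

theorem gbd172_X_eq (δ : ℝ) (F : Finset (ℤ × ℤ)) (g : ℝ × ℝ → ℝ) (ω : RswCfg) :
    at92dX δ F g ω = gbd172X δ F g (rswH F ω) := rfl

theorem gbd172_X_odd {δ : ℝ} {F A : Finset (ℤ × ℤ)} {g : ℝ × ℝ → ℝ}
    (hg : ∀ v ∈ cornersOf F, g (δ * v.1, δ * v.2) ≠ 0 → v ∈ cornersOf A) (h h' : ℤ × ℤ → ℝ)
    (hh : ∀ v ∈ cornersOf A, h' v = -h v) : gbd172X δ F g h' = -gbd172X δ F g h := by
  unfold gbd172X
  rw [← mul_neg, ← Finset.sum_neg_distrib]
  congr 1
  refine Finset.sum_congr rfl fun v hv => ?_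
  by_cases h0 : g (δ * v.1, δ * v.2) = 0
  · rw [h0]; simp
  · rw [hh v (hg v hv h0)]; ring

theorem gbd172_X_loc {δ : ℝ} {F B : Finset (ℤ × ℤ)} {g : ℝ × ℝ → ℝ}
    (hg : ∀ v ∈ cornersOf F, g (δ * v.1, δ * v.2) ≠ 0 → v ∈ cornersOf B) (h h' : ℤ × ℤ → ℝ)
    (hh : ∀ v ∈ cornersOf B, h' v = h v) : gbd172X δ F g h' = gbd172X δ F g h := by
  unfold gbd172X
  congr 1
  refine Finset.sum_congr rfl fun v hv => ?_
  by_cases h0 : g (δ * v.1, δ * v.2) = 0
  · rw [h0]; simp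
  · rw [hh v (hg v hv h0)]

/-- **the flip + Cauchy-Schwarz** -/
theorem gbd172_step {t : ℝ} (h0 : 0 < t) (h1 : t ≤ 1) (δ : ℝ) (F : Finset (ℤ × ℤ)) (hflip : GaussFlip t F)
    (A B : Finset (ℤ × ℤ)) (hA : A ⊆ F) (hB : B ⊆ F) (g : ℝ × ℝ → ℝ) (s : Multiset (ℝ × ℝ → ℝ))
    (hgin : ∀ v ∈ cornersOf F, g (δ * v.1, δ * v.2) ≠ 0 → v ∈ cornersOf A)
    (hsout : ∀ k ∈ s, ∀ v ∈ cornersOf F, k (δ * v.1, δ * v.2) ≠ 0 → v ∈ cornersOf B)
    {ε BY BP : ℝ} (harch : rswP t F true (fun ω => ¬ GaussSep0 F ω A B) ≤ ε)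
    (hY : gaussM t δ F (Multiset.replicate 4 g) ≤ BY) (hP : gaussM t δ F (4 • s) ≤ BP) :
    gaussM t δ F (g ::ₘ s) ^ 2 ≤ (BY + BP) / 2 * ε := by
  classical
  set X : (ℤ × ℤ → ℝ) → ℝ := gbd172X δ F g with hX
  set Y : (ℤ × ℤ → ℝ) → ℝ := fun h => (s.map fun k => gbd172X δ F k h).prod with hYdef
  have hXodd : ∀ h h' : ℤ × ℤ → ℝ, (∀ v ∈ cornersOf A, h' v = -h v) → X h' = -X h := gbd172_X_odd hgin
  have hYloc : ∀ h h' : ℤ × ℤ → ℝ, (∀ v ∈ cornersOf B, h' v = h v) → Y h' = Y h := by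
    intro h h' hh
    simp only [hYdef]
    congr 1
    exact Multiset.map_congr rfl fun k hk => gbd172_X_loc (hsout k hk) h h' hh
  have hfl := hflip A B X Y hA hB hXodd hYloc
  have e1 : gaussM t δ F (g ::ₘ s) = rswE t F true (fun ω => X (rswH F ω) * Y (rswH F ω)) := by
    rw [at92d_gaussM]
    congr 1
    funext ω
    rw [Multiset.map_cons, Multiset.prod_cons]
    rfl
  have e2 : gaussM t δ F (Multiset.replicate 4 g) = rswE t F true (fun ω => X (rswH F ω) ^ 4) := by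
    rw [at92d_gaussM]
    congr 1
    funext ω
    rw [Multiset.map_replicate, Multiset.prod_replicate]
    rfl
  have e3 : gaussM t δ F (4 • s) = rswE t F true (fun ω => Y (rswH F ω) ^ 4) := by
    rw [at92d_gaussM]
    congr 1
    funext ω
    rw [Multiset.map_nsmul, Multiset.prod_nsmul]
    rfl
  have split : (fun ω => X (rswH F ω) * Y (rswH F ω))
      = fun ω => (if GaussSep0 F ω A B then X (rswH F ω) * Y (rswH F ω) else 0)
        + (X (rswH F ω) * Y (rswH F ω)) * (if ¬ GaussSep0 F ω A B then (1 : ℝ) else 0) := by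
    funext ω
    by_cases hs : GaussSep0 F ω A B
    · simp [hs]
    · simp [hs]
  have hfl' : rswE t F true (fun ω => if GaussSep0 F ω A B then X (rswH F ω) * Y (rswH F ω) else 0) = 0 := by
    convert hfl using 3
  rw [e1, split, rsb_E_add, hfl', zero_add]
  refine (rsb_E_cauchy h0 h1 F true _ _).trans ?_
  have hq : rswE t F true (fun ω => (X (rswH F ω) * Y (rswH F ω)) ^ 2) ≤ (BY + BP) / 2 := by
    have a1 : rswE t F true (fun ω => (X (rswH F ω) * Y (rswH F ω)) ^ 2)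
        ≤ rswE t F true (fun ω => (1 / 2) * (X (rswH F ω) ^ 4 + Y (rswH F ω) ^ 4)) := by
      refine rsb_E_mono h0 h1 fun ω _ _ => ?_
      nlinarith [sq_nonneg (X (rswH F ω) ^ 2 - Y (rswH F ω) ^ 2)]
    rw [rsb_E_const_mul, rsb_E_add, ← e2, ← e3] at a1
    linarith
  have hp : rswE t F true (fun ω => (if ¬ GaussSep0 F ω A B then (1 : ℝ) else 0) ^ 2) ≤ ε := by
    refine le_trans (le_of_eq ?_) harch
    unfold rswP
    congr 1
    funext ω
    by_cases hs : GaussSep0 F ω A B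
    · simp [hs]
    · simp [hs]
  have hq0 : 0 ≤ rswE t F true (fun ω => (X (rswH F ω) * Y (rswH F ω)) ^ 2) :=
    rsb_E_nonneg h0 h1 fun ω _ _ => sq_nonneg _
  have hp0 : 0 ≤ rswE t F true (fun ω => (if ¬ GaussSep0 F ω A B then (1 : ℝ) else 0) ^ 2) :=
    rsb_E_nonneg h0 h1 fun ω _ _ => sq_nonneg _
  exact mul_le_mul hq hp hp0 (hq0.trans hq)

/-- fourth moment of the product of fixed interior spectators -/
theorem gbd172_spec_mom {t : ℝ} (ht : 0 < t) {D : Set (ℝ × ℝ)} {δ : ℕ → ℝ} {F : ℕ → Finset (ℤ × ℤ)} (hSM : GaussSM t D δ F)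
    {s : Multiset (ℝ × ℝ → ℝ)} (hs : ∀ k ∈ s, WkTest D k) :
    ∃ B : ℝ, 0 ≤ B ∧ ∀ᶠ n in atTop, gaussM t (δ n) (F n) (4 • s) ≤ B := by
  obtain ⟨C, hC⟩ := lm_M_bdd (gauss172u_ok ht hSM) (s := 4 • s) (fun k hk => hs k (Multiset.mem_of_mem_nsmul hk))
  refine ⟨|C|, abs_nonneg _, hC.mono fun n hn => ?_⟩
  exact (le_abs_self _).trans (hn.trans (le_abs_self _))

/-! ### the assembly -/

/-- **[BD]** TEX[prop:boundary-decay]: fixed interior spectators, uniformly along the boundary -/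
theorem gbd172_bd {t : ℝ} (h0 : 0 < t) (h1 : t ≤ 1) {D : Set (ℝ × ℝ)} (hD : GaussDom D) {δ : ℕ → ℝ} {F : ℕ → Finset (ℤ × ℤ)}
    (hF : IsAdmissibleApprox D δ F) (hA : GaussArch t D δ F) (hflip : ∀ n, GaussFlip t (F n))
    (hdep : GaussDepth t D δ F) (hSM : GaussSM t D δ F) : GaussBD t D δ F := by
  classical
  have hDo : IsOpen D := hD.1
  have hDb : Bornology.IsBounded D := hD.2.1
  obtain ⟨θ, C, hθ, hθ4, hC, hdepth⟩ := hdep
  refine ⟨θ, hθ, hθ4, fun s hs A hA0 η hη => ?_⟩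
  obtain ⟨BP, hBP, hpi⟩ := gbd172_spec_mom h0 hSM hs
  -- clearance of the spectators
  obtain ⟨K, hK, hKD, hKs⟩ : ∃ K : Set (ℝ × ℝ), IsCompact K ∧ K ⊆ D ∧ ∀ k ∈ s, tsupport k ⊆ K := by
    clear hpi
    induction s using Multiset.induction_on with
    | empty => exact ⟨∅, isCompact_empty, empty_subset _, fun k hk => absurd hk (Multiset.notMem_zero k)⟩
    | cons k s ih =>
      obtain ⟨K, hK, hKD, hKs⟩ := ih fun k' hk' => hs k' (Multiset.mem_cons_of_mem hk')
      have hk := hs k (Multiset.mem_cons_self k s)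
      refine ⟨tsupport k ∪ K, hk.comp.isCompact.union hK, union_subset hk.sub hKD, fun k' hk' => ?_⟩
      rcases Multiset.mem_cons.1 hk' with rfl | hk'
      · exact subset_union_left
      · exact (hKs k' hk').trans subset_union_right
  obtain ⟨R, hR, hclear⟩ := gbd172_clearance hDo hK hKD
  -- accuracy of the arch
  set BB : ℝ := (C * A ^ 4 + BP) / 2 with hBB
  have hBB0 : 0 ≤ BB := by positivity
  set ε : ℝ := η ^ 2 / (BB + 1) with hε
  have hε0 : 0 < ε := by positivity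
  have hBε : BB * ε ≤ η ^ 2 := by
    rw [hε, mul_div_assoc']
    rw [div_le_iff₀ (by positivity)]
    nlinarith [sq_nonneg η]
  choose! rr hrr0 hrrR harch using fun p (hp : p ∈ frontier D) => hA p hp R hR ε hε0
  -- finite subcover of the frontier
  have hcomp : IsCompact (frontier D) :=
    Metric.isCompact_of_isClosed_isBounded isClosed_frontier (hDb.closure.subset frontier_subset_closure)
  obtain ⟨T, hTD, hcov⟩ := hcomp.elim_nhds_subcover (fun p => Metric.ball p (if p ∈ frontier D then rr p / 8 else 1))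
    (fun p hp => Metric.ball_mem_nhds p (by rw [if_pos hp]; linarith [hrr0 p hp]))
  obtain ⟨a, ha, hat⟩ := gbd172_fin_pos T (fun p => rr p / 8) fun p hp => by linarith [hrr0 p (hTD p hp)]
  refine ⟨a, ha, fun z hz hdz g hgc hg0 hgA hgs => ?_⟩
  have hne : (frontier D).Nonempty := by
    obtain ⟨γ, -, -, hγ⟩ := hD.2.2
    exact ⟨γ 1, hγ ▸ mem_range_self 1⟩
  obtain ⟨q, hq, hqd⟩ := isClosed_frontier.exists_infDist_eq_dist hne z
  have hqd' : dist z q = limDep D z := hqd.symm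
  obtain ⟨p, hpT, hqp⟩ := mem_iUnion₂.mp (hcov hq)
  have hpD := hTD p hpT
  rw [if_pos hpD, Metric.mem_ball] at hqp
  have hrp := hrr0 p hpD
  have hap := hat p hpT
  have hd0 : 0 < limDep D z := by
    have hzf : z ∉ frontier D := fun h => by
      have := ((mem_sdiff z).mp h).2
      rw [hDo.interior_eq] at this
      exact this hz
    exact (isClosed_frontier.notMem_iff_infDist_pos hne).mp hzf
  have hδ0 : ∀ᶠ n in atTop, δ n ≤ min R (rr p / 8) :=
    (hF.2.1.eventually (gt_mem_nhds (lt_min hR (by linarith)))).mono fun n hn => hn.le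
  filter_upwards [harch p hpD, hdepth z hz A g hA0 hgc hg0 hgA hgs, hpi, hδ0] with n k1 k2 k3 k4
  have hδn := hF.1 n
  have hs0 : 0 ≤ θ * limDep D z := by positivity
  have hgin : ∀ v ∈ cornersOf (F n), g (δ n * v.1, δ n * v.2) ≠ 0 → v ∈ cornersOf (gaussIn (δ n) (F n) p (rr p)) := by
    intro v hv hne'
    refine gbd172_in hδn hrp hv ?_
    have hmem : ((δ n * v.1, δ n * v.2) : ℝ × ℝ) ∈ wkBall z (θ * limDep D z) := by
      by_contra hc
      exact hne' (hgs _ hc)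
    have t0 := wk_ball_subset z hs0 hmem
    rw [Metric.mem_closedBall] at t0
    have t1 := dist_triangle ((δ n * v.1, δ n * v.2) : ℝ × ℝ) z p
    have t2 := dist_triangle z q p
    have t3 : θ * limDep D z ≤ 1 / 4 * limDep D z := mul_le_mul_of_nonneg_right hθ4 hd0.le
    have t4 := k4.trans (min_le_right _ _)
    linarith
  have hsout : ∀ k ∈ s, ∀ v ∈ cornersOf (F n), k (δ n * v.1, δ n * v.2) ≠ 0 → v ∈ cornersOf (gaussOut (δ n) (F n) p R) := by
    intro k hk v hv hne'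
    refine gbd172_out hδn hR hv ?_
    have := hclear p hpD _ (hKs k hk (subset_tsupport k hne'))
    have t4 := k4.trans (min_le_left _ _)
    linarith
  have step := gbd172_step h0 h1 (δ n) (F n) (hflip n) _ _ (Finset.filter_subset _ _) (Finset.filter_subset _ _) g s
    hgin hsout k1 k2 k3
  exact abs_le_of_sq_le_sq (step.trans hBε) hη.le

end Claimed.Agent.R292
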