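import Claimed.Agent.R292.Defs.GAUSS
import Claimed.Agent.R292.Defs.SPEC
import Claimed.Agent.R292.Height
import Claimed.Agent.R292.Gauss.Riem262
import Claimed.Agent.R292.Gauss.Glue172
import Claimed.Agent.R291.Lim.DecB

/-!
# Row 292 (S0540), Gauss/Dec72 : THE COLLISION DECOUPLING `GaussDec` = contract `gauss_dec` (A4) of Exit/GAUSS      (owner helper72; prefix `gd72_`, defs `gd72*`, `Gd72*`)      0 sorry

TEX[lem:neutral-pair-mixing] + TEX[prop:collision-coefficient] (06-gaussian.tex l.514-690) at the discrete level = port of R291 `Lim/DecA` + `Lim/DecB` to Def_0468.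
INPUTS
* `Gd72Pl t`      THE PLANE PACKAGE (typed here, read by 181): `lim` (the plane law exists on local gradient observables), `tr` (lattice translations),
                  `mix` (approximate independence of local increments from all the heights outside a box), `mom` (plane moments of neutral arrays)       producers RSW / MODEL
* `AspPCF (aspGam (gd72Var t)) v`   the exit of SPEC (`exit_spec`) for the variogram `gd72Var t` of the plane law; needs `AspIn (gd72Var t)`                 producers SPEC + MODEL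
* `GaussSM`       (A0)+(A1) in every domain (`gauss_sm`)                                                                                                  producer 182
The heights are CLEANED (`gd72H`: `0` off `cornersOf F`, where the frozen `Classical.choose` is junk; remark of 181 and 262).
NEW with respect to row 291
* the frozen smearing is POINT EVALUATION `δ² ∑ H(v) g(δ v)`: a zero integral test is not exactly neutral on the lattice.  `gd72Y = X(α) - θ_n X(χ)`, `θ_n = gd72Th → 0`,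
  is exactly neutral (`Gd72Frame.Y_tot`); `gd72_split` = the algebra; Riemann sums and cell weights = `Gauss/Riem262` (262)
* `GaussSM` is typed `∀ g, ∀ᶠ n`: the local estimate `gd72_dec_loc` is stated for FIXED tests `α1 α2 χ` and all coefficients `|θ| ≤ 1`
* SPEC speaks of cell weights `aspW` and of the form `aspGam a`: `gd72_pl_gam` (variogram identity), `gd72_cov_cmp`, `gd72_cov_lim` (cell weights ⟶ point weights, by `mom`)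
* `gd72_ultra` (subsequences ⟹ every ultrafilter, ONE constant): for the fall-back cut in which the plane constant is only subsequential; not used by `gd72_dec`
OUTPUT  **`gd72_dec_top`** : `GaussDec t v D δ F 𝒰`;   **`gd72_dec`** : the statement of `gauss_dec`, word for word.
-/

set_option autoImplicit false

namespace Claimed.Agent.R292

open MeasureTheory Filter Topology Set
open scoped ContDiff
open Claims Claims.C0468 Claimed.Agent.R291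

/-! ## 0. Vocabulary -/

/-- the face box `[u0 - n, u0 + n)²` (= `rswBox`) -/
noncomputable def gd72FB (u0 : ℤ × ℤ) (n : ℕ) : Finset (ℤ × ℤ) :=
  Finset.Ico (u0.1 - n) (u0.1 + n) ×ˢ Finset.Ico (u0.2 - n) (u0.2 + n)

/-- the vertex box `[u0 - n, u0 + n]²` (the corners of the face box) -/
noncomputable def gd72VB (u0 : ℤ × ℤ) (n : ℕ) : Finset (ℤ × ℤ) :=
  Finset.Icc (u0.1 - n) (u0.1 + n) ×ˢ Finset.Icc (u0.2 - n) (u0.2 + n)

/-- the region of `F` is bounded by a Jordan curve, at some mesh -/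
def Gd72Jor (F : Finset (ℤ × ℤ)) : Prop :=
  ∃ δ : ℝ, 0 < δ ∧ ∃ γ : Circle → ℝ × ℝ, Continuous γ ∧ Function.Injective γ ∧ Set.range γ = frontier (faceRegionSq δ F)

/-- the CLEANED height: the frozen `atHeight` on the corners of `F`, `0` elsewhere (off `cornersOf F` the frozen `Classical.choose` is junk; remark of 181, 262) -/
noncomputable def gd72H {F : Finset (ℤ × ℤ)} (p : at92Cfg F) : ℤ × ℤ → ℝ :=
  fun v => if v ∈ cornersOf F then atHeight p.1 p.2 v else 0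

/-- expectation of a function of the (primal, cleaned) height field in the frozen flat law of `F` -/
noncomputable def gd72E (t : ℝ) (F : Finset (ℤ × ℤ)) (G : (ℤ × ℤ → ℝ) → ℝ) : ℝ :=
  lmE (at92Adm F) (at92W t) (fun p => G (gd72H p))

/-- the frozen smeared field as a function of the height field -/
noncomputable def gd72Sm (δ : ℝ) (F : Finset (ℤ × ℤ)) (g : ℝ × ℝ → ℝ) (h : ℤ × ℤ → ℝ) : ℝ :=
  δ ^ 2 * ∑ v ∈ cornersOf F, h v * g (δ * v.1, δ * v.2)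

/-- `G` reads the heights on `S` only -/
def Gd72Loc (S : Finset (ℤ × ℤ)) (G : (ℤ × ℤ → ℝ) → ℝ) : Prop :=
  ∀ h h' : ℤ × ℤ → ℝ, (∀ u ∈ S, h u = h' u) → G h = G h'

/-- `G` is a gradient observable -/
def Gd72Grad (G : (ℤ × ℤ → ℝ) → ℝ) : Prop := ∀ (h : ℤ × ℤ → ℝ) (c : ℝ), G (fun u => h u + c) = G h

/-- `G` reads the heights OUTSIDE `S` only -/
def Gd72Ext (S : Finset (ℤ × ℤ)) (G : (ℤ × ℤ → ℝ) → ℝ) : Prop :=
  ∀ h h' : ℤ × ℤ → ℝ, (∀ u, u ∉ S → h u = h' u) → G h = G h'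

/-- plane expectation of a local gradient observable: limit of the flat laws of large boxes -/
noncomputable def gd72Pl (t : ℝ) (G : (ℤ × ℤ → ℝ) → ℝ) : ℝ :=
  limUnder atTop (fun n : ℕ => gd72E t (gd72FB 0 n) G)

/-- the statistic of an array -/
noncomputable def gd72Arr (b : AspG →₀ ℝ) (h : ℤ × ℤ → ℝ) : ℝ := b.sum fun u x => x * h u

/-- the variogram of the plane law -/
noncomputable def gd72Var (t : ℝ) (u : AspG) : ℝ := gd72Pl t fun h => (h u - h 0) ^ 2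

/-- **THE PLANE PACKAGE** (depends on `t` only) -/
structure Gd72Pl (t : ℝ) : Prop where
  /-- [DKLM Thm 17.1], TEX 03-spatial l.305: the limit which defines `gd72Pl` exists on local gradient observables -/
  lim : ∀ (S : Finset (ℤ × ℤ)) (G : (ℤ × ℤ → ℝ) → ℝ), Gd72Loc S G → Gd72Grad G →
    Tendsto (fun n : ℕ => gd72E t (gd72FB 0 n) G) atTop (𝓝 (gd72Pl t G))
  /-- the plane law is invariant under the translations of the primal lattice (same theorem: ALL exhaustions have the same limit) -/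
  tr : ∀ (S : Finset (ℤ × ℤ)) (G : (ℤ × ℤ → ℝ) → ℝ), Gd72Loc S G → Gd72Grad G → ∀ w : ℤ × ℤ,
    gd72Pl t (fun h => G fun u => h (u + w)) = gd72Pl t G
  /-- TEX[lem:neutral-pair-mixing], eq:local-coupling-error, bounded observables: the increments in the vertex box of radius `r` are almost independent of ALL
  the heights outside the vertex box of radius `L`, and almost distributed as in the plane -/
  mix : ∃ C κ : ℝ, 0 < C ∧ 0 < κ ∧ ∀ (F : Finset (ℤ × ℤ)) (u0 : ℤ × ℤ) (r L : ℕ), Gd72Jor F → 1 ≤ r → C * r ≤ L → gd72FB u0 L ⊆ F →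
    ∀ G Ψ : (ℤ × ℤ → ℝ) → ℝ, Gd72Ext (gd72VB u0 L) G → (∀ h, |G h| ≤ 1) → Gd72Loc (gd72VB u0 r) Ψ → Gd72Grad Ψ → (∀ h, |Ψ h| ≤ 1) →
      |gd72E t F (fun h => G h * Ψ h) - gd72E t F G * gd72Pl t Ψ| ≤ C * ((r : ℝ) / L) ^ κ
  /-- TEX[eq:plane-neutral-moments] ([DKLM Thm 4.5], smeared) -/
  mom : ∀ m : ℕ, ∃ C : ℝ, ∀ (u0 : ℤ × ℤ) (a : ℕ) (w : ℤ × ℤ → ℝ), 1 ≤ a → (∀ u, |w u| ≤ 1 / (a : ℝ) ^ 2) → ∑ u ∈ gd72VB u0 a, w u = 0 →
    gd72Pl t (fun h => (∑ u ∈ gd72VB u0 a, w u * h u) ^ (2 * m)) ≤ C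

/-- the conclusion of `exit_spec_green`, Laplacian form only -/
def Gd72Spec (a : AspG → ℝ) : Prop :=
  ∃ v₀ v₁ : ℝ, 0 < v₀ ∧ ∀ δ : ℕ → ℝ, (∀ n, 0 < δ n) → Tendsto δ atTop (𝓝 0) →
    ∃ ns : ℕ → ℕ, StrictMono ns ∧ ∃ v : ℝ, v₀ ≤ v ∧ v ≤ v₁ ∧ AspPC (aspGam a) (δ ∘ ns) v

theorem gd72_eqns_cite : True := by
  have := @gd72FB.eq_1; have := @gd72VB.eq_1; have := @Gd72Jor.eq_1; have := @gd72H.eq_1; have := @gd72E.eq_1; have := @gd72Sm.eq_1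
  have := @Gd72Loc.eq_1; have := @Gd72Grad.eq_1; have := @Gd72Ext.eq_1; have := @gd72Pl.eq_1; have := @gd72Arr.eq_1
  have := @gd72Var.eq_1; have := @Gd72Spec.eq_1
  trivial

/-! ## 1. The finite volume expectation -/

section E

variable (t : ℝ) (F : Finset (ℤ × ℤ))

theorem gd72_E_add (G1 G2 : (ℤ × ℤ → ℝ) → ℝ) : gd72E t F (fun H => G1 H + G2 H) = gd72E t F G1 + gd72E t F G2 :=
  lm_E_add _ _ _ _

theorem gd72_E_sub (G1 G2 : (ℤ × ℤ → ℝ) → ℝ) : gd72E t F (fun H => G1 H - G2 H) = gd72E t F G1 - gd72E t F G2 :=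
  lm_E_sub _ _ _ _

theorem gd72_E_smul (c : ℝ) (G : (ℤ × ℤ → ℝ) → ℝ) : gd72E t F (fun H => c * G H) = c * gd72E t F G :=
  lm_E_mul_left _ _ _ _

theorem gd72_E_sum {ι : Type*} (s : Finset ι) (G : ι → (ℤ × ℤ → ℝ) → ℝ) :
    gd72E t F (fun H => ∑ i ∈ s, G i H) = ∑ i ∈ s, gd72E t F (G i) :=
  lm_E_sum _ _ _ _

variable {t}

theorem gd72_w_nonneg (ht : 0 < t) : ∀ p ∈ at92Adm F, 0 ≤ at92W t p := fun _ _ => (pow_pos ht _).le

theorem gd72_E_const (ht : 0 < t) (c : ℝ) : gd72E t F (fun _ => c) = c := lm_E_const (at92_Z_pos ht F) c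

theorem gd72_E_mono (ht : 0 < t) {G1 G2 : (ℤ × ℤ → ℝ) → ℝ} (h : ∀ H, G1 H ≤ G2 H) : gd72E t F G1 ≤ gd72E t F G2 :=
  lm_E_mono (gd72_w_nonneg F ht) fun _ _ => h _

theorem gd72_E_nonneg (ht : 0 < t) {G : (ℤ × ℤ → ℝ) → ℝ} (h : ∀ H, 0 ≤ G H) : 0 ≤ gd72E t F G :=
  lm_E_nonneg (gd72_w_nonneg F ht) fun _ _ => h _

theorem gd72_E_abs_le (ht : 0 < t) (G : (ℤ × ℤ → ℝ) → ℝ) : |gd72E t F G| ≤ gd72E t F (fun H => |G H|) :=
  lm_E_abs_le (gd72_w_nonneg F ht) _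

end E

/-- the mixed moments of `Defs/GAUSS` in this vocabulary -/
theorem gd72_M_eq (t δ : ℝ) (F : Finset (ℤ × ℤ)) (s : Multiset (ℝ × ℝ → ℝ)) :
    gaussM t δ F s = gd72E t F fun h => (s.map fun g => gd72Sm δ F g h).prod := by
  have e : ∀ (g : ℝ × ℝ → ℝ) (p : at92Cfg F), at92X δ g p = gd72Sm δ F g (gd72H p) := fun g p => by
    unfold at92X gd72Sm gd72H
    congr 1
    exact Finset.sum_congr rfl fun v hv => by rw [if_pos hv]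
  unfold gaussM lmM gd72E
  simp only [e]

/-! ## 2. Classes of observables -/

theorem gd72_loc_comp {S : Finset (ℤ × ℤ)} {G : (ℤ × ℤ → ℝ) → ℝ} (h : Gd72Loc S G) (φ : ℝ → ℝ) : Gd72Loc S fun H => φ (G H) :=
  fun H H' hh => by show φ (G H) = φ (G H'); rw [h H H' hh]

theorem gd72_grad_comp {G : (ℤ × ℤ → ℝ) → ℝ} (h : Gd72Grad G) (φ : ℝ → ℝ) : Gd72Grad fun H => φ (G H) :=
  fun H c => by show φ (G fun u => H u + c) = φ (G H); rw [h H c]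

theorem gd72_loc_comp2 {S : Finset (ℤ × ℤ)} {G G' : (ℤ × ℤ → ℝ) → ℝ} (h : Gd72Loc S G) (h' : Gd72Loc S G') (φ : ℝ → ℝ → ℝ) :
    Gd72Loc S fun H => φ (G H) (G' H) := fun H H' hh => by
  show φ (G H) (G' H) = φ (G H') (G' H'); rw [h H H' hh, h' H H' hh]

theorem gd72_grad_comp2 {G G' : (ℤ × ℤ → ℝ) → ℝ} (h : Gd72Grad G) (h' : Gd72Grad G') (φ : ℝ → ℝ → ℝ) :
    Gd72Grad fun H => φ (G H) (G' H) := fun H c => by
  show φ (G fun u => H u + c) (G' fun u => H u + c) = φ (G H) (G' H); rw [h H c, h' H c]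

theorem gd72_loc_const (S : Finset (ℤ × ℤ)) (c : ℝ) : Gd72Loc S fun _ => c := fun _ _ _ => rfl

theorem gd72_grad_const (c : ℝ) : Gd72Grad fun _ => c := fun _ _ => rfl

theorem gd72_loc_mono {S S' : Finset (ℤ × ℤ)} (hS : S ⊆ S') {G : (ℤ × ℤ → ℝ) → ℝ} (h : Gd72Loc S G) : Gd72Loc S' G :=
  fun H H' hh => h H H' fun u hu => hh u (hS hu)

theorem gd72_ext_comp {S : Finset (ℤ × ℤ)} {G : (ℤ × ℤ → ℝ) → ℝ} (h : Gd72Ext S G) (φ : ℝ → ℝ) : Gd72Ext S fun H => φ (G H) :=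
  fun H H' hh => by show φ (G H) = φ (G H'); rw [h H H' hh]

/-! ## 3. The plane functional -/

section plane

variable {t : ℝ}

theorem gd72_pl_mono (ht : 0 < t) (hP : Gd72Pl t) {S : Finset (ℤ × ℤ)} {G1 G2 : (ℤ × ℤ → ℝ) → ℝ} (l1 : Gd72Loc S G1) (g1 : Gd72Grad G1)
    (l2 : Gd72Loc S G2) (g2 : Gd72Grad G2) (h : ∀ H, G1 H ≤ G2 H) : gd72Pl t G1 ≤ gd72Pl t G2 :=
  le_of_tendsto_of_tendsto' (hP.lim S G1 l1 g1) (hP.lim S G2 l2 g2) fun _ => gd72_E_mono _ ht h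

theorem gd72_pl_add (hP : Gd72Pl t) {S : Finset (ℤ × ℤ)} {G1 G2 : (ℤ × ℤ → ℝ) → ℝ} (l1 : Gd72Loc S G1) (g1 : Gd72Grad G1)
    (l2 : Gd72Loc S G2) (g2 : Gd72Grad G2) : gd72Pl t (fun H => G1 H + G2 H) = gd72Pl t G1 + gd72Pl t G2 := by
  refine tendsto_nhds_unique (hP.lim S _ (gd72_loc_comp2 l1 l2 (· + ·)) (gd72_grad_comp2 g1 g2 (· + ·))) ?_
  have := (hP.lim S G1 l1 g1).add (hP.lim S G2 l2 g2)
  refine this.congr fun R => ?_
  rw [gd72_E_add]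

theorem gd72_pl_smul (hP : Gd72Pl t) {S : Finset (ℤ × ℤ)} {G : (ℤ × ℤ → ℝ) → ℝ} (l : Gd72Loc S G) (g : Gd72Grad G) (c : ℝ) :
    gd72Pl t (fun H => c * G H) = c * gd72Pl t G := by
  refine tendsto_nhds_unique (hP.lim S _ (gd72_loc_comp l (c * ·)) (gd72_grad_comp g (c * ·))) ?_
  have := (hP.lim S G l g).const_mul c
  refine this.congr fun R => ?_
  rw [gd72_E_smul]

theorem gd72_pl_const (ht : 0 < t) (hP : Gd72Pl t) (c : ℝ) : gd72Pl t (fun _ => c) = c := by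
  refine tendsto_nhds_unique (hP.lim ∅ _ (gd72_loc_const ∅ c) (gd72_grad_const c)) ?_
  refine tendsto_const_nhds.congr fun R => ?_
  rw [gd72_E_const _ ht]

theorem gd72_pl_sub (hP : Gd72Pl t) {S : Finset (ℤ × ℤ)} {G1 G2 : (ℤ × ℤ → ℝ) → ℝ} (l1 : Gd72Loc S G1) (g1 : Gd72Grad G1)
    (l2 : Gd72Loc S G2) (g2 : Gd72Grad G2) : gd72Pl t (fun H => G1 H - G2 H) = gd72Pl t G1 - gd72Pl t G2 := by
  refine tendsto_nhds_unique (hP.lim S _ (gd72_loc_comp2 l1 l2 (· - ·)) (gd72_grad_comp2 g1 g2 (· - ·))) ?_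
  have := (hP.lim S G1 l1 g1).sub (hP.lim S G2 l2 g2)
  refine this.congr fun R => ?_
  rw [gd72_E_sub]

theorem gd72_pl_sum (hP : Gd72Pl t) {S : Finset (ℤ × ℤ)} {ι : Type*} (s : Finset ι) (G : ι → (ℤ × ℤ → ℝ) → ℝ)
    (l : ∀ i ∈ s, Gd72Loc S (G i)) (g : ∀ i ∈ s, Gd72Grad (G i)) :
    gd72Pl t (fun H => ∑ i ∈ s, G i H) = ∑ i ∈ s, gd72Pl t (G i) := by
  refine tendsto_nhds_unique (hP.lim S _ (fun H H' hh => Finset.sum_congr rfl fun i hi => l i hi H H' hh)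
    (fun H c => Finset.sum_congr rfl fun i hi => g i hi H c)) ?_
  have := tendsto_finsetSum s fun i hi => hP.lim S (G i) (l i hi) (g i hi)
  refine this.congr fun R => ?_
  rw [gd72_E_sum]

/-- comparison `|P G1 - P G2| ≤ P G3` from `|G1 - G2| ≤ G3` -/
theorem gd72_pl_abs_sub_le (ht : 0 < t) (hP : Gd72Pl t) {S : Finset (ℤ × ℤ)} {G1 G2 G3 : (ℤ × ℤ → ℝ) → ℝ} (l1 : Gd72Loc S G1) (g1 : Gd72Grad G1)
    (l2 : Gd72Loc S G2) (g2 : Gd72Grad G2) (l3 : Gd72Loc S G3) (g3 : Gd72Grad G3) (h : ∀ H, |G1 H - G2 H| ≤ G3 H) :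
    |gd72Pl t G1 - gd72Pl t G2| ≤ gd72Pl t G3 := by
  have a1 := gd72_pl_mono ht hP l1 g1 (gd72_loc_comp2 l2 l3 (· + ·)) (gd72_grad_comp2 g2 g3 (· + ·))
    fun H => by have := (abs_le.1 (h H)).2; show G1 H ≤ G2 H + G3 H; linarith
  have a2 := gd72_pl_mono ht hP l2 g2 (gd72_loc_comp2 l1 l3 (· + ·)) (gd72_grad_comp2 g1 g3 (· + ·))
    fun H => by have := (abs_le.1 (h H)).1; show G2 H ≤ G1 H + G3 H; linarith
  rw [gd72_pl_add hP l2 g2 l3 g3] at a1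
  rw [gd72_pl_add hP l1 g1 l3 g3] at a2
  rw [abs_le]
  constructor <;> linarith

end plane

/-! ## 4. Truncation algebra and the decoupling inequality (port of R291 `Lim/DecA`) -/

theorem gd72_dec_abs {t : ℝ} (ht : 0 < t) (F : Finset (ℤ × ℤ)) (Φ G : (ℤ × ℤ → ℝ) → ℝ) {M ε a bb c pG pGM : ℝ} (hM : 0 < M)
    (hmix : |gd72E t F (fun H => limTr M (Φ H) * limTr M (G H)) - gd72E t F (fun H => limTr M (Φ H)) * pGM| ≤ M ^ 2 * ε)
    (hΦ2 : gd72E t F (fun H => Φ H ^ 2) ≤ a) (hΦ4 : gd72E t F (fun H => Φ H ^ 4) ≤ a)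
    (hG2 : gd72E t F (fun H => G H ^ 2) ≤ bb) (hG4 : gd72E t F (fun H => G H ^ 4) ≤ bb)
    (hp1 : |pGM| ≤ (1 + c) / 2) (hp2 : |pG - pGM| ≤ c / M) :
    |gd72E t F (fun H => Φ H * G H) - gd72E t F Φ * pG| ≤ M ^ 2 * ε + (a + bb + a * ((1 + c) / 2) + (1 + a) / 2 * c) / M := by
  have ha : 0 ≤ a := (gd72_E_nonneg F ht fun H => by positivity).trans hΦ2
  -- step 1
  have s1 : |gd72E t F (fun H => Φ H * G H) - gd72E t F (fun H => limTr M (Φ H) * limTr M (G H))| ≤ (a + bb) / M := by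
    rw [← gd72_E_sub]
    refine (gd72_E_abs_le F ht _).trans ?_
    refine (gd72_E_mono F ht fun H => lim_dec_pt hM (Φ H) (G H)).trans ?_
    have e : (fun H => (Φ H ^ 4 + G H ^ 2 + Φ H ^ 2 + G H ^ 4) / (2 * M))
        = fun H => (2 * M)⁻¹ * (((Φ H ^ 4 + G H ^ 2) + Φ H ^ 2) + G H ^ 4) := by
      funext H; rw [div_eq_mul_inv, mul_comm]
    rw [e, gd72_E_smul, gd72_E_add, gd72_E_add, gd72_E_add]
    have : (a + bb) / M = (2 * M)⁻¹ * (a + bb + a + bb) := by field_simp; ring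
    rw [this]
    refine mul_le_mul_of_nonneg_left ?_ (by positivity)
    linarith
  -- step 3
  have s3 : |gd72E t F (fun H => limTr M (Φ H)) - gd72E t F Φ| ≤ a / M := by
    rw [← gd72_E_sub]
    refine (gd72_E_abs_le F ht _).trans ?_
    have : ∀ H, |limTr M (Φ H) - Φ H| ≤ M⁻¹ * Φ H ^ 2 := fun H => by
      have := lim_tr_err hM (Φ H) (m := 1) le_rfl
      rw [abs_sub_comm]
      simpa [div_eq_mul_inv, mul_comm] using this
    refine (gd72_E_mono F ht fun H => this H).trans ?_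
    rw [gd72_E_smul, div_eq_mul_inv, mul_comm]
    exact mul_le_mul_of_nonneg_right hΦ2 (by positivity)
  have s4 : |gd72E t F Φ| ≤ (1 + a) / 2 := by
    refine (gd72_E_abs_le F ht _).trans ?_
    have : ∀ H, |Φ H| ≤ 2⁻¹ * (1 + Φ H ^ 2) := fun H => by
      have := sq_nonneg (|Φ H| - 1)
      have e2 : |Φ H| ^ 2 = Φ H ^ 2 := sq_abs _
      nlinarith
    refine (gd72_E_mono F ht fun H => this H).trans ?_
    rw [gd72_E_smul, gd72_E_add, gd72_E_const F ht]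
    linarith
  have e : gd72E t F (fun H => Φ H * G H) - gd72E t F Φ * pG
      = (gd72E t F (fun H => Φ H * G H) - gd72E t F (fun H => limTr M (Φ H) * limTr M (G H)))
        + (gd72E t F (fun H => limTr M (Φ H) * limTr M (G H)) - gd72E t F (fun H => limTr M (Φ H)) * pGM)
        + (gd72E t F (fun H => limTr M (Φ H)) - gd72E t F Φ) * pGM + gd72E t F Φ * (pGM - pG) := by ring
  have t3 : |(gd72E t F (fun H => limTr M (Φ H)) - gd72E t F Φ) * pGM| ≤ a / M * ((1 + c) / 2) := by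
    rw [abs_mul]; exact mul_le_mul s3 hp1 (abs_nonneg _) (by positivity)
  have t4 : |gd72E t F Φ * (pGM - pG)| ≤ (1 + a) / 2 * (c / M) := by
    rw [abs_mul, abs_sub_comm]; exact mul_le_mul s4 hp2 (abs_nonneg _) (by positivity)
  rw [e]
  refine (abs_add_le _ _).trans ((add_le_add ((abs_add_le _ _).trans (add_le_add ((abs_add_le _ _).trans (add_le_add s1 hmix)) t3)) t4).trans
    (le_of_eq ?_))
  field_simp
  ring

theorem gd72_dec_mix {t : ℝ} (hP : Gd72Pl t) :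
    ∃ C κ : ℝ, 0 < C ∧ 0 < κ ∧ ∀ (F : Finset (ℤ × ℤ)) (u0 : ℤ × ℤ) (r L : ℕ), Gd72Jor F → 1 ≤ r → C * r ≤ L → gd72FB u0 L ⊆ F →
      ∀ Φ G : (ℤ × ℤ → ℝ) → ℝ, Gd72Ext (gd72VB u0 L) Φ → Gd72Loc (gd72VB u0 r) G → Gd72Grad G → ∀ M : ℝ, 0 < M →
        |gd72E t F (fun H => limTr M (Φ H) * limTr M (G H)) - gd72E t F (fun H => limTr M (Φ H)) * gd72Pl t (fun H => limTr M (G H))|
          ≤ M ^ 2 * (C * ((r : ℝ) / L) ^ κ) := by
  obtain ⟨C, κ, hC, hκ, H⟩ := hP.mix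
  refine ⟨C, κ, hC, hκ, fun F u0 r L hF hr hL hsub Φ G hΦ hG1 hG2 M hM => ?_⟩
  have hb : ∀ s : ℝ, |M⁻¹ * limTr M s| ≤ 1 := fun s => by
    rw [abs_mul, abs_of_pos (inv_pos.2 hM), inv_mul_le_iff₀ hM, mul_one]
    exact lim_tr_abs_le hM.le s
  have key := H F u0 r L hF hr hL hsub (fun H => M⁻¹ * limTr M (Φ H)) (fun H => M⁻¹ * limTr M (G H))
    (gd72_ext_comp hΦ fun s => M⁻¹ * limTr M s) (fun H => hb _) (gd72_loc_comp hG1 fun s => M⁻¹ * limTr M s)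
    (gd72_grad_comp hG2 fun s => M⁻¹ * limTr M s) fun H => hb _
  have e1 : (fun H => M⁻¹ * limTr M (Φ H) * (M⁻¹ * limTr M (G H))) = fun H => (M⁻¹ * M⁻¹) * (limTr M (Φ H) * limTr M (G H)) := by
    funext H; ring
  have e2 : gd72Pl t (fun H => M⁻¹ * limTr M (G H)) = M⁻¹ * gd72Pl t (fun H => limTr M (G H)) :=
    gd72_pl_smul hP (gd72_loc_comp hG1 (limTr M)) (gd72_grad_comp hG2 (limTr M)) M⁻¹
  rw [e1, e2, gd72_E_smul, gd72_E_smul] at key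
  have e3 : M⁻¹ * M⁻¹ * gd72E t F (fun H => limTr M (Φ H) * limTr M (G H))
      - M⁻¹ * gd72E t F (fun H => limTr M (Φ H)) * (M⁻¹ * gd72Pl t fun H => limTr M (G H))
      = (M ^ 2)⁻¹ * (gd72E t F (fun H => limTr M (Φ H) * limTr M (G H))
        - gd72E t F (fun H => limTr M (Φ H)) * gd72Pl t fun H => limTr M (G H)) := by
    field_simp
  rw [e3, abs_mul, abs_of_pos (by positivity), inv_mul_le_iff₀ (by positivity)] at key
  exact key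

/-- **the decoupling inequality**: `Φ` reads the heights off the vertex box of radius `L`, `G` is a gradient observable in the box of radius `r`; no bound on `Φ`, `G` -/
theorem gd72_dec_core {t : ℝ} (ht : 0 < t) (hP : Gd72Pl t) :
    ∃ C κ : ℝ, 0 < C ∧ 0 < κ ∧ ∀ (F : Finset (ℤ × ℤ)) (u0 : ℤ × ℤ) (r L : ℕ), Gd72Jor F → 1 ≤ r → C * r ≤ L → gd72FB u0 L ⊆ F →
      ∀ Φ G : (ℤ × ℤ → ℝ) → ℝ, Gd72Ext (gd72VB u0 L) Φ → Gd72Loc (gd72VB u0 r) G → Gd72Grad G → ∀ a b c : ℝ,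
        gd72E t F (fun H => Φ H ^ 2) ≤ a → gd72E t F (fun H => Φ H ^ 4) ≤ a → gd72E t F (fun H => G H ^ 2) ≤ b → gd72E t F (fun H => G H ^ 4) ≤ b →
        gd72Pl t (fun H => G H ^ 2) ≤ c → ∀ M : ℝ, 0 < M →
        |gd72E t F (fun H => Φ H * G H) - gd72E t F Φ * gd72Pl t G|
          ≤ M ^ 2 * (C * ((r : ℝ) / L) ^ κ) + (a + b + a * ((1 + c) / 2) + (1 + a) / 2 * c) / M := by
  obtain ⟨C, κ, hC, hκ, H⟩ := gd72_dec_mix hP
  refine ⟨C, κ, hC, hκ, fun F u0 r L hF hr hL hsub Φ G hΦ hG1 hG2 a b c h1 h2 h3 h4 h5 M hM => ?_⟩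
  have lT := gd72_loc_comp hG1 (limTr M)
  have gT := gd72_grad_comp hG2 (limTr M)
  have lS := gd72_loc_comp hG1 (· ^ 2)
  have gS := gd72_grad_comp hG2 (· ^ 2)
  have p1 : |gd72Pl t (fun H => limTr M (G H))| ≤ (1 + c) / 2 := by
    have l0 := gd72_loc_const (gd72VB u0 r) 0
    have g0 := gd72_grad_const 0
    have l3 := gd72_loc_comp hG1 fun s => 2⁻¹ * (1 + s ^ 2)
    have g3 := gd72_grad_comp hG2 fun s => 2⁻¹ * (1 + s ^ 2)
    have := gd72_pl_abs_sub_le ht hP lT gT l0 g0 l3 g3 fun H => by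
      rw [sub_zero]
      refine (lim_tr_abs_le_abs hM.le _).trans ?_
      have := sq_nonneg (|G H| - 1)
      have e2 : |G H| ^ 2 = G H ^ 2 := sq_abs _
      nlinarith
    rw [gd72_pl_const ht hP, sub_zero] at this
    refine this.trans ?_
    have e : gd72Pl t (fun H => 2⁻¹ * (1 + G H ^ 2)) = 2⁻¹ * (1 + gd72Pl t fun H => G H ^ 2) := by
      rw [gd72_pl_smul hP (gd72_loc_comp hG1 fun s => 1 + s ^ 2) (gd72_grad_comp hG2 fun s => 1 + s ^ 2),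
        gd72_pl_add hP (gd72_loc_const (gd72VB u0 r) 1) (gd72_grad_const 1) lS gS, gd72_pl_const ht hP]
    rw [e]
    linarith
  have p2 : |gd72Pl t G - gd72Pl t (fun H => limTr M (G H))| ≤ c / M := by
    have l3 := gd72_loc_comp hG1 fun s => M⁻¹ * s ^ 2
    have g3 := gd72_grad_comp hG2 fun s => M⁻¹ * s ^ 2
    have := gd72_pl_abs_sub_le ht hP hG1 hG2 lT gT l3 g3 fun H => by
      have := lim_tr_err hM (G H) (m := 1) le_rfl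
      simpa [div_eq_mul_inv, mul_comm] using this
    refine this.trans ?_
    rw [gd72_pl_smul hP lS gS, div_eq_mul_inv, mul_comm]
    exact mul_le_mul_of_nonneg_right h5 (by positivity)
  exact gd72_dec_abs ht F Φ G hM (H F u0 r L hF hr hL hsub Φ G hΦ hG1 hG2 M hM) h1 h2 h3 h4 p1 p2

/-! ## 5. Subsequences ⟹ ultrafilters -/

/-- if every subsequence has a further subsequence along which `c · i → v L i` for all `i`, with some `v ∈ [v₀, v₁]`, then along every ultrafilter there is ONE such `v` -/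
theorem gd72_ultra {ι : Type*} (c : ℕ → ι → ℝ) (L : ι → ℝ) {v₀ v₁ : ℝ}
    (H : ∀ ns : ℕ → ℕ, StrictMono ns → ∃ ms : ℕ → ℕ, StrictMono ms ∧ ∃ v : ℝ, v₀ ≤ v ∧ v ≤ v₁ ∧
      ∀ i, Tendsto (fun k => c (ns (ms k)) i) atTop (𝓝 (v * L i)))
    (𝒰 : Ultrafilter ℕ) (hU : (𝒰 : Filter ℕ) ≤ atTop) :
    ∃ v : ℝ, v₀ ≤ v ∧ v ≤ v₁ ∧ ∀ i, Tendsto (fun n => c n i) (𝒰 : Filter ℕ) (𝓝 (v * L i)) := by
  by_contra hcon
  push Not at hcon
  have key : ∀ v ∈ Icc v₀ v₁, ∃ U ∈ 𝓝 v, ∃ S ∈ (𝒰 : Filter ℕ), ∃ (i : ι) (ε : ℝ), 0 < ε ∧ ∀ v' ∈ U, ∀ n ∈ S, ε ≤ |c n i - v' * L i| := by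
    intro v hv
    obtain ⟨i, hi⟩ := hcon v hv.1 hv.2
    rw [Metric.tendsto_nhds] at hi
    push Not at hi
    obtain ⟨ε, hε, hne⟩ := hi
    refine ⟨Metric.ball v (ε / (2 * (|L i| + 1))), Metric.ball_mem_nhds _ (by positivity), _, hne, i, ε / 2, by positivity, ?_⟩
    intro v' hv' n hn
    have h1 : ε ≤ |c n i - v * L i| := by
      have : ε ≤ dist (c n i) (v * L i) := hn
      rwa [Real.dist_eq] at this
    have h2 : |v' - v| < ε / (2 * (|L i| + 1)) := by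
      rw [← Real.dist_eq]; exact hv'
    have h3 : |v' - v| * |L i| ≤ ε / 2 := by
      have h4 : |v' - v| * (|L i| + 1) ≤ ε / 2 := by
        rw [lt_div_iff₀ (by positivity)] at h2
        linarith
      have h5 : 0 ≤ |v' - v| := abs_nonneg _
      nlinarith
    have h6 : c n i - v * L i = (c n i - v' * L i) + (v' - v) * L i := by ring
    have h7 := abs_add_le (c n i - v' * L i) ((v' - v) * L i)
    rw [← h6, abs_mul] at h7
    linarith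
  choose! U hU1 S hS i ε hε hbad using key
  obtain ⟨T, hT1, hT2⟩ := isCompact_Icc.elim_nhds_subcover U hU1
  have hST : (⋂ x ∈ T, S x) ∈ (𝒰 : Filter ℕ) := (Filter.biInter_finset_mem T).2 fun x hx => hS x (hT1 x hx)
  have hfreq : ∀ _k : ℕ, ∃ᶠ n in atTop, n ∈ ⋂ x ∈ T, S x := fun _ =>
    (Filter.Eventually.frequently (f := (𝒰 : Filter ℕ)) hST).filter_mono hU
  obtain ⟨ns, hns, hmem⟩ := Filter.extraction_forall_of_frequently hfreq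
  obtain ⟨ms, -, v', hv0, hv1, hconv⟩ := H ns hns
  have hv' := hT2 (show v' ∈ Icc v₀ v₁ from ⟨hv0, hv1⟩)
  simp only [mem_iUnion, exists_prop] at hv'
  obtain ⟨x, hxT, hxU⟩ := hv'
  have h1 := (Metric.tendsto_nhds.1 (hconv (i x (hT1 x hxT)))) (ε x) (hε x (hT1 x hxT))
  obtain ⟨k, hk⟩ := h1.exists
  have h2 : ns (ms k) ∈ S x := by
    have := hmem (ms k)
    simp only [mem_iInter] at this
    exact this x hxT
  have h3 := hbad x (hT1 x hxT) v' hxU _ h2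
  rw [Real.dist_eq] at hk
  linarith

/-! ## 6. The variogram identity -/

theorem gd72_arr_eq (b : AspG →₀ ℝ) (h : ℤ × ℤ → ℝ) : gd72Arr b h = ∑ u ∈ b.support, b u * h u := rfl

theorem gd72_tot_eq (b : AspG →₀ ℝ) : aspTot b = ∑ u ∈ b.support, b u := rfl

/-- pointwise: a product of two neutral statistics is a combination of squared increments -/
theorem gd72_arr_mul (b b' : AspG →₀ ℝ) (hb : aspTot b = 0) (hb' : aspTot b' = 0) (h : ℤ × ℤ → ℝ) :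
    gd72Arr b h * gd72Arr b' h = ∑ u ∈ b.support, ∑ v ∈ b'.support, (-(1 / 2) * (b u * b' v)) * (h u - h v) ^ 2 := by
  rw [gd72_tot_eq] at hb hb'
  have e : ∀ u ∈ b.support, ∑ v ∈ b'.support, (-(1 / 2) * (b u * b' v)) * (h u - h v) ^ 2
      = -(1 / 2) * (b u * h u ^ 2) * (∑ v ∈ b'.support, b' v) + (b u * h u) * (∑ v ∈ b'.support, b' v * h v)
        - (1 / 2) * b u * ∑ v ∈ b'.support, b' v * h v ^ 2 := by
    intro u _
    rw [Finset.mul_sum, Finset.mul_sum, Finset.mul_sum, ← Finset.sum_add_distrib, ← Finset.sum_sub_distrib]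
    exact Finset.sum_congr rfl fun v _ => by ring
  rw [Finset.sum_congr rfl e, hb']
  simp only [mul_zero, zero_add]
  rw [Finset.sum_sub_distrib, ← Finset.sum_mul, ← Finset.sum_mul, ← Finset.mul_sum, hb, gd72_arr_eq, gd72_arr_eq]
  ring

theorem gd72_incr_loc (u v : ℤ × ℤ) {S : Finset (ℤ × ℤ)} (hu : u ∈ S) (hv : v ∈ S) : Gd72Loc S fun h => (h u - h v) ^ 2 :=
  fun h h' hh => by show (h u - h v) ^ 2 = (h' u - h' v) ^ 2; rw [hh u hu, hh v hv]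

theorem gd72_incr_grad (u v : ℤ × ℤ) : Gd72Grad fun h => (h u - h v) ^ 2 :=
  fun h c => by show (h u + c - (h v + c)) ^ 2 = (h u - h v) ^ 2; ring

theorem gd72_pl_incr {t : ℝ} (hP : Gd72Pl t) (u v : ℤ × ℤ) : gd72Pl t (fun h => (h u - h v) ^ 2) = gd72Var t (u - v) := by
  classical
  have := hP.tr {u - v, 0} (fun h => (h (u - v) - h 0) ^ 2) (gd72_incr_loc _ _ (by simp) (by simp)) (gd72_incr_grad _ _) v
  simpa [gd72Var] using this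

/-- **the plane covariance of two neutral statistics is the form of the variogram** -/
theorem gd72_pl_gam {t : ℝ} (hP : Gd72Pl t) (b b' : AspG →₀ ℝ) (hb : aspTot b = 0) (hb' : aspTot b' = 0) :
    gd72Pl t (fun h => gd72Arr b h * gd72Arr b' h) = aspGam (gd72Var t) b b' := by
  classical
  set S : Finset (ℤ × ℤ) := b.support ∪ b'.support with hS
  rw [funext fun h => gd72_arr_mul b b' hb hb' h]
  have l0 : ∀ u ∈ b.support, ∀ v ∈ b'.support, Gd72Loc S fun h => (-(1 / 2) * (b u * b' v)) * (h u - h v) ^ 2 := fun u hu v hv =>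
    gd72_loc_comp (gd72_incr_loc u v (Finset.mem_union_left _ hu) (Finset.mem_union_right _ hv)) _
  have g0 : ∀ u v, Gd72Grad fun h => (-(1 / 2) * (b u * b' v)) * (h u - h v) ^ 2 := fun u v =>
    gd72_grad_comp (gd72_incr_grad u v) _
  rw [gd72_pl_sum hP (S := S) _ _ (fun u hu H H' hh => Finset.sum_congr rfl fun v hv => l0 u hu v hv H H' hh)
    (fun u _ H c => Finset.sum_congr rfl fun v _ => g0 u v H c)]
  unfold aspGam
  rw [Finsupp.sum, Finset.mul_sum]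
  refine Finset.sum_congr rfl fun u hu => ?_
  rw [gd72_pl_sum hP (S := S) _ _ (fun v hv => l0 u hu v hv) (fun v _ => g0 u v), Finsupp.sum, Finset.mul_sum]
  refine Finset.sum_congr rfl fun v hv => ?_
  rw [gd72_pl_smul hP (gd72_incr_loc u v (Finset.mem_union_left _ hu) (Finset.mem_union_right _ hv)) (gd72_incr_grad u v), gd72_pl_incr hP]
  ring

/-! ## 7. Linear statistics on boxes -/

/-- linear statistic carried by a finite set -/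
noncomputable def gd72Lin (S : Finset (ℤ × ℤ)) (w : ℤ × ℤ → ℝ) (h : ℤ × ℤ → ℝ) : ℝ := ∑ u ∈ S, w u * h u

/-- the frozen point weights -/
noncomputable def gd72Pw (δ : ℝ) (g : ℝ × ℝ → ℝ) (u : ℤ × ℤ) : ℝ := δ ^ 2 * g (δ * u.1, δ * u.2)

theorem gd72_eqns_cite2 : True := by
  have := @gd72Lin.eq_1; have := @gd72Pw.eq_1
  trivial

theorem gd72_lin_loc (S : Finset (ℤ × ℤ)) (w : ℤ × ℤ → ℝ) : Gd72Loc S (gd72Lin S w) :=
  fun h h' hh => Finset.sum_congr rfl fun u hu => by rw [hh u hu]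

theorem gd72_lin_grad {S : Finset (ℤ × ℤ)} {w : ℤ × ℤ → ℝ} (hw : ∑ u ∈ S, w u = 0) : Gd72Grad (gd72Lin S w) := fun h c => by
  unfold gd72Lin
  simp only [mul_add]
  rw [Finset.sum_add_distrib, ← Finset.sum_mul, hw, zero_mul, add_zero]

theorem gd72_lin_sub (S : Finset (ℤ × ℤ)) (w w' : ℤ × ℤ → ℝ) (h : ℤ × ℤ → ℝ) :
    gd72Lin S (fun u => w u - w' u) h = gd72Lin S w h - gd72Lin S w' h := by
  unfold gd72Lin
  rw [← Finset.sum_sub_distrib]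
  exact Finset.sum_congr rfl fun u _ => by ring

theorem gd72_lin_smul (S : Finset (ℤ × ℤ)) (c : ℝ) (w : ℤ × ℤ → ℝ) (h : ℤ × ℤ → ℝ) :
    gd72Lin S (fun u => c * w u) h = c * gd72Lin S w h := by
  unfold gd72Lin
  rw [Finset.mul_sum]
  exact Finset.sum_congr rfl fun u _ => by ring

/-- the frozen smeared field of a function carried by `S` -/
theorem gd72_sm_eq_lin {δ : ℝ} {F S : Finset (ℤ × ℤ)} {g : ℝ × ℝ → ℝ} (hS : S ⊆ cornersOf F)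
    (h0 : ∀ v : ℤ × ℤ, v ∉ S → g (δ * v.1, δ * v.2) = 0) (h : ℤ × ℤ → ℝ) : gd72Sm δ F g h = gd72Lin S (gd72Pw δ g) h := by
  unfold gd72Sm gd72Lin gd72Pw
  rw [Finset.mul_sum]
  symm
  refine (Finset.sum_subset hS fun v _ hv => by rw [h0 v hv]; ring).trans ?_
  exact Finset.sum_congr rfl fun v _ => by ring

/-- the statistic of an array carried by `S` -/
theorem gd72_arr_eq_lin {b : AspG →₀ ℝ} {S : Finset (ℤ × ℤ)} (hS : b.support ⊆ S) (h : ℤ × ℤ → ℝ) :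
    gd72Arr b h = gd72Lin S (fun u => b u) h := by
  unfold gd72Arr gd72Lin
  exact Finsupp.sum_of_support_subset b hS _ fun u _ => by simp

/-- plane moments of a neutral statistic, scaled -/
theorem gd72_momP {t : ℝ} (hP : Gd72Pl t) (m : ℕ) :
    ∃ C : ℝ, 0 ≤ C ∧ ∀ (u0 : ℤ × ℤ) (a : ℕ) (w : ℤ × ℤ → ℝ) (B : ℝ), 1 ≤ a → 0 < B → (∀ u, |w u| ≤ B / (a : ℝ) ^ 2) →
      ∑ u ∈ gd72VB u0 a, w u = 0 → gd72Pl t (fun h => gd72Lin (gd72VB u0 a) w h ^ (2 * m)) ≤ C * B ^ (2 * m) := by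
  obtain ⟨C, hC⟩ := hP.mom m
  refine ⟨max C 0, le_max_right _ _, fun u0 a w B ha hB hw hz => ?_⟩
  have ha0 : (0 : ℝ) < a := by exact_mod_cast ha
  have hw' : ∀ u, |w u / B| ≤ 1 / (a : ℝ) ^ 2 := fun u => by
    rw [abs_div, abs_of_pos hB, div_le_iff₀ hB]
    have := hw u
    rw [div_mul_eq_mul_div, one_mul]
    exact this
  have hz' : ∑ u ∈ gd72VB u0 a, w u / B = 0 := by rw [← Finset.sum_div, hz, zero_div]
  have key := hC u0 a (fun u => w u / B) ha hw' hz'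
  have e : (fun h => gd72Lin (gd72VB u0 a) w h ^ (2 * m)) = fun h => B ^ (2 * m) * (gd72Lin (gd72VB u0 a) (fun u => w u / B) h) ^ (2 * m) := by
    funext h
    rw [← mul_pow, ← gd72_lin_smul]
    congr 2
    funext u
    field_simp
  rw [e, gd72_pl_smul hP (gd72_loc_comp (gd72_lin_loc _ _) (· ^ (2 * m))) (gd72_grad_comp (gd72_lin_grad hz') (· ^ (2 * m))), mul_comm]
  exact mul_le_mul_of_nonneg_right (key.trans (le_max_left _ _)) (by positivity)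

/-- plane pairing of two neutral statistics -/
theorem gd72_pl_pair_le {t : ℝ} (ht : 0 < t) (hP : Gd72Pl t) :
    ∃ C : ℝ, 0 ≤ C ∧ ∀ (u0 : ℤ × ℤ) (a : ℕ) (w w' : ℤ × ℤ → ℝ) (B B' : ℝ), 1 ≤ a → 0 < B → 0 < B' → (∀ u, |w u| ≤ B / (a : ℝ) ^ 2) →
      (∀ u, |w' u| ≤ B' / (a : ℝ) ^ 2) → ∑ u ∈ gd72VB u0 a, w u = 0 → ∑ u ∈ gd72VB u0 a, w' u = 0 →
      |gd72Pl t (fun h => gd72Lin (gd72VB u0 a) w h * gd72Lin (gd72VB u0 a) w' h)| ≤ C * (B * B') := by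
  obtain ⟨C, hC0, hC⟩ := gd72_momP hP 1
  refine ⟨C, hC0, fun u0 a w w' B B' ha hB hB' hw hw' hz hz' => ?_⟩
  set S := gd72VB u0 a
  have l1 := gd72_lin_loc S w
  have l2 := gd72_lin_loc S w'
  have g1 := gd72_lin_grad hz
  have g2 := gd72_lin_grad hz'
  have k1 := hC u0 a w B ha hB hw hz
  have k2 := hC u0 a w' B' ha hB' hw' hz'
  have h := gd72_pl_abs_sub_le ht hP (gd72_loc_comp2 l1 l2 (· * ·)) (gd72_grad_comp2 g1 g2 (· * ·)) (gd72_loc_const S 0) (gd72_grad_const 0)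
    (gd72_loc_comp2 l1 l2 fun p q => (B' / (2 * B)) * p ^ (2 * 1) + (B / (2 * B')) * q ^ (2 * 1))
    (gd72_grad_comp2 g1 g2 fun p q => (B' / (2 * B)) * p ^ (2 * 1) + (B / (2 * B')) * q ^ (2 * 1)) fun H => by
      rw [sub_zero]
      set p := gd72Lin S w H
      set q := gd72Lin S w' H
      have e1 : B' / (2 * B) * p ^ (2 * 1) + B / (2 * B') * q ^ (2 * 1) - p * q = (B' * p - B * q) ^ 2 / (2 * B * B') := by
        field_simp; ring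
      have e2 : B' / (2 * B) * p ^ (2 * 1) + B / (2 * B') * q ^ (2 * 1) + p * q = (B' * p + B * q) ^ 2 / (2 * B * B') := by
        field_simp; ring
      have p1 : 0 ≤ (B' * p - B * q) ^ 2 / (2 * B * B') := by positivity
      have p2 : 0 ≤ (B' * p + B * q) ^ 2 / (2 * B * B') := by positivity
      rw [abs_le]
      constructor <;> linarith
  rw [gd72_pl_const ht hP, sub_zero] at h
  refine h.trans ?_
  rw [gd72_pl_add hP (gd72_loc_comp l1 fun p => (B' / (2 * B)) * p ^ (2 * 1)) (gd72_grad_comp g1 fun p => (B' / (2 * B)) * p ^ (2 * 1))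
    (gd72_loc_comp l2 fun q => (B / (2 * B')) * q ^ (2 * 1)) (gd72_grad_comp g2 fun q => (B / (2 * B')) * q ^ (2 * 1)),
    gd72_pl_smul hP (gd72_loc_comp l1 (· ^ (2 * 1))) (gd72_grad_comp g1 (· ^ (2 * 1))),
    gd72_pl_smul hP (gd72_loc_comp l2 (· ^ (2 * 1))) (gd72_grad_comp g2 (· ^ (2 * 1)))]
  have a1 : B' / (2 * B) * gd72Pl t (fun H => gd72Lin S w H ^ (2 * 1)) ≤ B' / (2 * B) * (C * B ^ (2 * 1)) :=
    mul_le_mul_of_nonneg_left k1 (by positivity)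
  have a2 : B / (2 * B') * gd72Pl t (fun H => gd72Lin S w' H ^ (2 * 1)) ≤ B / (2 * B') * (C * B' ^ (2 * 1)) :=
    mul_le_mul_of_nonneg_left k2 (by positivity)
  refine (add_le_add a1 a2).trans (le_of_eq ?_)
  field_simp
  ring

/-- continuity of the plane pairing in the weights -/
theorem gd72_pl_bil {t : ℝ} (ht : 0 < t) (hP : Gd72Pl t) :
    ∃ C : ℝ, 0 ≤ C ∧ ∀ (u0 : ℤ × ℤ) (a : ℕ) (w1 w2 c1 c2 : ℤ × ℤ → ℝ) (B e : ℝ), 1 ≤ a → 0 < B → 0 < e →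
      (∀ u, |w2 u| ≤ B / (a : ℝ) ^ 2) → (∀ u, |c1 u| ≤ B / (a : ℝ) ^ 2) →
      (∀ u, |w1 u - c1 u| ≤ e / (a : ℝ) ^ 2) → (∀ u, |w2 u - c2 u| ≤ e / (a : ℝ) ^ 2) →
      ∑ u ∈ gd72VB u0 a, w1 u = 0 → ∑ u ∈ gd72VB u0 a, w2 u = 0 → ∑ u ∈ gd72VB u0 a, c1 u = 0 → ∑ u ∈ gd72VB u0 a, c2 u = 0 →
      |gd72Pl t (fun h => gd72Lin (gd72VB u0 a) w1 h * gd72Lin (gd72VB u0 a) w2 h)
        - gd72Pl t (fun h => gd72Lin (gd72VB u0 a) c1 h * gd72Lin (gd72VB u0 a) c2 h)| ≤ C * (2 * e * B) := by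
  obtain ⟨C, hC0, hC⟩ := gd72_pl_pair_le ht hP
  refine ⟨C, hC0, fun u0 a w1 w2 c1 c2 B e ha hB he hw2 hc1 hd1 hd2 z1 z2 z3 z4 => ?_⟩
  set S := gd72VB u0 a
  have zd1 : ∑ u ∈ S, (w1 u - c1 u) = 0 := by rw [Finset.sum_sub_distrib, z1, z3, sub_zero]
  have zd2 : ∑ u ∈ S, (w2 u - c2 u) = 0 := by rw [Finset.sum_sub_distrib, z2, z4, sub_zero]
  have k1 := hC u0 a (fun u => w1 u - c1 u) w2 e B ha he hB hd1 hw2 zd1 z2
  have k2 := hC u0 a c1 (fun u => w2 u - c2 u) B e ha hB he hc1 hd2 z3 zd2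
  have lw1 := gd72_lin_loc S w1
  have lw2 := gd72_lin_loc S w2
  have lc1 := gd72_lin_loc S c1
  have lc2 := gd72_lin_loc S c2
  have gw1 := gd72_lin_grad z1
  have gw2 := gd72_lin_grad z2
  have gc1 := gd72_lin_grad z3
  have gc2 := gd72_lin_grad z4
  have e1 : gd72Pl t (fun h => gd72Lin S w1 h * gd72Lin S w2 h) - gd72Pl t (fun h => gd72Lin S c1 h * gd72Lin S c2 h)
      = gd72Pl t (fun h => gd72Lin S (fun u => w1 u - c1 u) h * gd72Lin S w2 h)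
        + gd72Pl t (fun h => gd72Lin S c1 h * gd72Lin S (fun u => w2 u - c2 u) h) := by
    rw [← gd72_pl_sub hP (gd72_loc_comp2 lw1 lw2 (· * ·)) (gd72_grad_comp2 gw1 gw2 (· * ·)) (gd72_loc_comp2 lc1 lc2 (· * ·))
      (gd72_grad_comp2 gc1 gc2 (· * ·)),
      ← gd72_pl_add hP (gd72_loc_comp2 (gd72_lin_loc S fun u => w1 u - c1 u) lw2 (· * ·)) (gd72_grad_comp2 (gd72_lin_grad zd1) gw2 (· * ·))
      (gd72_loc_comp2 lc1 (gd72_lin_loc S fun u => w2 u - c2 u) (· * ·)) (gd72_grad_comp2 gc1 (gd72_lin_grad zd2) (· * ·))]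
    congr 1
    funext h
    rw [gd72_lin_sub, gd72_lin_sub]
    ring
  rw [e1]
  refine (abs_add_le _ _).trans ((add_le_add k1 k2).trans (le_of_eq ?_))
  ring

/-! ## 8. Geometry of the boxes -/

theorem gd72_mem_VB {u0 u : ℤ × ℤ} {n : ℕ} : u ∈ gd72VB u0 n ↔ (u0.1 - n ≤ u.1 ∧ u.1 ≤ u0.1 + n) ∧ (u0.2 - n ≤ u.2 ∧ u.2 ≤ u0.2 + n) := by
  simp [gd72VB, Finset.mem_product, Finset.mem_Icc]

theorem gd72_mem_FB {u0 u : ℤ × ℤ} {n : ℕ} : u ∈ gd72FB u0 n ↔ (u0.1 - n ≤ u.1 ∧ u.1 < u0.1 + n) ∧ (u0.2 - n ≤ u.2 ∧ u.2 < u0.2 + n) := by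
  simp [gd72FB, Finset.mem_product, Finset.mem_Ico]

theorem gd72_VB_mono (u0 : ℤ × ℤ) {m n : ℕ} (h : m ≤ n) : gd72VB u0 m ⊆ gd72VB u0 n := by
  intro u hu
  rw [gd72_mem_VB] at hu ⊢
  have : (m : ℤ) ≤ n := by exact_mod_cast h
  omega

/-- the vertex box is made of corners of the face box -/
theorem gd72_VB_corners {u0 : ℤ × ℤ} {n : ℕ} (hn : 1 ≤ n) {F : Finset (ℤ × ℤ)} (hF : gd72FB u0 n ⊆ F) : gd72VB u0 n ⊆ cornersOf F := by
  intro u hu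
  rw [gd72_mem_VB] at hu
  have hn' : (1 : ℤ) ≤ n := by exact_mod_cast hn
  rw [at92h_mem_corners]
  refine ⟨(if u.1 < u0.1 + n then u.1 else u.1 - 1, if u.2 < u0.2 + n then u.2 else u.2 - 1), hF ?_, ?_⟩
  · rw [gd72_mem_FB]
    dsimp only
    split_ifs <;> omega
  · unfold at92hCor
    dsimp only
    split_ifs <;> omega

theorem gd72_union_compact {K0 : Set (ℝ × ℝ)} (hK0 : IsCompact K0) {R0 : ℝ} (hR0 : 0 ≤ R0) :
    IsCompact {z : ℝ × ℝ | ∃ y0 ∈ K0, z ∈ wkBall y0 R0} := by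
  have h := (hK0.prod (wk_ball_compact (0 : ℝ × ℝ) hR0)).image (f := fun p : (ℝ × ℝ) × (ℝ × ℝ) => p.1 + p.2) (by fun_prop)
  have e : {z : ℝ × ℝ | ∃ y0 ∈ K0, z ∈ wkBall y0 R0} = (fun p : (ℝ × ℝ) × (ℝ × ℝ) => p.1 + p.2) '' (K0 ×ˢ wkBall 0 R0) := by
    ext z
    constructor
    · rintro ⟨y0, hy0, hz⟩
      refine ⟨(y0, z - y0), ⟨hy0, ?_⟩, by simp⟩
      show C0467.sqDist (z - y0) 0 ≤ R0 ^ 2
      rw [wk_sq_sub]; exact hz
    · rintro ⟨⟨a, b⟩, ⟨h1, h2⟩, rfl⟩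
      refine ⟨a, h1, ?_⟩
      show C0467.sqDist (a + b) a ≤ R0 ^ 2
      have : C0467.sqDist (a + b) a = C0467.sqDist b 0 := by simp [C0467.sqDist]
      rw [this]; exact h2
  rw [e]; exact h

theorem gd72_abs_le_of_ball {z y0 : ℝ × ℝ} {s : ℝ} (hs : 0 ≤ s) (h : z ∈ wkBall y0 s) : |z.1 - y0.1| ≤ s ∧ |z.2 - y0.2| ≤ s := by
  have h' : (z.1 - y0.1) ^ 2 + (z.2 - y0.2) ^ 2 ≤ s ^ 2 := h
  exact ⟨abs_le_of_sq_le_sq (by nlinarith [sq_nonneg (z.2 - y0.2)]) hs, abs_le_of_sq_le_sq (by nlinarith [sq_nonneg (z.1 - y0.1)]) hs⟩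

theorem gd72_ball_of_abs_le {z y0 : ℝ × ℝ} {c R : ℝ} (h1 : |z.1 - y0.1| ≤ c) (h2 : |z.2 - y0.2| ≤ c) (hR : 2 * c ≤ R) : z ∈ wkBall y0 R := by
  show (z.1 - y0.1) ^ 2 + (z.2 - y0.2) ^ 2 ≤ R ^ 2
  have hc : 0 ≤ c := (abs_nonneg _).trans h1
  have a1 : (z.1 - y0.1) ^ 2 ≤ c ^ 2 := sq_le_sq' (by linarith [(abs_le.1 h1).1]) (abs_le.1 h1).2
  have a2 : (z.2 - y0.2) ^ 2 ≤ c ^ 2 := sq_le_sq' (by linarith [(abs_le.1 h2).1]) (abs_le.1 h2).2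
  nlinarith

/-- the two boxes around the site of `y0` -/
theorem gd72_geo {D : Set (ℝ × ℝ)} {δ : ℕ → ℝ} {F : ℕ → Finset (ℤ × ℤ)} (hF : IsAdmissibleApprox D δ F)
    {K0 : Set (ℝ × ℝ)} (hK0 : IsCompact K0) {R0 : ℝ} (hR0 : 0 < R0) (hsub : ∀ y0 ∈ K0, wkBall y0 R0 ⊆ D) :
    ∃ cL : ℝ, 0 < cL ∧ ∀ y0 ∈ K0, ∀ s : ℝ, 0 < s → ∀ᶠ n in atTop, ∃ (u0 : ℤ × ℤ) (ρ L : ℕ),
      1 ≤ ρ ∧ (ρ : ℝ) * δ n ≤ 3 * s ∧ cL ≤ L * δ n ∧ gd72FB u0 L ⊆ F n ∧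
      (∀ u : ℤ × ℤ, (∃ z ∈ wkBall y0 s, |z.1 - δ n * u.1| ≤ δ n ∧ |z.2 - δ n * u.2| ≤ δ n) → u ∈ gd72VB u0 ρ) ∧
      ∀ u ∈ gd72VB u0 L, ((δ n * u.1, δ n * u.2) : ℝ × ℝ) ∈ wkBall y0 R0 := by
  have hK := gd72_union_compact hK0 hR0.le
  have hKD : {z : ℝ × ℝ | ∃ y0 ∈ K0, z ∈ wkBall y0 R0} ⊆ D := by
    rintro z ⟨y0, hy0, hz⟩; exact hsub y0 hy0 hz
  have h1 := hF.2.2.1 _ hK hKD
  set c' : ℝ := R0 / 2 with hc'
  have hc'0 : 0 < c' := by positivity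
  refine ⟨c' / 2, by positivity, fun y0 hy0 s hs => ?_⟩
  have e1 : ∀ᶠ n in atTop, δ n < s / 3 := hF.2.1.eventually (gt_mem_nhds (by positivity))
  have e2 : ∀ᶠ n in atTop, δ n < c' / 6 := hF.2.1.eventually (gt_mem_nhds (by positivity))
  filter_upwards [h1, e1, e2] with n hn hn1 hn2
  have hδ : 0 < δ n := hF.1 n
  set d := δ n with hd
  have hq : 0 < (s + 2 * d) / d := by positivity
  have hfl : (6 : ℝ) ≤ c' / d := by rw [le_div_iff₀ hδ]; linarith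
  have hfl1 : (⌊c' / d⌋₊ : ℝ) ≤ c' / d := Nat.floor_le (by positivity)
  have hfl2 : c' / d < (⌊c' / d⌋₊ : ℝ) + 1 := Nat.lt_floor_add_one _
  have hfl3 : 2 ≤ ⌊c' / d⌋₊ := by
    have : (5 : ℝ) < (⌊c' / d⌋₊ : ℝ) := by linarith
    have : 5 < ⌊c' / d⌋₊ := by exact_mod_cast this
    omega
  have hLc : ((⌊c' / d⌋₊ - 2 : ℕ) : ℝ) = (⌊c' / d⌋₊ : ℝ) - 2 := by
    rw [Nat.cast_sub hfl3]; norm_num
  have hfd : (⌊c' / d⌋₊ : ℝ) * d ≤ c' := by rwa [← le_div_iff₀ hδ]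
  have hfd2 : c' < ((⌊c' / d⌋₊ : ℝ) + 1) * d := by rwa [← div_lt_iff₀ hδ]
  -- the site of `y0`
  set u0 : ℤ × ℤ := (⌊y0.1 / d⌋, ⌊y0.2 / d⌋) with hu0
  have hu1 : |y0.1 - d * (u0.1 : ℝ)| ≤ d := by
    have a1 : ((⌊y0.1 / d⌋ : ℤ) : ℝ) ≤ y0.1 / d := Int.floor_le _
    have a2 : y0.1 / d < (⌊y0.1 / d⌋ : ℤ) + 1 := Int.lt_floor_add_one _
    rw [le_div_iff₀ hδ] at a1
    rw [div_lt_iff₀ hδ] at a2
    rw [abs_le]; constructor <;> nlinarith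
  have hu2 : |y0.2 - d * (u0.2 : ℝ)| ≤ d := by
    have a1 : ((⌊y0.2 / d⌋ : ℤ) : ℝ) ≤ y0.2 / d := Int.floor_le _
    have a2 : y0.2 / d < (⌊y0.2 / d⌋ : ℤ) + 1 := Int.lt_floor_add_one _
    rw [le_div_iff₀ hδ] at a1
    rw [div_lt_iff₀ hδ] at a2
    rw [abs_le]; constructor <;> nlinarith
  set ρ : ℕ := ⌈(s + 2 * d) / d⌉₊ with hρ
  set L : ℕ := ⌊c' / d⌋₊ - 2 with hL
  have hρ1 : (s + 2 * d) ≤ ρ * d := by rw [← div_le_iff₀ hδ]; exact Nat.le_ceil _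
  -- a real bound on integer coordinates
  have hint : ∀ (a b : ℤ) (N : ℕ), |d * (a : ℝ) - d * (b : ℝ)| ≤ N * d → b - N ≤ a ∧ a ≤ b + N := by
    intro a b N h
    rw [← mul_sub, abs_mul, abs_of_pos hδ, mul_comm] at h
    have h' : |(a : ℝ) - b| ≤ N := le_of_mul_le_mul_right h hδ
    rw [abs_le] at h'
    constructor
    · have : ((b - N : ℤ) : ℝ) ≤ (a : ℝ) := by push_cast; linarith [h'.1]
      exact_mod_cast this
    · have : (a : ℝ) ≤ ((b + N : ℤ) : ℝ) := by push_cast; linarith [h'.2]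
      exact_mod_cast this
  have hreal : ∀ (a b : ℤ) (N : ℕ), b - N ≤ a → a ≤ b + N → |d * (a : ℝ) - d * (b : ℝ)| ≤ N * d := by
    intro a b N h1 h2
    rw [← mul_sub, abs_mul, abs_of_pos hδ, mul_comm]
    refine mul_le_mul_of_nonneg_right ?_ hδ.le
    have a1 : ((b - N : ℤ) : ℝ) ≤ (a : ℝ) := by exact_mod_cast h1
    have a2 : (a : ℝ) ≤ ((b + N : ℤ) : ℝ) := by exact_mod_cast h2
    push_cast at a1 a2
    rw [abs_le]; constructor <;> linarith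
  refine ⟨u0, ρ, L, Nat.ceil_pos.2 hq, ?_, ?_, ?_, ?_, ?_⟩
  · have := Nat.ceil_lt_add_one hq.le
    have h2 : (ρ : ℝ) * d < ((s + 2 * d) / d + 1) * d := mul_lt_mul_of_pos_right this hδ
    have h3 : ((s + 2 * d) / d + 1) * d = s + 3 * d := by field_simp; ring
    linarith
  · rw [hLc]; nlinarith
  · -- faces of the big box
    intro f hf
    rw [gd72_mem_FB] at hf
    have hx : ((d * ((f.1 : ℝ) + 1 / 2), d * ((f.2 : ℝ) + 1 / 2)) : ℝ × ℝ) ∈ faceRegionSq d (F n) := by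
      apply hn
      refine ⟨y0, hy0, gd72_ball_of_abs_le (c := c') ?_ ?_ (by rw [hc']; linarith)⟩
      · have b1 := hreal f.1 u0.1 L hf.1.1 hf.1.2.le
        have b2 : |d * ((f.1 : ℝ) + 1 / 2) - y0.1| ≤ |d * (f.1 : ℝ) - d * (u0.1 : ℝ)| + |y0.1 - d * (u0.1 : ℝ)| + d / 2 := by
          have e : d * ((f.1 : ℝ) + 1 / 2) - y0.1 = (d * (f.1 : ℝ) - d * (u0.1 : ℝ)) + (-(y0.1 - d * (u0.1 : ℝ))) + d / 2 := by ring
          rw [e]
          refine (abs_add_le _ _).trans (add_le_add ((abs_add_le _ _).trans (add_le_add le_rfl (by rw [abs_neg]))) ?_)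
          rw [abs_of_pos (by positivity)]
        rw [hLc] at b1
        show |d * ((f.1 : ℝ) + 1 / 2) - y0.1| ≤ c'
        nlinarith
      · have b1 := hreal f.2 u0.2 L hf.2.1 hf.2.2.le
        have b2 : |d * ((f.2 : ℝ) + 1 / 2) - y0.2| ≤ |d * (f.2 : ℝ) - d * (u0.2 : ℝ)| + |y0.2 - d * (u0.2 : ℝ)| + d / 2 := by
          have e : d * ((f.2 : ℝ) + 1 / 2) - y0.2 = (d * (f.2 : ℝ) - d * (u0.2 : ℝ)) + (-(y0.2 - d * (u0.2 : ℝ))) + d / 2 := by ring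
          rw [e]
          refine (abs_add_le _ _).trans (add_le_add ((abs_add_le _ _).trans (add_le_add le_rfl (by rw [abs_neg]))) ?_)
          rw [abs_of_pos (by positivity)]
        rw [hLc] at b1
        show |d * ((f.2 : ℝ) + 1 / 2) - y0.2| ≤ c'
        nlinarith
    rw [at92h_region hδ] at hx
    apply hx f
    rw [at92h_mem_sq]
    refine ⟨⟨?_, ?_⟩, ⟨?_, ?_⟩⟩ <;> nlinarith
  · rintro u ⟨z, hz, hz1, hz2⟩
    obtain ⟨a1, a2⟩ := gd72_abs_le_of_ball hs.le hz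
    rw [gd72_mem_VB]
    constructor
    · apply hint
      have e : d * (u.1 : ℝ) - d * (u0.1 : ℝ) = -(z.1 - d * u.1) + (z.1 - y0.1) + (y0.1 - d * u0.1) := by ring
      rw [e]
      refine ((abs_add_le _ _).trans (add_le_add (abs_add_le _ _) le_rfl)).trans ?_
      rw [abs_neg]
      linarith
    · apply hint
      have e : d * (u.2 : ℝ) - d * (u0.2 : ℝ) = -(z.2 - d * u.2) + (z.2 - y0.2) + (y0.2 - d * u0.2) := by ring
      rw [e]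
      refine ((abs_add_le _ _).trans (add_le_add (abs_add_le _ _) le_rfl)).trans ?_
      rw [abs_neg]
      linarith
  · intro u hu
    rw [gd72_mem_VB] at hu
    refine gd72_ball_of_abs_le (c := c') ?_ ?_ (by rw [hc']; linarith)
    · have b1 := hreal u.1 u0.1 L hu.1.1 hu.1.2
      rw [hLc] at b1
      have e : d * (u.1 : ℝ) - y0.1 = (d * (u.1 : ℝ) - d * (u0.1 : ℝ)) + (-(y0.1 - d * (u0.1 : ℝ))) := by ring
      show |d * (u.1 : ℝ) - y0.1| ≤ c'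
      rw [e]
      refine (abs_add_le _ _).trans ?_
      rw [abs_neg]
      nlinarith
    · have b1 := hreal u.2 u0.2 L hu.2.1 hu.2.2
      rw [hLc] at b1
      have e : d * (u.2 : ℝ) - y0.2 = (d * (u.2 : ℝ) - d * (u0.2 : ℝ)) + (-(y0.2 - d * (u0.2 : ℝ))) := by ring
      show |d * (u.2 : ℝ) - y0.2| ≤ c'
      rw [e]
      refine (abs_add_le _ _).trans ?_
      rw [abs_neg]
      nlinarith

/-! ## 9. Moments, spectators, local frames -/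

theorem gd72_M_replicate (t δ : ℝ) (F : Finset (ℤ × ℤ)) (g : ℝ × ℝ → ℝ) (k : ℕ) :
    gaussM t δ F (Multiset.replicate k g) = gd72E t F fun h => gd72Sm δ F g h ^ k := by
  rw [gd72_M_eq]
  congr 1
  funext h
  rw [Multiset.map_replicate, Multiset.prod_replicate]

theorem gd72_M_bdd {t : ℝ} (ht : 0 < t) {D : Set (ℝ × ℝ)} {δ : ℕ → ℝ} {F : ℕ → Finset (ℤ × ℤ)} (hSM : GaussSM t D δ F)
    {s : Multiset (ℝ × ℝ → ℝ)} (hs : ∀ g ∈ s, WkTest D g) : ∃ C : ℝ, ∀ᶠ n in atTop, |gaussM t (δ n) (F n) s| ≤ C :=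
  lm_M_bdd (gauss172u_ok ht hSM) hs

theorem gd72_phi_sq (t δ : ℝ) (F : Finset (ℤ × ℤ)) (s : Multiset (ℝ × ℝ → ℝ)) :
    gd72E t F (fun H => ((s.map fun g => gd72Sm δ F g H).prod) ^ 2) = gaussM t δ F (s + s) := by
  rw [gd72_M_eq]
  congr 1
  funext H
  rw [Multiset.map_add, Multiset.prod_add, sq]

theorem gd72_phi_four (t δ : ℝ) (F : Finset (ℤ × ℤ)) (s : Multiset (ℝ × ℝ → ℝ)) :
    gd72E t F (fun H => ((s.map fun g => gd72Sm δ F g H).prod) ^ 4) = gaussM t δ F ((s + s) + (s + s)) := by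
  rw [gd72_M_eq]
  congr 1
  funext H
  rw [Multiset.map_add, Multiset.prod_add, Multiset.map_add, Multiset.prod_add]
  ring

theorem gd72_sm_ext {δ : ℝ} {F S : Finset (ℤ × ℤ)} {g : ℝ × ℝ → ℝ} (h : ∀ u ∈ S, g (δ * u.1, δ * u.2) = 0) : Gd72Ext S (gd72Sm δ F g) := by
  intro H H' hh
  unfold gd72Sm
  congr 1
  refine Finset.sum_congr rfl fun u _ => ?_
  by_cases hu : u ∈ S
  · rw [h u hu, mul_zero, mul_zero]
  · rw [hh u hu]

theorem gd72_ext_mprod {S : Finset (ℤ × ℤ)} {s : Multiset (ℝ × ℝ → ℝ)} {Y : (ℝ × ℝ → ℝ) → (ℤ × ℤ → ℝ) → ℝ} (h : ∀ g ∈ s, Gd72Ext S (Y g)) :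
    Gd72Ext S fun H => (s.map fun g => Y g H).prod := by
  intro H H' hh
  show (s.map fun g => Y g H).prod = (s.map fun g => Y g H').prod
  rw [Multiset.map_congr rfl fun g hg => h g hg H H' hh]

theorem gd72_sub_pow_le (a b θ : ℝ) (hθ : |θ| ≤ 1) (m : ℕ) : (a - θ * b) ^ (2 * m) ≤ 2 ^ (2 * m) * (a ^ (2 * m) + b ^ (2 * m)) := by
  have h1 : |a - θ * b| ≤ 2 * max |a| |b| := by
    have h2 : |a - θ * b| ≤ |a| + |θ| * |b| := by
      rw [sub_eq_add_neg, ← abs_mul, ← abs_neg (θ * b)]; exact abs_add_le _ _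
    have h3 : |θ| * |b| ≤ |b| := mul_le_of_le_one_left (abs_nonneg _) hθ
    have h4 := le_max_left |a| |b|
    have h5 := le_max_right |a| |b|
    linarith
  have e : ∀ x : ℝ, x ^ (2 * m) = |x| ^ (2 * m) := fun x => by rw [pow_mul, pow_mul, sq_abs]
  have ha : 0 ≤ |a| ^ (2 * m) := by positivity
  have hb : 0 ≤ |b| ^ (2 * m) := by positivity
  rw [e (a - θ * b), e a, e b]
  calc |a - θ * b| ^ (2 * m) ≤ (2 * max |a| |b|) ^ (2 * m) := pow_le_pow_left₀ (abs_nonneg _) h1 _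
    _ = 2 ^ (2 * m) * max |a| |b| ^ (2 * m) := mul_pow _ _ _
    _ ≤ 2 ^ (2 * m) * (|a| ^ (2 * m) + |b| ^ (2 * m)) := by
      refine mul_le_mul_of_nonneg_left ?_ (by positivity)
      rcases le_total |a| |b| with h | h
      · rw [max_eq_right h]; linarith
      · rw [max_eq_left h]; linarith

/-- a continuous function of size `B/(9 s²)` carried by the disc of radius `s` around `y0` -/
structure Gd72LocT (y0 : ℝ × ℝ) (s B : ℝ) (α : ℝ × ℝ → ℝ) : Prop where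
  cont : Continuous α
  supp : ∀ y, s ^ 2 < C0467.sqDist y y0 → α y = 0
  bd : ∀ y, |α y| ≤ B / (9 * s ^ 2)

theorem Gd72LocT.comp' {y0 : ℝ × ℝ} {s B : ℝ} {α : ℝ × ℝ → ℝ} (h : Gd72LocT y0 s B α) (hs : 0 ≤ s) : HasCompactSupport α :=
  HasCompactSupport.intro (wk_ball_compact y0 hs) fun y hy => h.supp y (not_le.1 hy)

theorem Gd72LocT.test {y0 : ℝ × ℝ} {s B : ℝ} {α : ℝ × ℝ → ℝ} (h : Gd72LocT y0 s B α) (hs : 0 ≤ s) {D : Set (ℝ × ℝ)}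
    (hD : wkBall y0 s ⊆ D) : WkTest D α :=
  ⟨h.cont, h.comp' hs, (lim_tsupport_sub h.supp).trans hD⟩

/-- total mass of the frozen weights -/
noncomputable def gd72Tot (δ : ℝ) (F : Finset (ℤ × ℤ)) (g : ℝ × ℝ → ℝ) : ℝ := δ ^ 2 * ∑ v ∈ cornersOf F, g (δ * v.1, δ * v.2)

/-- the neutralised local field -/
noncomputable def gd72Y (δ : ℝ) (F : Finset (ℤ × ℤ)) (α χ : ℝ × ℝ → ℝ) (θ : ℝ) (H : ℤ × ℤ → ℝ) : ℝ :=
  gd72Sm δ F α H - θ * gd72Sm δ F χ H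

theorem gd72_eqns_cite3 : True := by
  have := @gd72Tot.eq_1; have := @gd72Y.eq_1
  trivial

/-- the small box at one mesh -/
structure Gd72Frame (d : ℝ) (F : Finset (ℤ × ℤ)) (y0 : ℝ × ℝ) (σ : ℝ) (u0 : ℤ × ℤ) (ρ : ℕ) : Prop where
  dpos : 0 < d
  spos : 0 < σ
  rho1 : 1 ≤ ρ
  rho3 : (ρ : ℝ) * d ≤ 3 * σ
  sub : gd72VB u0 ρ ⊆ cornersOf F
  near : ∀ u : ℤ × ℤ, (∃ z ∈ wkBall y0 σ, |z.1 - d * u.1| ≤ d ∧ |z.2 - d * u.2| ≤ d) → u ∈ gd72VB u0 ρ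

section frame

variable {d : ℝ} {F : Finset (ℤ × ℤ)} {y0 : ℝ × ℝ} {σ : ℝ} {u0 : ℤ × ℤ} {ρ : ℕ} {B : ℝ} {α χ : ℝ × ℝ → ℝ}

theorem Gd72Frame.off (fr : Gd72Frame d F y0 σ u0 ρ) (hα : Gd72LocT y0 σ B α) (v : ℤ × ℤ) (hv : v ∉ gd72VB u0 ρ) :
    α (d * v.1, d * v.2) = 0 := by
  apply hα.supp
  by_contra hn
  exact hv (fr.near v ⟨(d * v.1, d * v.2), not_lt.1 hn, by simp [fr.dpos.le], by simp [fr.dpos.le]⟩)

theorem Gd72Frame.sm (fr : Gd72Frame d F y0 σ u0 ρ) (hα : Gd72LocT y0 σ B α) (H : ℤ × ℤ → ℝ) :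
    gd72Sm d F α H = gd72Lin (gd72VB u0 ρ) (gd72Pw d α) H :=
  gd72_sm_eq_lin fr.sub (fr.off hα) H

theorem Gd72Frame.tot (fr : Gd72Frame d F y0 σ u0 ρ) (hα : Gd72LocT y0 σ B α) :
    gd72Tot d F α = ∑ u ∈ gd72VB u0 ρ, gd72Pw d α u := by
  unfold gd72Tot gd72Pw
  rw [Finset.mul_sum]
  symm
  exact Finset.sum_subset fr.sub fun v _ hv => by rw [fr.off hα v hv, mul_zero]

theorem Gd72Frame.dsq (fr : Gd72Frame d F y0 σ u0 ρ) : d ^ 2 ≤ 9 * σ ^ 2 / (ρ : ℝ) ^ 2 := by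
  have hρ : (0 : ℝ) < ρ := by exact_mod_cast fr.rho1
  rw [le_div_iff₀ (by positivity)]
  have := pow_le_pow_left₀ (by have := fr.dpos; positivity) fr.rho3 2
  nlinarith

theorem Gd72Frame.pw_le (fr : Gd72Frame d F y0 σ u0 ρ) (hB : 0 ≤ B) (hα : Gd72LocT y0 σ B α) (u : ℤ × ℤ) :
    |gd72Pw d α u| ≤ B / (ρ : ℝ) ^ 2 := by
  have hρ : (0 : ℝ) < ρ := by exact_mod_cast fr.rho1
  have hσ := fr.spos
  unfold gd72Pw
  rw [abs_mul, abs_of_nonneg (sq_nonneg d)]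
  calc d ^ 2 * |α (d * u.1, d * u.2)| ≤ (9 * σ ^ 2 / (ρ : ℝ) ^ 2) * (B / (9 * σ ^ 2)) :=
        mul_le_mul fr.dsq (hα.bd _) (abs_nonneg _) (by positivity)
    _ = B / (ρ : ℝ) ^ 2 := by field_simp

/-- the neutralised field is a neutral statistic of the small box -/
theorem Gd72Frame.Y_lin (fr : Gd72Frame d F y0 σ u0 ρ) (hα : Gd72LocT y0 σ B α) (hχ : Gd72LocT y0 σ B χ) (θ : ℝ) (H : ℤ × ℤ → ℝ) :
    gd72Y d F α χ θ H = gd72Lin (gd72VB u0 ρ) (fun u => gd72Pw d α u - θ * gd72Pw d χ u) H := by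
  unfold gd72Y
  rw [fr.sm hα, fr.sm hχ, gd72_lin_sub, gd72_lin_smul]

theorem Gd72Frame.Y_tot (fr : Gd72Frame d F y0 σ u0 ρ) (hα : Gd72LocT y0 σ B α) (hχ : Gd72LocT y0 σ B χ) {θ : ℝ}
    (hθ : gd72Tot d F α = θ * gd72Tot d F χ) : ∑ u ∈ gd72VB u0 ρ, (gd72Pw d α u - θ * gd72Pw d χ u) = 0 := by
  rw [Finset.sum_sub_distrib, ← Finset.mul_sum, ← fr.tot hα, ← fr.tot hχ, hθ, sub_self]

theorem Gd72Frame.Y_le (fr : Gd72Frame d F y0 σ u0 ρ) (hB : 0 ≤ B) (hα : Gd72LocT y0 σ B α) (hχ : Gd72LocT y0 σ B χ) {θ : ℝ}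
    (hθ : |θ| ≤ 1) (u : ℤ × ℤ) : |gd72Pw d α u - θ * gd72Pw d χ u| ≤ 2 * B / (ρ : ℝ) ^ 2 := by
  have h1 := fr.pw_le hB hα u
  have h2 := fr.pw_le hB hχ u
  have h3 : |θ * gd72Pw d χ u| ≤ B / (ρ : ℝ) ^ 2 := by
    rw [abs_mul]; exact (mul_le_of_le_one_left (abs_nonneg _) hθ).trans h2
  have h4 : |gd72Pw d α u - θ * gd72Pw d χ u| ≤ |gd72Pw d α u| + |θ * gd72Pw d χ u| := by
    rw [sub_eq_add_neg, ← abs_neg (θ * gd72Pw d χ u)]; exact abs_add_le _ _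
  have e : 2 * B / (ρ : ℝ) ^ 2 = B / (ρ : ℝ) ^ 2 + B / (ρ : ℝ) ^ 2 := by ring
  rw [e]; linarith

theorem Gd72Frame.Y_loc (fr : Gd72Frame d F y0 σ u0 ρ) (hα : Gd72LocT y0 σ B α) (hχ : Gd72LocT y0 σ B χ) (θ : ℝ) :
    Gd72Loc (gd72VB u0 ρ) (gd72Y d F α χ θ) := by
  rw [funext fun H => fr.Y_lin hα hχ θ H]
  exact gd72_lin_loc _ _

theorem Gd72Frame.Y_grad (fr : Gd72Frame d F y0 σ u0 ρ) (hα : Gd72LocT y0 σ B α) (hχ : Gd72LocT y0 σ B χ) {θ : ℝ}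
    (hθ : gd72Tot d F α = θ * gd72Tot d F χ) : Gd72Grad (gd72Y d F α χ θ) := by
  rw [funext fun H => fr.Y_lin hα hχ θ H]
  exact gd72_lin_grad (fr.Y_tot hα hχ hθ)

end frame

/-- finite volume moments of the neutralised field -/
theorem gd72_Y_mom {t : ℝ} (ht : 0 < t) (d : ℝ) (F : Finset (ℤ × ℤ)) (α χ : ℝ × ℝ → ℝ) {θ : ℝ} (hθ : |θ| ≤ 1) (m : ℕ) {c : ℝ}
    (h1 : gaussM t d F (Multiset.replicate (2 * m) α) ≤ c) (h2 : gaussM t d F (Multiset.replicate (2 * m) χ) ≤ c) :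
    gd72E t F (fun H => gd72Y d F α χ θ H ^ (2 * m)) ≤ 2 ^ (2 * m) * (2 * c) := by
  rw [gd72_M_replicate] at h1 h2
  refine (gd72_E_mono F ht fun H => gd72_sub_pow_le (gd72Sm d F α H) (gd72Sm d F χ H) θ hθ m).trans ?_
  rw [gd72_E_smul, gd72_E_add]
  refine mul_le_mul_of_nonneg_left ?_ (by positivity)
  linarith

theorem gd72_momG {t : ℝ} (ht : 0 < t) (F : Finset (ℤ × ℤ)) (X1 X2 : (ℤ × ℤ → ℝ) → ℝ) (m : ℕ) {c : ℝ}
    (h1 : gd72E t F (fun H => X1 H ^ (2 * m)) ≤ c) (h2 : gd72E t F (fun H => X2 H ^ (2 * m)) ≤ c) :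
    gd72E t F (fun H => (X1 H * X2 H) ^ m) ≤ c := by
  refine (gd72_E_mono F ht fun H => lim_mul_pow_le (X1 H) (X2 H) m).trans ?_
  rw [gd72_E_smul, gd72_E_add]
  linarith

theorem gd72_momGP {t : ℝ} (ht : 0 < t) (hP : Gd72Pl t) {S : Finset (ℤ × ℤ)} {X1 X2 : (ℤ × ℤ → ℝ) → ℝ} (l1 : Gd72Loc S X1) (g1 : Gd72Grad X1)
    (l2 : Gd72Loc S X2) (g2 : Gd72Grad X2) (m : ℕ) {c : ℝ}
    (h1 : gd72Pl t (fun H => X1 H ^ (2 * m)) ≤ c) (h2 : gd72Pl t (fun H => X2 H ^ (2 * m)) ≤ c) :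
    gd72Pl t (fun H => (X1 H * X2 H) ^ m) ≤ c := by
  refine (gd72_pl_mono ht hP (gd72_loc_comp2 l1 l2 fun p q => (p * q) ^ m) (gd72_grad_comp2 g1 g2 fun p q => (p * q) ^ m)
    (gd72_loc_comp2 l1 l2 fun p q => 2⁻¹ * (p ^ (2 * m) + q ^ (2 * m))) (gd72_grad_comp2 g1 g2 fun p q => 2⁻¹ * (p ^ (2 * m) + q ^ (2 * m)))
    fun H => lim_mul_pow_le (X1 H) (X2 H) m).trans ?_
  rw [gd72_pl_smul hP (gd72_loc_comp2 l1 l2 fun p q => p ^ (2 * m) + q ^ (2 * m)) (gd72_grad_comp2 g1 g2 fun p q => p ^ (2 * m) + q ^ (2 * m)),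
    gd72_pl_add hP (gd72_loc_comp l1 (· ^ (2 * m))) (gd72_grad_comp g1 (· ^ (2 * m))) (gd72_loc_comp l2 (· ^ (2 * m))) (gd72_grad_comp g2 (· ^ (2 * m)))]
  linarith

/-! ## 10. The local decoupling estimate (port of R291 `lim_dec_loc`) -/

theorem gd72_jor {D : Set (ℝ × ℝ)} {δ : ℕ → ℝ} {F : ℕ → Finset (ℤ × ℤ)} (hF : IsAdmissibleApprox D δ F) (n : ℕ) : Gd72Jor (F n) := by
  obtain ⟨_, γs, _, _, _, h, _⟩ := hF.2.2.2
  exact ⟨δ n, hF.1 n, γs n, (h n).1, (h n).2.1, (h n).2.2⟩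

/-- the two boxes, as a frame -/
theorem gd72_frames {D : Set (ℝ × ℝ)} {δ : ℕ → ℝ} {F : ℕ → Finset (ℤ × ℤ)} (hF : IsAdmissibleApprox D δ F)
    {K0 : Set (ℝ × ℝ)} (hK0 : IsCompact K0) {R0 : ℝ} (hR0 : 0 < R0) (hsub : ∀ y0 ∈ K0, wkBall y0 R0 ⊆ D) :
    ∃ cL : ℝ, 0 < cL ∧ ∀ y0 ∈ K0, ∀ σ : ℝ, 0 < σ → σ ≤ cL / 3 → ∀ᶠ n in atTop, ∃ (u0 : ℤ × ℤ) (ρ L : ℕ),
      Gd72Frame (δ n) (F n) y0 σ u0 ρ ∧ ρ ≤ L ∧ cL ≤ L * δ n ∧ gd72FB u0 L ⊆ F n ∧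
      ∀ u ∈ gd72VB u0 L, ((δ n * u.1, δ n * u.2) : ℝ × ℝ) ∈ wkBall y0 R0 := by
  obtain ⟨cL, hcL, H⟩ := gd72_geo hF hK0 hR0 hsub
  refine ⟨cL, hcL, fun y0 hy0 σ hσ hσ3 => ?_⟩
  filter_upwards [H y0 hy0 σ hσ] with n hn
  obtain ⟨u0, ρ, L, h1, h2, h3, h4, h5, h6⟩ := hn
  have hδ : 0 < δ n := hF.1 n
  have hρL : ρ ≤ L := by
    have : (ρ : ℝ) * δ n ≤ L * δ n := by linarith
    exact_mod_cast le_of_mul_le_mul_right this hδ
  exact ⟨u0, ρ, L, ⟨hδ, hσ, h1, h2, (gd72_VB_mono u0 hρL).trans (gd72_VB_corners (h1.trans hρL) h4), h5⟩, hρL, h3, h4, h6⟩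

theorem gd72_dec_loc {t : ℝ} (ht : 0 < t) (hP : Gd72Pl t) {D : Set (ℝ × ℝ)} {δ : ℕ → ℝ} {F : ℕ → Finset (ℤ × ℤ)}
    (hF : IsAdmissibleApprox D δ F) (hSM : GaussSM t D δ F) {K0 : Set (ℝ × ℝ)} (hK0 : IsCompact K0) {R0 : ℝ} (hR0 : 0 < R0)
    (hsub : ∀ y0 ∈ K0, wkBall y0 R0 ⊆ D) (s : Multiset (ℝ × ℝ → ℝ)) (hs : ∀ k ∈ s, WkTest D k)
    (hs0 : ∀ k ∈ s, ∀ y0 ∈ K0, ∀ y ∈ wkBall y0 R0, k y = 0) {B : ℝ} (hB0 : 0 < B) :
    ∃ K1 κ s0 : ℝ, 0 < K1 ∧ 0 < κ ∧ 0 < s0 ∧ s0 ≤ 1 ∧ ∀ y0 ∈ K0, ∀ σ : ℝ, 0 < σ → σ ≤ s0 → ∀ α1 α2 χ : ℝ × ℝ → ℝ,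
      Gd72LocT y0 σ B α1 → Gd72LocT y0 σ B α2 → Gd72LocT y0 σ B χ → ∀ᶠ n in atTop,
      (∃ (u0 : ℤ × ℤ) (ρ : ℕ), Gd72Frame (δ n) (F n) y0 σ u0 ρ) ∧ ∀ θ1 θ2 : ℝ, |θ1| ≤ 1 → |θ2| ≤ 1 →
      gd72Tot (δ n) (F n) α1 = θ1 * gd72Tot (δ n) (F n) χ → gd72Tot (δ n) (F n) α2 = θ2 * gd72Tot (δ n) (F n) χ → ∀ M : ℝ, 0 < M →
      |gd72E t (F n) (fun H => (s.map fun g => gd72Sm (δ n) (F n) g H).prod * (gd72Y (δ n) (F n) α1 χ θ1 H * gd72Y (δ n) (F n) α2 χ θ2 H))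
        - gaussM t (δ n) (F n) s * gd72Pl t (fun H => gd72Y (δ n) (F n) α1 χ θ1 H * gd72Y (δ n) (F n) α2 χ θ2 H)|
        ≤ K1 * (M ^ 2 * σ ^ κ + (1 + Real.log (1 / σ)) ^ 4 / M) := by
  obtain ⟨C, κ, hC, hκ, Hcore⟩ := gd72_dec_core ht hP
  have hK0D : K0 ⊆ D := fun y hy => hsub y hy (wk_mem_ball_self y R0)
  obtain ⟨cL, hcL, Hgeo⟩ := gd72_frames hF hK0 hR0 hsub
  have hss : ∀ g ∈ s + s, WkTest D g := fun g hg => by
    rcases Multiset.mem_add.1 hg with h | h <;> exact hs g h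
  have hssss : ∀ g ∈ (s + s) + (s + s), WkTest D g := fun g hg => by
    rcases Multiset.mem_add.1 hg with h | h <;> exact hss g h
  obtain ⟨a2, ha2⟩ := gd72_M_bdd ht hSM hss
  obtain ⟨a4, ha4⟩ := gd72_M_bdd ht hSM hssss
  obtain ⟨C2, r2, hC2, hr2, -, H2⟩ := hSM.small 2 K0 hK0 hK0D
  obtain ⟨C4, r4, hC4, hr4, -, H4⟩ := hSM.small 4 K0 hK0 hK0D
  obtain ⟨Cp, hCp0, HCp⟩ := gd72_momP hP 2
  set a : ℝ := max a2 a4 with ha
  set b0 : ℝ := 2 ^ (2 * 2) * (2 * (C2 * (B / 9) ^ (2 * 2))) + 2 ^ (2 * 4) * (2 * (C4 * (B / 9) ^ (2 * 4))) with hb0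
  set c : ℝ := Cp * (2 * B) ^ (2 * 2) with hc
  set K' : ℝ := |a| + b0 + |a * ((1 + c) / 2)| + |(1 + a) / 2 * c| with hK'
  have hb0' : 0 < b0 := by positivity
  have hK'0 : 0 < K' := by positivity
  have hq : 0 < C * (3 / cL) ^ κ := by positivity
  refine ⟨max (C * (3 / cL) ^ κ) K', κ, min (min r2 r4) (min (min 1 R0) (min (cL / 3) (cL / (3 * C)))), lt_max_of_lt_left hq, hκ,
    by positivity, (min_le_right _ _).trans ((min_le_left _ _).trans (min_le_left _ _)), fun y0 hy0 σ hσ hσ0 α1 α2 χ hα1 hα2 hχ => ?_⟩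
  have hsr2 : σ ≤ r2 := hσ0.trans ((min_le_left _ _).trans (min_le_left _ _))
  have hsr4 : σ ≤ r4 := hσ0.trans ((min_le_left _ _).trans (min_le_right _ _))
  have hs1 : σ ≤ 1 := hσ0.trans ((min_le_right _ _).trans ((min_le_left _ _).trans (min_le_left _ _)))
  have hsR : σ ≤ R0 := hσ0.trans ((min_le_right _ _).trans ((min_le_left _ _).trans (min_le_right _ _)))
  have hs3 : σ ≤ cL / 3 := hσ0.trans ((min_le_right _ _).trans ((min_le_right _ _).trans (min_le_left _ _)))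
  have hs4 : σ ≤ cL / (3 * C) := hσ0.trans ((min_le_right _ _).trans ((min_le_right _ _).trans (min_le_right _ _)))
  have hl : 1 ≤ 1 + Real.log (1 / σ) := by
    have : 0 ≤ Real.log (1 / σ) := Real.log_nonneg (by rw [le_div_iff₀ hσ]; linarith)
    linarith
  set ℓ : ℝ := 1 + Real.log (1 / σ) with hℓ
  have hl2 : ℓ ^ 2 ≤ ℓ ^ 4 := pow_le_pow_right₀ hl (by norm_num)
  have hl4 : 1 ≤ ℓ ^ 4 := one_le_pow₀ hl
  have hσD : wkBall y0 σ ⊆ D := (wk_ball_mono y0 hσ.le hsR).trans (hsub y0 hy0)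
  have hoff : ∀ {α : ℝ × ℝ → ℝ}, Gd72LocT y0 σ B α → ∀ y, y ∉ wkBall y0 σ → α y = 0 := fun hα y hy => hα.supp y (not_le.1 hy)
  have hMs : B / (9 * σ ^ 2) * σ ^ 2 = B / 9 := by field_simp
  have m4 : ∀ {α : ℝ × ℝ → ℝ}, Gd72LocT y0 σ B α → ∀ᶠ n in atTop,
      gaussM t (δ n) (F n) (Multiset.replicate (2 * 2) α) ≤ C2 * (B / 9) ^ (2 * 2) * ℓ ^ 2 := fun hα => by
    have := H2 y0 hy0 σ hσ hsr2 _ _ (hα.test hσ.le hσD) hα.bd (hoff hα)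
    rwa [hMs] at this
  have m8 : ∀ {α : ℝ × ℝ → ℝ}, Gd72LocT y0 σ B α → ∀ᶠ n in atTop,
      gaussM t (δ n) (F n) (Multiset.replicate (2 * 4) α) ≤ C4 * (B / 9) ^ (2 * 4) * ℓ ^ 4 := fun hα => by
    have := H4 y0 hy0 σ hσ hsr4 _ _ (hα.test hσ.le hσD) hα.bd (hoff hα)
    rwa [hMs] at this
  filter_upwards [Hgeo y0 hy0 σ hσ hs3, ha2, ha4, m4 hα1, m4 hα2, m4 hχ, m8 hα1, m8 hα2, m8 hχ] with n hgeo h2 h4 p41 p42 p4χ p81 p82 p8χ
  obtain ⟨u0, ρ, L, fr, hρL, hL, hLsub, hLface⟩ := hgeo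
  refine ⟨⟨u0, ρ, fr⟩, fun θ1 θ2 hθ1 hθ2 ht1 ht2 M hM => ?_⟩
  have hδ : 0 < δ n := hF.1 n
  have hCρ : C * ρ ≤ L := by
    have h1 : C * ρ * δ n ≤ L * δ n := by
      have : C * (3 * σ) ≤ cL := by
        rw [le_div_iff₀ (by positivity)] at hs4
        linarith
      have h3 : C * (ρ * δ n) ≤ C * (3 * σ) := mul_le_mul_of_nonneg_left fr.rho3 hC.le
      linarith
    exact le_of_mul_le_mul_right h1 hδ
  have l1 := fr.Y_loc hα1 hχ θ1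
  have l2 := fr.Y_loc hα2 hχ θ2
  have g1 := fr.Y_grad hα1 hχ ht1
  have g2 := fr.Y_grad hα2 hχ ht2
  have hΦ : Gd72Ext (gd72VB u0 L) fun H => (s.map fun g => gd72Sm (δ n) (F n) g H).prod :=
    gd72_ext_mprod fun g hg => gd72_sm_ext fun u hu => hs0 g hg y0 hy0 _ (hLface u hu)
  have lG := gd72_loc_comp2 l1 l2 (· * ·)
  have gG := gd72_grad_comp2 g1 g2 (· * ·)
  have hG2 : gd72E t (F n) (fun H => (gd72Y (δ n) (F n) α1 χ θ1 H * gd72Y (δ n) (F n) α2 χ θ2 H) ^ 2) ≤ b0 * ℓ ^ 4 := by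
    have e1 : 2 ^ (2 * 2) * (2 * (C2 * (B / 9) ^ (2 * 2) * ℓ ^ 2)) ≤ b0 * ℓ ^ 4 := by
      have e0 : 2 ^ (2 * 2) * (2 * (C2 * (B / 9) ^ (2 * 2) * ℓ ^ 2)) ≤ 2 ^ (2 * 2) * (2 * (C2 * (B / 9) ^ (2 * 2))) * ℓ ^ 4 := by
        have : 2 ^ (2 * 2) * (2 * (C2 * (B / 9) ^ (2 * 2) * ℓ ^ 2)) = 2 ^ (2 * 2) * (2 * (C2 * (B / 9) ^ (2 * 2))) * ℓ ^ 2 := by ring
        rw [this]
        exact mul_le_mul_of_nonneg_left hl2 (by positivity)
      have e2 : 0 ≤ 2 ^ (2 * 4) * (2 * (C4 * (B / 9) ^ (2 * 4))) * ℓ ^ 4 := by positivity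
      rw [hb0, add_mul]
      linarith
    exact gd72_momG ht _ _ _ 2 ((gd72_Y_mom ht _ _ _ _ hθ1 2 p41 p4χ).trans e1) ((gd72_Y_mom ht _ _ _ _ hθ2 2 p42 p4χ).trans e1)
  have hG4 : gd72E t (F n) (fun H => (gd72Y (δ n) (F n) α1 χ θ1 H * gd72Y (δ n) (F n) α2 χ θ2 H) ^ 4) ≤ b0 * ℓ ^ 4 := by
    have e1 : 2 ^ (2 * 4) * (2 * (C4 * (B / 9) ^ (2 * 4) * ℓ ^ 4)) ≤ b0 * ℓ ^ 4 := by
      have e2 : 0 ≤ 2 ^ (2 * 2) * (2 * (C2 * (B / 9) ^ (2 * 2))) * ℓ ^ 4 := by positivity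
      have e3 : 2 ^ (2 * 4) * (2 * (C4 * (B / 9) ^ (2 * 4) * ℓ ^ 4)) = 2 ^ (2 * 4) * (2 * (C4 * (B / 9) ^ (2 * 4))) * ℓ ^ 4 := by ring
      rw [hb0, add_mul]
      linarith
    exact gd72_momG ht _ _ _ 4 ((gd72_Y_mom ht _ _ _ _ hθ1 4 p81 p8χ).trans e1) ((gd72_Y_mom ht _ _ _ _ hθ2 4 p82 p8χ).trans e1)
  have hPY : ∀ {α : ℝ × ℝ → ℝ} {θ : ℝ}, Gd72LocT y0 σ B α → |θ| ≤ 1 → gd72Tot (δ n) (F n) α = θ * gd72Tot (δ n) (F n) χ →
      gd72Pl t (fun H => gd72Y (δ n) (F n) α χ θ H ^ (2 * 2)) ≤ c := fun {α θ} hα hθ htot => by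
    have e : (fun H => gd72Y (δ n) (F n) α χ θ H ^ (2 * 2))
        = fun H => gd72Lin (gd72VB u0 ρ) (fun u => gd72Pw (δ n) α u - θ * gd72Pw (δ n) χ u) H ^ (2 * 2) := by
      funext H; rw [fr.Y_lin hα hχ θ H]
    rw [e]
    exact HCp u0 ρ _ (2 * B) fr.rho1 (by positivity) (fr.Y_le hB0.le hα hχ hθ) (fr.Y_tot hα hχ htot)
  have hPG : gd72Pl t (fun H => (gd72Y (δ n) (F n) α1 χ θ1 H * gd72Y (δ n) (F n) α2 χ θ2 H) ^ 2) ≤ c :=
    gd72_momGP ht hP l1 g1 l2 g2 2 (hPY hα1 hθ1 ht1) (hPY hα2 hθ2 ht2)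
  have hΦ2 : gd72E t (F n) (fun H => ((s.map fun g => gd72Sm (δ n) (F n) g H).prod) ^ 2) ≤ a := by
    rw [gd72_phi_sq]; exact ((le_abs_self _).trans h2).trans (le_max_left _ _)
  have hΦ4 : gd72E t (F n) (fun H => ((s.map fun g => gd72Sm (δ n) (F n) g H).prod) ^ 4) ≤ a := by
    rw [gd72_phi_four]; exact ((le_abs_self _).trans h4).trans (le_max_right _ _)
  have key := Hcore (F n) u0 ρ L (gd72_jor hF n) fr.rho1 hCρ hLsub _ _ hΦ lG gG a (b0 * ℓ ^ 4) c hΦ2 hΦ4 hG2 hG4 hPG M hM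
  rw [← gd72_M_eq] at key
  refine key.trans ?_
  have hL0 : (0 : ℝ) < L := by
    have : 0 < (L : ℝ) * δ n := lt_of_lt_of_le hcL hL
    by_contra h
    have h' : (L : ℝ) ≤ 0 := not_lt.1 h
    have h'' : (L : ℝ) * δ n ≤ 0 := mul_nonpos_of_nonpos_of_nonneg h' hδ.le
    linarith
  have hratio : (ρ : ℝ) / L ≤ 3 / cL * σ := by
    rw [div_le_iff₀ hL0]
    have h1 : (ρ : ℝ) * δ n * cL ≤ 3 * σ * (L * δ n) := by
      calc (ρ : ℝ) * δ n * cL ≤ 3 * σ * cL := mul_le_mul_of_nonneg_right fr.rho3 hcL.le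
        _ ≤ 3 * σ * (L * δ n) := mul_le_mul_of_nonneg_left hL (by positivity)
    have h2 : (ρ : ℝ) * cL ≤ 3 * σ * L := by
      have : (ρ : ℝ) * cL * δ n ≤ 3 * σ * L * δ n := by linarith
      exact le_of_mul_le_mul_right this hδ
    rw [div_mul_eq_mul_div, div_mul_eq_mul_div, le_div_iff₀ hcL]
    linarith
  exact lim_dec_arith hC hκ hcL hσ hM hl4 (by positivity) hratio a b0 c

/-! ## 11. The plane covariance: from the cell weights of SPEC to the frozen point weights -/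

section frame2

variable {d : ℝ} {F : Finset (ℤ × ℤ)} {y0 : ℝ × ℝ} {σ : ℝ} {u0 : ℤ × ℤ} {ρ : ℕ} {B : ℝ} {α χ : ℝ × ℝ → ℝ}

theorem Gd72Frame.wt_off (fr : Gd72Frame d F y0 σ u0 ρ) (hα : Gd72LocT y0 σ B α) (u : ℤ × ℤ) (hu : u ∉ gd72VB u0 ρ) : aspWt d α u = 0 := by
  apply riem262_Wt_zero
  intro z hz
  apply hα.supp
  by_contra hn
  have hd := riem262_cell_dist fr.dpos hz
  rw [Prod.dist_eq, max_le_iff, Real.dist_eq, Real.dist_eq] at hd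
  have := fr.dpos
  exact hu (fr.near u ⟨z, not_lt.1 hn, hd.1.trans (by linarith), hd.2.trans (by linarith)⟩)

theorem Gd72Frame.wt_tot (fr : Gd72Frame d F y0 σ u0 ρ) (hα : Gd72LocT y0 σ B α) : ∑ u ∈ gd72VB u0 ρ, aspWt d α u = ∫ z, α z :=
  riem262_sum_Wt fr.dpos hα.cont (hα.comp' fr.spos.le) (fr.wt_off hα)

theorem Gd72Frame.arr (fr : Gd72Frame d F y0 σ u0 ρ) (hα : Gd72LocT y0 σ B α) (H : ℤ × ℤ → ℝ) :
    gd72Arr (aspW d α) H = gd72Lin (gd72VB u0 ρ) (aspWt d α) H := by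
  have hc := hα.comp' fr.spos.le
  rw [gd72_arr_eq_lin (S := gd72VB u0 ρ) (fun u hu => by
    by_contra hn
    rw [Finsupp.mem_support_iff, riem262_W_apply fr.dpos hc] at hu
    exact hu (fr.wt_off hα u hn))]
  congr 1
  funext u
  exact riem262_W_apply fr.dpos hc u

theorem Gd72Frame.wt_sub (fr : Gd72Frame d F y0 σ u0 ρ) (hα : Gd72LocT y0 σ B α) {om : ℝ} (hom : 0 ≤ om)
    (h : ∀ u : AspG, ∀ z ∈ aspCell d u, |α z - α (d * u.1, d * u.2)| ≤ om) (u : ℤ × ℤ) :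
    |gd72Pw d α u - aspWt d α u| ≤ 9 * σ ^ 2 * om / (ρ : ℝ) ^ 2 := by
  have h1 := riem262_Wt_sub_le fr.dpos hα.cont u (h u)
  rw [abs_sub_comm]
  refine h1.trans ?_
  have := mul_le_mul_of_nonneg_right fr.dsq hom
  refine this.trans (le_of_eq ?_)
  ring

theorem Gd72Frame.wt_le (fr : Gd72Frame d F y0 σ u0 ρ) (hB : 0 ≤ B) (hα : Gd72LocT y0 σ B α) (u : ℤ × ℤ) :
    |aspWt d α u| ≤ 3 * B / (ρ : ℝ) ^ 2 := by
  have hσ := fr.spos
  have h1 := fr.wt_sub hα (om := 2 * (B / (9 * σ ^ 2))) (by positivity) (fun u z _ => by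
    have a1 := hα.bd z
    have a2 := hα.bd (d * u.1, d * u.2)
    have a3 : |α z - α (d * u.1, d * u.2)| ≤ |α z| + |α (d * u.1, d * u.2)| := by
      rw [sub_eq_add_neg, ← abs_neg (α (d * u.1, d * u.2))]; exact abs_add_le _ _
    linarith) u
  have h2 := fr.pw_le hB hα u
  have e : 9 * σ ^ 2 * (2 * (B / (9 * σ ^ 2))) / (ρ : ℝ) ^ 2 = 2 * (B / (ρ : ℝ) ^ 2) := by field_simp
  rw [e] at h1
  have h3 : |aspWt d α u| ≤ |gd72Pw d α u| + |gd72Pw d α u - aspWt d α u| := by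
    have e2 : aspWt d α u = gd72Pw d α u + -(gd72Pw d α u - aspWt d α u) := by ring
    calc |aspWt d α u| = |gd72Pw d α u + -(gd72Pw d α u - aspWt d α u)| := by rw [← e2]
      _ ≤ _ := (abs_add_le _ _).trans (by rw [abs_neg])
  have e3 : 3 * B / (ρ : ℝ) ^ 2 = B / (ρ : ℝ) ^ 2 + 2 * (B / (ρ : ℝ) ^ 2) := by ring
  rw [e3]; linarith

end frame2

/-- the plane covariance of the neutralised point fields against the form of SPEC on the cell weights -/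
theorem gd72_cov_cmp {t : ℝ} (ht : 0 < t) (hP : Gd72Pl t) :
    ∃ C : ℝ, 0 ≤ C ∧ ∀ (d : ℝ) (F : Finset (ℤ × ℤ)) (y0 : ℝ × ℝ) (σ : ℝ) (u0 : ℤ × ℤ) (ρ : ℕ) (B : ℝ) (α1 α2 χ : ℝ × ℝ → ℝ) (θ1 θ2 om e : ℝ),
      Gd72Frame d F y0 σ u0 ρ → 0 < B → Gd72LocT y0 σ B α1 → Gd72LocT y0 σ B α2 → Gd72LocT y0 σ B χ → ∫ z, α1 z = 0 → ∫ z, α2 z = 0 →
      |θ1| ≤ 1 → |θ2| ≤ 1 → gd72Tot d F α1 = θ1 * gd72Tot d F χ → gd72Tot d F α2 = θ2 * gd72Tot d F χ → 0 ≤ om →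
      (∀ u : AspG, ∀ z ∈ aspCell d u, |α1 z - α1 (d * u.1, d * u.2)| ≤ om) → (∀ u : AspG, ∀ z ∈ aspCell d u, |α2 z - α2 (d * u.1, d * u.2)| ≤ om) →
      0 < e → 9 * σ ^ 2 * om + |θ1| * B ≤ e → 9 * σ ^ 2 * om + |θ2| * B ≤ e →
      |gd72Pl t (fun H => gd72Y d F α1 χ θ1 H * gd72Y d F α2 χ θ2 H) - aspGam (gd72Var t) (aspW d α1) (aspW d α2)| ≤ C * (2 * e * (3 * B)) := by
  obtain ⟨C, hC0, hC⟩ := gd72_pl_bil ht hP
  refine ⟨C, hC0, fun d F y0 σ u0 ρ B α1 α2 χ θ1 θ2 om e fr hB hα1 hα2 hχ hi1 hi2 hθ1 hθ2 ht1 ht2 hom ho1 ho2 he he1 he2 => ?_⟩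
  have hρ : (0 : ℝ) < ρ := by exact_mod_cast fr.rho1
  have hc1 := hα1.comp' fr.spos.le
  have hc2 := hα2.comp' fr.spos.le
  rw [← gd72_pl_gam hP _ _ (by rw [riem262_W_tot fr.dpos hα1.cont hc1, hi1]) (by rw [riem262_W_tot fr.dpos hα2.cont hc2, hi2])]
  have e1 : (fun H => gd72Y d F α1 χ θ1 H * gd72Y d F α2 χ θ2 H)
      = fun H => gd72Lin (gd72VB u0 ρ) (fun u => gd72Pw d α1 u - θ1 * gd72Pw d χ u) H * gd72Lin (gd72VB u0 ρ) (fun u => gd72Pw d α2 u - θ2 * gd72Pw d χ u) H := by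
    funext H; rw [fr.Y_lin hα1 hχ, fr.Y_lin hα2 hχ]
  have e2 : (fun H => gd72Arr (aspW d α1) H * gd72Arr (aspW d α2) H)
      = fun H => gd72Lin (gd72VB u0 ρ) (aspWt d α1) H * gd72Lin (gd72VB u0 ρ) (aspWt d α2) H := by
    funext H; rw [fr.arr hα1, fr.arr hα2]
  rw [e1, e2]
  have hdiff : ∀ {α : ℝ × ℝ → ℝ} {θ : ℝ}, Gd72LocT y0 σ B α → (∀ u : AspG, ∀ z ∈ aspCell d u, |α z - α (d * u.1, d * u.2)| ≤ om) →
      9 * σ ^ 2 * om + |θ| * B ≤ e → ∀ u, |gd72Pw d α u - θ * gd72Pw d χ u - aspWt d α u| ≤ e / (ρ : ℝ) ^ 2 := by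
    intro α θ hα ho hle u
    have a1 := fr.wt_sub hα hom ho u
    have a2 : |θ * gd72Pw d χ u| ≤ |θ| * B / (ρ : ℝ) ^ 2 := by
      rw [abs_mul, mul_div_assoc]; exact mul_le_mul_of_nonneg_left (fr.pw_le hB.le hχ u) (abs_nonneg _)
    have a3 : gd72Pw d α u - θ * gd72Pw d χ u - aspWt d α u = (gd72Pw d α u - aspWt d α u) + -(θ * gd72Pw d χ u) := by ring
    rw [a3]
    refine (abs_add_le _ _).trans ?_
    rw [abs_neg]
    refine (add_le_add a1 a2).trans ?_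
    rw [← add_div]
    exact div_le_div_of_nonneg_right hle (by positivity)
  refine hC u0 ρ _ _ _ _ (3 * B) e fr.rho1 (by positivity) he (fun u => ?_) (fr.wt_le hB.le hα1) (hdiff hα1 ho1 he1) (hdiff hα2 ho2 he2)
    (fr.Y_tot hα1 hχ ht1) (fr.Y_tot hα2 hχ ht2) (by rw [fr.wt_tot hα1, hi1]) (by rw [fr.wt_tot hα2, hi2])
  refine (fr.Y_le hB.le hα2 hχ hθ2 u).trans ?_
  exact div_le_div_of_nonneg_right (by linarith) (by positivity)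

/-- the total mass of the frozen weights converges to the integral -/
theorem gd72_tot_tendsto {δ : ℕ → ℝ} {F : ℕ → Finset (ℤ × ℤ)} (hδ : ∀ n, 0 < δ n) (hδ0 : Tendsto δ atTop (𝓝 0)) {y0 : ℝ × ℝ} {σ B : ℝ}
    (hσ : 0 < σ) (hfr : ∀ᶠ n in atTop, ∃ (u0 : ℤ × ℤ) (ρ : ℕ), Gd72Frame (δ n) (F n) y0 σ u0 ρ) {α : ℝ × ℝ → ℝ} (hα : Gd72LocT y0 σ B α) :
    Tendsto (fun n => gd72Tot (δ n) (F n) α) atTop (𝓝 (∫ z, α z)) := by
  refine riem262_tendsto hα.cont (hα.comp' hσ.le) hδ hδ0 (fun n => cornersOf (F n)) ?_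
  filter_upwards [hfr] with n hn v hv
  obtain ⟨u0, ρ, fr⟩ := hn
  by_contra hc
  exact hv (fr.off hα v fun h => hc (fr.sub h))

/-- the neutralising coefficient -/
noncomputable def gd72Th (δ : ℝ) (F : Finset (ℤ × ℤ)) (α χ : ℝ × ℝ → ℝ) : ℝ := gd72Tot δ F α / gd72Tot δ F χ

theorem gd72_eqns_cite4 : True := by
  have := @gd72Th.eq_1
  trivial

theorem gd72_th_tendsto {δ : ℕ → ℝ} {F : ℕ → Finset (ℤ × ℤ)} (hδ : ∀ n, 0 < δ n) (hδ0 : Tendsto δ atTop (𝓝 0)) {y0 : ℝ × ℝ} {σ B : ℝ}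
    (hσ : 0 < σ) (hfr : ∀ᶠ n in atTop, ∃ (u0 : ℤ × ℤ) (ρ : ℕ), Gd72Frame (δ n) (F n) y0 σ u0 ρ) {α χ : ℝ × ℝ → ℝ} (hα : Gd72LocT y0 σ B α)
    (hχ : Gd72LocT y0 σ B χ) (hi : ∫ z, α z = 0) (hχ0 : 0 < ∫ z, χ z) :
    Tendsto (fun n => gd72Th (δ n) (F n) α χ) atTop (𝓝 0) := by
  have h := (gd72_tot_tendsto hδ hδ0 hσ hfr hα).div (gd72_tot_tendsto hδ hδ0 hσ hfr hχ) hχ0.ne'
  rw [hi, zero_div] at h
  exact h

theorem gd72_th_spec {δ : ℕ → ℝ} {F : ℕ → Finset (ℤ × ℤ)} (hδ : ∀ n, 0 < δ n) (hδ0 : Tendsto δ atTop (𝓝 0)) {y0 : ℝ × ℝ} {σ B : ℝ}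
    (hσ : 0 < σ) (hfr : ∀ᶠ n in atTop, ∃ (u0 : ℤ × ℤ) (ρ : ℕ), Gd72Frame (δ n) (F n) y0 σ u0 ρ) {χ : ℝ × ℝ → ℝ}
    (hχ : Gd72LocT y0 σ B χ) (hχ0 : 0 < ∫ z, χ z) :
    ∀ᶠ n in atTop, ∀ α : ℝ × ℝ → ℝ, gd72Tot (δ n) (F n) α = gd72Th (δ n) (F n) α χ * gd72Tot (δ n) (F n) χ := by
  filter_upwards [(gd72_tot_tendsto hδ hδ0 hσ hfr hχ).eventually (lt_mem_nhds hχ0)] with n hn α
  unfold gd72Th
  rw [div_mul_cancel₀ _ hn.ne']

/-- **the plane covariance of the neutralised pair** -/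
theorem gd72_cov_lim {t v : ℝ} (ht : 0 < t) (hP : Gd72Pl t) (hcov : AspPCF (aspGam (gd72Var t)) v) {δ : ℕ → ℝ} {F : ℕ → Finset (ℤ × ℤ)}
    (hδ : ∀ n, 0 < δ n) (hδ0 : Tendsto δ atTop (𝓝 0)) {y0 : ℝ × ℝ} {σ B : ℝ} (hσ : 0 < σ) (hB : 0 < B)
    (hfr : ∀ᶠ n in atTop, ∃ (u0 : ℤ × ℤ) (ρ : ℕ), Gd72Frame (δ n) (F n) y0 σ u0 ρ) {η α2 χ : ℝ × ℝ → ℝ} (hη : AspTest η)
    (hα1 : Gd72LocT y0 σ B fun y => -C0467.lap2 η y) (hi1 : ∫ z, -C0467.lap2 η z = 0) (hα2 : Gd72LocT y0 σ B α2) (hα2' : AspTest α2)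
    (hi2 : ∫ z, α2 z = 0) (hχ : Gd72LocT y0 σ B χ) (hχ0 : 0 < ∫ z, χ z) :
    Tendsto (fun n => gd72Pl t fun H => gd72Y (δ n) (F n) (fun y => -C0467.lap2 η y) χ (gd72Th (δ n) (F n) (fun y => -C0467.lap2 η y) χ) H *
      gd72Y (δ n) (F n) α2 χ (gd72Th (δ n) (F n) α2 χ) H) atTop (𝓝 (v * ∫ z, η z * α2 z)) := by
  obtain ⟨C, hC0, hC⟩ := gd72_cov_cmp ht hP
  set α1 : ℝ × ℝ → ℝ := fun y => -C0467.lap2 η y with hα1def
  -- the form of SPEC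
  have hS : Tendsto (fun n => aspGam (gd72Var t) (aspW (δ n) α1) (aspW (δ n) α2)) atTop (𝓝 (v * ∫ z, η z * α2 z)) := by
    have h1 := hcov (fun y => -η y) α2 ⟨hη.1.neg, hη.2.neg⟩ hα2' hi2
    have e1 : C0468.lap2 (fun y => -η y) = α1 := by
      funext z; exact wkg_lap_neg η z
    have e2 : -v * ∫ z, -η z * α2 z = v * ∫ z, η z * α2 z := by
      simp only [neg_mul, integral_neg]; ring
    rw [e1, e2] at h1
    exact h1.comp (tendsto_nhdsWithin_iff.2 ⟨hδ0, Eventually.of_forall hδ⟩)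
  rw [Metric.tendsto_nhds] at hS ⊢
  intro ε hε
  -- accuracy
  set e : ℝ := ε / (2 * (C + 1) * (2 * (3 * B))) with he
  have he0 : 0 < e := by positivity
  obtain ⟨q1, hq1, O1⟩ := riem262_osc hα1.cont (hα1.comp' hσ.le) (ε := e / (18 * σ ^ 2)) (by positivity)
  obtain ⟨q2, hq2, O2⟩ := riem262_osc hα2.cont (hα2.comp' hσ.le) (ε := e / (18 * σ ^ 2)) (by positivity)
  have T1 := gd72_th_tendsto hδ hδ0 hσ hfr hα1 hχ hi1 hχ0
  have T2 := gd72_th_tendsto hδ hδ0 hσ hfr hα2 hχ hi2 hχ0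
  have hm : 0 < min 1 (e / (2 * B)) := by positivity
  have T1' := (Metric.tendsto_nhds.1 T1) _ hm
  have T2' := (Metric.tendsto_nhds.1 T2) _ hm
  filter_upwards [hS (ε / 2) (by positivity), hfr, T1', T2', gd72_th_spec hδ hδ0 hσ hfr hχ hχ0, hδ0.eventually (gt_mem_nhds hq1),
    hδ0.eventually (gt_mem_nhds hq2)] with n h1 h2 h3 h4 h5 h6 h7
  obtain ⟨u0, ρ, fr⟩ := h2
  rw [Real.dist_eq, sub_zero] at h3 h4
  have hle : ∀ {θ : ℝ}, |θ| < min 1 (e / (2 * B)) → 9 * σ ^ 2 * (e / (18 * σ ^ 2)) + |θ| * B ≤ e := fun {θ} hθ => by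
    have a1 : |θ| ≤ e / (2 * B) := (hθ.trans_le (min_le_right _ _)).le
    have a2 : |θ| * B ≤ e / (2 * B) * B := mul_le_mul_of_nonneg_right a1 hB.le
    have a3 : e / (2 * B) * B = e / 2 := by field_simp
    have a4 : 9 * σ ^ 2 * (e / (18 * σ ^ 2)) = e / 2 := by field_simp; norm_num
    linarith
  have key := hC (δ n) (F n) y0 σ u0 ρ B α1 α2 χ _ _ (e / (18 * σ ^ 2)) e fr hB hα1 hα2 hχ hi1 hi2 (h3.trans_le (min_le_left _ _)).le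
    (h4.trans_le (min_le_left _ _)).le (h5 α1) (h5 α2) (by positivity) (O1 (δ n) (hδ n) h6) (O2 (δ n) (hδ n) h7) he0 (hle h3) (hle h4)
  have hsmall : C * (2 * e * (3 * B)) ≤ ε / 2 := by
    have a1 : C * (2 * e * (3 * B)) ≤ (C + 1) * (2 * e * (3 * B)) := mul_le_mul_of_nonneg_right (by linarith) (by positivity)
    have a3 : (C + 1) * (2 * e * (3 * B)) = ε / 2 := by
      rw [he]; field_simp
    linarith
  rw [Real.dist_eq] at h1 ⊢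
  have tri := abs_sub_le (gd72Pl t fun H => gd72Y (δ n) (F n) α1 χ (gd72Th (δ n) (F n) α1 χ) H * gd72Y (δ n) (F n) α2 χ (gd72Th (δ n) (F n) α2 χ) H)
    (aspGam (gd72Var t) (aspW (δ n) α1) (aspW (δ n) α2)) (v * ∫ z, η z * α2 z)
  linarith

/-! ## 12. The collision decoupling -/

/-- the standard bump -/
noncomputable def gd72Chi0 (y : ℝ × ℝ) : ℝ := max 0 (1 - C0467.sqDist y 0)

theorem gd72_eqns_cite5 : True := by
  have := @gd72Chi0.eq_1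
  trivial

theorem gd72_chi0_cont : Continuous gd72Chi0 := continuous_const.max (continuous_const.sub (wk_sq_continuous 0))

theorem gd72_chi0_abs (y : ℝ × ℝ) : |gd72Chi0 y| ≤ 1 := by
  unfold gd72Chi0
  rw [abs_of_nonneg (le_max_left _ _)]
  exact max_le zero_le_one (by linarith [wk_sq_nonneg y 0])

theorem gd72_chi0_off {C0 : ℝ} (hC0 : 1 ≤ C0) (y : ℝ × ℝ) (hy : y ∉ wkBall 0 C0) : gd72Chi0 y = 0 := by
  unfold gd72Chi0
  apply max_eq_left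
  have h1 : C0 ^ 2 < C0467.sqDist y 0 := not_le.1 hy
  nlinarith

theorem gd72_chi0_int : 0 < ∫ y, gd72Chi0 y := by
  refine gd72_chi0_cont.integral_pos_of_hasCompactSupport_nonneg_nonzero
    (HasCompactSupport.intro (wk_ball_compact 0 zero_le_one) fun y hy => gd72_chi0_off le_rfl y hy) (fun y => le_max_left _ _) (x := 0) ?_
  simp [gd72Chi0, C0467.sqDist]

theorem gd72_testV {β : ℝ × ℝ → ℝ} (hβ : Continuous β) {C0 A B : ℝ} (hC0 : 0 < C0) (hβ0 : ∀ y, y ∉ wkBall 0 C0 → β y = 0)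
    (hA : ∀ y, |β y| ≤ A) (hB : 9 * C0 ^ 2 * A ≤ B) (y0 : ℝ × ℝ) {r : ℝ} (hr : 0 < r) :
    Gd72LocT y0 (C0 * r) B fun y => (r ^ 2)⁻¹ * limSc β y0 r y := by
  have hc : Continuous (limSc β y0 r) := by unfold limSc; fun_prop
  refine ⟨continuous_const.mul hc, fun y hy => ?_, fun y => ?_⟩
  · rw [lim_sc_zero hβ0 y0 hr hy, mul_zero]
  · rw [abs_mul, abs_of_pos (by positivity : 0 < (r ^ 2)⁻¹)]
    have h1 : |limSc β y0 r y| ≤ A := hA _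
    have h2 : (r ^ 2)⁻¹ * |limSc β y0 r y| ≤ (r ^ 2)⁻¹ * A := mul_le_mul_of_nonneg_left h1 (by positivity)
    refine h2.trans ?_
    rw [le_div_iff₀ (by positivity)]
    have : (r ^ 2)⁻¹ * A * (9 * (C0 * r) ^ 2) = 9 * C0 ^ 2 * A := by field_simp
    rw [this]; exact hB

theorem gd72_testU {η : ℝ × ℝ → ℝ} (hη : ContDiff ℝ ∞ η) {C0 A B : ℝ} (hC0 : 0 < C0) (hη0 : ∀ y, y ∉ wkBall 0 C0 → η y = 0)
    (hA : ∀ y, |C0467.lap2 η y| ≤ A) (hB : 9 * C0 ^ 2 * A ≤ B) (y0 : ℝ × ℝ) {r : ℝ} (hr : 0 < r) :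
    Gd72LocT y0 (C0 * r) B fun y => -C0467.lap2 (limSc η y0 r) y := by
  have h := gd72_testV (β := fun y => -C0467.lap2 η y) (wkg_lap_smooth hη).continuous.neg hC0
    (fun y hy => by rw [lim_zero_off_lap hη0 y hy, neg_zero]) (fun y => by rw [abs_neg]; exact hA y) hB y0 hr
  have e : (fun y => -C0467.lap2 (limSc η y0 r) y) = fun y => (r ^ 2)⁻¹ * limSc (fun y => -C0467.lap2 η y) y0 r y := by
    funext y
    rw [lim_sc_lap]
    unfold limSc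
    ring
  rw [e]
  exact h

/-- the algebra of the neutralisation -/
theorem gd72_split (t d : ℝ) (F : Finset (ℤ × ℤ)) (α1 α2 χ : ℝ × ℝ → ℝ) (θ1 θ2 : ℝ) (s : Multiset (ℝ × ℝ → ℝ)) :
    gaussM t d F (α1 ::ₘ α2 ::ₘ s)
      = gd72E t F (fun H => (s.map fun g => gd72Sm d F g H).prod * (gd72Y d F α1 χ θ1 H * gd72Y d F α2 χ θ2 H))
        + θ2 * gaussM t d F (α1 ::ₘ χ ::ₘ s) + θ1 * gaussM t d F (χ ::ₘ α2 ::ₘ s) - θ1 * θ2 * gaussM t d F (χ ::ₘ χ ::ₘ s) := by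
  simp only [gd72_M_eq, Multiset.map_cons, Multiset.prod_cons]
  rw [← gd72_E_smul, ← gd72_E_smul, ← gd72_E_smul, ← gd72_E_add, ← gd72_E_add, ← gd72_E_sub]
  congr 1
  funext H
  unfold gd72Y
  ring

/-- **THE COLLISION DECOUPLING** TEX[eq:neutral-factorization] + TEX[eq:collision-local-limit], at the discrete level -/
theorem gd72_dec_top {t v : ℝ} (ht : 0 < t) (hP : Gd72Pl t) (hcov : AspPCF (aspGam (gd72Var t)) v) {D : Set (ℝ × ℝ)} {δ : ℕ → ℝ}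
    {F : ℕ → Finset (ℤ × ℤ)} (hF : IsAdmissibleApprox D δ F) (hSM : GaussSM t D δ F) (𝒰 : Ultrafilter ℕ) (hU : (𝒰 : Filter ℕ) ≤ atTop) :
    GaussDec t v D δ F 𝒰 := by
  intro K0 R0 hK0 hR0 hsub s hs hs0 η β hη hηc hβ hβc hint ε hε
  obtain ⟨C1, hC1, hη1⟩ := lim_exists_disc hηc
  obtain ⟨C2, hC2, hβ1⟩ := lim_exists_disc hβc
  set C0 : ℝ := max C1 C2 with hC0def
  have hC01 : 1 ≤ C0 := hC1.trans (le_max_left _ _)
  have hC0 : 0 < C0 := lt_of_lt_of_le one_pos hC01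
  have hη0 : ∀ y, y ∉ wkBall 0 C0 → η y = 0 := fun y hy => hη1 y fun h => hy (wk_ball_mono 0 (by linarith) (le_max_left _ _) h)
  have hβ0 : ∀ y, y ∉ wkBall 0 C0 → β y = 0 := fun y hy => hβ1 y fun h => hy (wk_ball_mono 0 (by linarith) (le_max_right _ _) h)
  obtain ⟨Aη, hAη⟩ := (wkg_lap_smooth hη).continuous.bounded_above_of_compact_support (wkg_lap_compact hηc)
  obtain ⟨Aβ, hAβ⟩ := hβ.continuous.bounded_above_of_compact_support hβc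
  set A : ℝ := max (max Aη Aβ) 1 with hAdef
  have hA1 : ∀ y, |C0467.lap2 η y| ≤ A := fun y => (hAη y).trans ((le_max_left _ _).trans (le_max_left _ _))
  have hA2 : ∀ y, |β y| ≤ A := fun y => (hAβ y).trans ((le_max_right _ _).trans (le_max_left _ _))
  have hA3 : ∀ y, |gd72Chi0 y| ≤ A := fun y => (gd72_chi0_abs y).trans (le_max_right _ _)
  have hA0 : 0 ≤ A := (abs_nonneg _).trans (hA2 0)
  set B : ℝ := 9 * C0 ^ 2 * A + 1 with hBdef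
  have hB0 : 0 < B := by positivity
  have hBle : 9 * C0 ^ 2 * A ≤ B := by linarith
  obtain ⟨K1, κ, s0, hK1, hκ, hs0', -, Hloc⟩ := gd72_dec_loc ht hP hF hSM hK0 hR0 hsub s hs hs0 hB0
  obtain ⟨Cs, hCs⟩ := gd72_M_bdd ht hSM hs
  have hrate : ∀ᶠ σ in 𝓝[>] (0 : ℝ), K1 * ((σ ^ (-(κ / 3))) ^ 2 * σ ^ κ + (1 + Real.log (1 / σ)) ^ 4 / σ ^ (-(κ / 3))) < ε / 3 := by
    have := (lim_dec_rate hκ).const_mul K1
    rw [mul_zero] at this
    exact this.eventually (gt_mem_nhds (by positivity))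
  obtain ⟨s1, hs1, Hs1⟩ := mem_nhdsGT_iff_exists_Ioo_subset.1 hrate
  have hs1' : 0 < s1 := hs1
  refine ⟨min (min s0 s1) R0 / C0, by positivity, fun y0 hy0 r hr hr0 => ?_⟩
  have hσ : 0 < C0 * r := by positivity
  have hsm : C0 * r < min (min s0 s1) R0 := by
    rw [lt_div_iff₀ hC0] at hr0; linarith
  have hss0 : C0 * r ≤ s0 := (hsm.trans_le ((min_le_left _ _).trans (min_le_left _ _))).le
  have hss1 : C0 * r < s1 := hsm.trans_le ((min_le_left _ _).trans (min_le_right _ _))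
  have hsR : C0 * r ≤ R0 := (hsm.trans_le (min_le_right _ _)).le
  have hσD : wkBall y0 (C0 * r) ⊆ D := (wk_ball_mono y0 hσ.le hsR).trans (hsub y0 hy0)
  set σ : ℝ := C0 * r with hσdef
  set α1 : ℝ × ℝ → ℝ := fun y => -C0467.lap2 (limSc η y0 r) y with hα1def
  set α2 : ℝ × ℝ → ℝ := fun y => (r ^ 2)⁻¹ * limSc β y0 r y with hα2def
  set χ : ℝ × ℝ → ℝ := fun y => (r ^ 2)⁻¹ * limSc gd72Chi0 y0 r y with hχdef
  have hα1 : Gd72LocT y0 σ B α1 := gd72_testU hη hC0 hη0 hA1 hBle y0 hr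
  have hα2 : Gd72LocT y0 σ B α2 := gd72_testV hβ.continuous hC0 hβ0 hA2 hBle y0 hr
  have hχ : Gd72LocT y0 σ B χ := gd72_testV gd72_chi0_cont hC0 (gd72_chi0_off hC01) hA3 hBle y0 hr
  have hloc := Hloc y0 hy0 σ hσ hss0 α1 α2 χ hα1 hα2 hχ
  have hfr : ∀ᶠ n in atTop, ∃ (u0 : ℤ × ℤ) (ρ : ℕ), Gd72Frame (δ n) (F n) y0 σ u0 ρ := hloc.mono fun n hn => hn.1
  have hscint : ∀ g : ℝ × ℝ → ℝ, ∫ y, (r ^ 2)⁻¹ * limSc g y0 r y = ∫ y, g y := fun g => by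
    rw [integral_const_mul]
    have := lim_int_sc g y0 hr
    unfold limSc
    rw [this, ← mul_assoc, inv_mul_cancel₀ (by positivity), one_mul]
  have hi1 : ∫ z, α1 z = 0 := by
    rw [hα1def, integral_neg, lim_int_lap (lim_sc_contDiff hη y0 r) (lim_sc_compact hC0.le hη0 y0 hr), neg_zero]
  have hi2 : ∫ z, α2 z = 0 := by rw [hα2def, hscint, hint]
  have hχ0 : 0 < ∫ z, χ z := by rw [hχdef, hscint]; exact gd72_chi0_int
  have hcovl := gd72_cov_lim ht hP hcov hF.1 hF.2.1 hσ hB0 hfr (η := limSc η y0 r)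
    ⟨lim_sc_contDiff hη y0 r, lim_sc_compact hC0.le hη0 y0 hr⟩ hα1 hi1 hα2
    ⟨contDiff_const.mul (lim_sc_contDiff hβ y0 r), (lim_sc_compact hC0.le hβ0 y0 hr).mul_left⟩ hi2 hχ hχ0
  have eI : ∫ y, limSc η y0 r y * α2 y = ∫ y, η y * β y := by
    have h1 := lim_int_sc (fun y => η y * β y) y0 hr
    have h2 : (fun y => limSc η y0 r y * α2 y) = fun y => (r ^ 2)⁻¹ * (η (r⁻¹ • (y - y0)) * β (r⁻¹ • (y - y0))) := by
      funext y; rw [hα2def]; unfold limSc; ring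
    rw [h2, integral_const_mul, h1, ← mul_assoc, inv_mul_cancel₀ (by positivity), one_mul]
  rw [eI] at hcovl
  have w1 := hα1.test hσ.le hσD
  have w2 := hα2.test hσ.le hσD
  have wχ := hχ.test hσ.le hσD
  obtain ⟨Ca, hCa⟩ := gd72_M_bdd ht hSM (s := α1 ::ₘ χ ::ₘ s) (lm_mem_cons (V := lmV D) w1 (lm_mem_cons (V := lmV D) wχ hs))
  obtain ⟨Cb, hCb⟩ := gd72_M_bdd ht hSM (s := χ ::ₘ α2 ::ₘ s) (lm_mem_cons (V := lmV D) wχ (lm_mem_cons (V := lmV D) w2 hs))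
  obtain ⟨Cc, hCc⟩ := gd72_M_bdd ht hSM (s := χ ::ₘ χ ::ₘ s) (lm_mem_cons (V := lmV D) wχ (lm_mem_cons (V := lmV D) wχ hs))
  set Ct : ℝ := 1 + |Ca| + |Cb| + |Cc| with hCt
  have hCt0 : 0 < Ct := by positivity
  have T1 := (Metric.tendsto_nhds.1 (gd72_th_tendsto hF.1 hF.2.1 hσ hfr hα1 hχ hi1 hχ0)) (min 1 (ε / (9 * Ct))) (by positivity)
  have T2 := (Metric.tendsto_nhds.1 (gd72_th_tendsto hF.1 hF.2.1 hσ hfr hα2 hχ hi2 hχ0)) (min 1 (ε / (9 * Ct))) (by positivity)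
  have hcov' := (Metric.tendsto_nhds.1 hcovl) (ε / (3 * (1 + |Cs|))) (by positivity)
  have hr1 := Hs1 (show σ ∈ Ioo 0 s1 from ⟨hσ, hss1⟩)
  refine Filter.Eventually.filter_mono hU ?_
  filter_upwards [hloc, hCs, hCa, hCb, hCc, T1, T2, hcov', gd72_th_spec hF.1 hF.2.1 hσ hfr hχ hχ0] with n h1 h2 h3 h4 h5 h6 h7 h8 h9
  rw [Real.dist_eq, sub_zero] at h6 h7
  rw [Real.dist_eq] at h8
  set θ1 : ℝ := gd72Th (δ n) (F n) α1 χ with hθ1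
  set θ2 : ℝ := gd72Th (δ n) (F n) α2 χ with hθ2
  have b1 : |θ1| ≤ 1 := (h6.trans_le (min_le_left _ _)).le
  have b2 : |θ2| ≤ 1 := (h7.trans_le (min_le_left _ _)).le
  have c1 : |θ1| ≤ ε / (9 * Ct) := (h6.trans_le (min_le_right _ _)).le
  have c2 : |θ2| ≤ ε / (9 * Ct) := (h7.trans_le (min_le_right _ _)).le
  have key := (h1.2 θ1 θ2 b1 b2 (h9 α1) (h9 α2) (σ ^ (-(κ / 3))) (Real.rpow_pos_of_pos hσ _)).trans hr1.le
  rw [gd72_split t (δ n) (F n) α1 α2 χ θ1 θ2 s]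
  set E0 : ℝ := gd72E t (F n) (fun H => (s.map fun g => gd72Sm (δ n) (F n) g H).prod * (gd72Y (δ n) (F n) α1 χ θ1 H * gd72Y (δ n) (F n) α2 χ θ2 H))
  set P : ℝ := gd72Pl t fun H => gd72Y (δ n) (F n) α1 χ θ1 H * gd72Y (δ n) (F n) α2 χ θ2 H
  set I : ℝ := ∫ y, η y * β y
  set Ms : ℝ := gaussM t (δ n) (F n) s
  have t2 : |Ms * (P - v * I)| ≤ ε / 3 := by
    rw [abs_mul]
    have hMs : |Ms| ≤ 1 + |Cs| := by linarith [le_abs_self Cs]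
    have : |Ms| * |P - v * I| ≤ (1 + |Cs|) * (ε / (3 * (1 + |Cs|))) := mul_le_mul hMs h8.le (abs_nonneg _) (by positivity)
    refine this.trans (le_of_eq ?_)
    field_simp
  have hq : ε / (9 * Ct) * Ct = ε / 9 := by field_simp
  have t3 : |θ2 * gaussM t (δ n) (F n) (α1 ::ₘ χ ::ₘ s)| ≤ ε / 9 := by
    rw [abs_mul, ← hq]
    exact mul_le_mul c2 (h3.trans (by rw [hCt]; linarith [le_abs_self Ca, abs_nonneg Cb, abs_nonneg Cc])) (abs_nonneg _) (by positivity)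
  have t4 : |θ1 * gaussM t (δ n) (F n) (χ ::ₘ α2 ::ₘ s)| ≤ ε / 9 := by
    rw [abs_mul, ← hq]
    exact mul_le_mul c1 (h4.trans (by rw [hCt]; linarith [le_abs_self Cb, abs_nonneg Ca, abs_nonneg Cc])) (abs_nonneg _) (by positivity)
  have t5 : |θ1 * θ2 * gaussM t (δ n) (F n) (χ ::ₘ χ ::ₘ s)| ≤ ε / 9 := by
    rw [abs_mul, abs_mul, ← hq]
    refine mul_le_mul ((mul_le_of_le_one_right (abs_nonneg _) b2).trans c1)
      (h5.trans (by rw [hCt]; linarith [le_abs_self Cc, abs_nonneg Ca, abs_nonneg Cb])) (abs_nonneg _) (by positivity)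
  have e2 : E0 + θ2 * gaussM t (δ n) (F n) (α1 ::ₘ χ ::ₘ s) + θ1 * gaussM t (δ n) (F n) (χ ::ₘ α2 ::ₘ s)
        - θ1 * θ2 * gaussM t (δ n) (F n) (χ ::ₘ χ ::ₘ s) - v * I * Ms
      = (E0 - Ms * P) + Ms * (P - v * I) + θ2 * gaussM t (δ n) (F n) (α1 ::ₘ χ ::ₘ s) + θ1 * gaussM t (δ n) (F n) (χ ::ₘ α2 ::ₘ s)
        + -(θ1 * θ2 * gaussM t (δ n) (F n) (χ ::ₘ χ ::ₘ s)) := by ring
  rw [e2]
  refine (abs_add_le _ _).trans ?_
  rw [abs_neg]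
  have u1 := abs_add_le ((E0 - Ms * P) + Ms * (P - v * I) + θ2 * gaussM t (δ n) (F n) (α1 ::ₘ χ ::ₘ s)) (θ1 * gaussM t (δ n) (F n) (χ ::ₘ α2 ::ₘ s))
  have u2 := abs_add_le ((E0 - Ms * P) + Ms * (P - v * I)) (θ2 * gaussM t (δ n) (F n) (α1 ::ₘ χ ::ₘ s))
  have u3 := abs_add_le (E0 - Ms * P) (Ms * (P - v * I))
  linarith

/-- **the contract `gauss_dec` of Exit/GAUSS**, from the plane package, the exit of SPEC for the variogram of the plane law, and `gauss_sm` -/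
theorem gd72_dec {t : ℝ} (ht : 0 < t) (hP : Gd72Pl t) (hS : ∃ v : ℝ, 0 < v ∧ AspPCF (aspGam (gd72Var t)) v)
    (hSM : ∀ (D : Set (ℝ × ℝ)), GaussDom D → ∀ (δ : ℕ → ℝ) (F : ℕ → Finset (ℤ × ℤ)), IsAdmissibleApprox D δ F → GaussSM t D δ F) :
    ∃ v : ℝ, 0 < v ∧ ∀ (δ : ℕ → ℝ) (𝒰 : Ultrafilter ℕ), (𝒰 : Filter ℕ) ≤ atTop →
      ∀ (D : Set (ℝ × ℝ)), GaussDom D → ∀ F : ℕ → Finset (ℤ × ℤ), IsAdmissibleApprox D δ F → GaussDec t v D δ F 𝒰 := by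
  obtain ⟨v, hv, hcov⟩ := hS
  exact ⟨v, hv, fun δ 𝒰 hU D hD F hF => gd72_dec_top ht hP hcov hF (hSM D hD δ F hF) 𝒰 hU⟩

end Claimed.Agent.R292
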