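import Claimed.Agent.R292.Defs.GAUSS
import Claimed.Agent.R292.Exit.RSW

/-!
# Row 292 (S0540), Gauss/Sm182 : CONTRACT `gauss_sm` (A0 + A1) CLOSED FROM `exit_rsw_mom_smear`      (owner helper182, unit GAUSS; prefix `gsm182_`, defs `gsm182*`, `Gsm182*`)

Port of R291 `Lim/Sm` to the square lattice and to `IsAdmissibleApprox` of Def_0468 (NOT an inside approximation: the region may stick out of `D`).   0 sorry of its own.
TEX[prop:log-moments] TEX[lem:flat-tightness] (06-gaussian.tex): the lattice log-moment bound, read on Riemann weights `δ² g(δ v)`.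

1. `gsm182_sum_powerset`, `gsm182_sum_open`   sums over subsets = sums over Bool fields;  the sum over the `W` edges of a product of edge factors = product of sums
2. **`gsm182_rswSum`, `gsm182_rswE`**         THE DICTIONARY RSW -> Def_0468: the marginal of the flat `(S, D, O)` problem of Defs/RSW (plus boundary) on the spins is `t ^ atDisagreements` on the
                                              admissible pairs:  `rswE t F true (fun ω => Y (rswTau F ω, rswTauD F ω)) = lmE (at92Adm F) (at92W t) Y`   for EVERY finite `F`, every `t`, every `Y`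
   (`gsm182_adm_iff`: admissible = boundary condition + no interior edge pair with two disagreements;  `gsm182_disagree`: `atDisagreements` = sum over `rswInt F`; boundary edges carry none)
3. geometry: `gsm182_jordan_approx` (`RswJordan (F n)`, by dilation), `gsm182_face_of_centre`, `gsm182_centre_of_face`, `gsm182_meets_frontier`, `gsm182_left_of_frontier`,
   `gsm182_out` (the faces of `F n` stay in a fixed half plane: the frontier is uniformly close to that of `D`), `gsm182_in` (a fixed neighbourhood of a compact `K ⊆ D` is eventually covered)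
4. `gsm182_radii`, `gsm182_core`              one mesh: weights `|W v| ≤ M d²` carried by a disc of radius `r`:  `E (∑ W H)^(2m) ≤ C (M r²)^(2m) (1 + log 1/r)^m`
5. `gsm182_w`, `gsm182_small`, `gsm182_fixed` (UNIFORM in the weights / in `g`; no regularity of `g`),  **`gsm182_sm : Gsm182In t → GaussSM t D δ F`**,
   **`gsm182_gauss_sm`** = the statement of `gauss_sm` (Exit/GAUSS) verbatim, from `exit_rsw_mom_smear`.
-/

set_option autoImplicit false

namespace Claimed.Agent.R292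

open MeasureTheory Filter Topology Set
open Claims Claims.C0468 Claimed.Agent.R291

/-! ### 1. sums over subsets = sums over Bool fields -/

/-- the set of plus sites of a Bool field on `s` -/
def gsm182Set {α : Type*} (s : Finset α) (τ : s → Bool) : Finset α :=
  (Finset.univ.filter (fun v : s => τ v = true)).map (Function.Embedding.subtype _)

theorem gsm182_mem_set {α : Type*} (s : Finset α) (τ : s → Bool) (v : α) :
    v ∈ gsm182Set s τ ↔ ∃ h : v ∈ s, τ ⟨v, h⟩ = true := by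
  unfold gsm182Set
  simp only [Finset.mem_map, Finset.mem_filter, Finset.mem_univ, true_and, Function.Embedding.coe_subtype]
  constructor
  · rintro ⟨⟨a, ha⟩, h1, rfl⟩
    exact ⟨ha, h1⟩
  · rintro ⟨h, h1⟩
    exact ⟨⟨v, h⟩, h1, rfl⟩

theorem gsm182_set_subset {α : Type*} (s : Finset α) (τ : s → Bool) : gsm182Set s τ ⊆ s := by
  intro v hv
  exact ((gsm182_mem_set s τ v).1 hv).1

theorem gsm182_sum_powerset {α : Type*} [DecidableEq α] (s : Finset α) (f : Finset α → ℝ) :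
    ∑ S ∈ s.powerset, f S = ∑ τ : s → Bool, f (gsm182Set s τ) := by
  refine Finset.sum_bij' (fun S _ => fun v : s => decide (v.1 ∈ S)) (fun τ _ => gsm182Set s τ)
    (fun _ _ => Finset.mem_univ _) (fun τ _ => Finset.mem_powerset.2 (gsm182_set_subset s τ)) ?_ ?_ ?_
  · intro S hS
    ext v
    rw [gsm182_mem_set]
    constructor
    · rintro ⟨_, h1⟩
      simpa using h1
    · intro hv
      exact ⟨Finset.mem_powerset.1 hS hv, by simpa using hv⟩
  · intro τ _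
    funext v
    by_cases h : τ v = true
    · rw [h]
      simp only [decide_eq_true_eq]
      exact (gsm182_mem_set s τ v).2 ⟨v.2, h⟩
    · have h' : τ v = false := by simpa using h
      rw [h']
      simp only [decide_eq_false_iff_not]
      intro hv
      obtain ⟨_, h1⟩ := (gsm182_mem_set s τ v).1 hv
      exact h h1
  · intro S hS
    congr 1
    ext v
    rw [gsm182_mem_set]
    constructor
    · intro hv
      exact ⟨Finset.mem_powerset.1 hS hv, by simpa using hv⟩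
    · rintro ⟨_, h1⟩
      simpa using h1

/-- the sum over the open edges -/
theorem gsm182_sum_open {ι : Type*} [DecidableEq ι] (s : Finset ι) (a b : ι → ℝ) :
    ∑ O ∈ s.powerset, ∏ e ∈ s, (if e ∈ O then a e else b e) = ∏ e ∈ s, (a e + b e) := by
  rw [Finset.prod_add]
  refine Finset.sum_congr rfl fun O hO => ?_
  have hO' := Finset.mem_powerset.1 hO
  rw [Finset.prod_ite]
  congr 1
  · congr 1
    ext e
    simp only [Finset.mem_filter]
    exact ⟨fun h => h.2, fun h => ⟨hO' h, h⟩⟩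
  · congr 1
    ext e
    simp only [Finset.mem_filter, Finset.mem_sdiff]


/-! ### 2. the dictionary  (S, D) <-> (τ, τd) -/

theorem gsm182_spin_iff {F : Finset (ℤ × ℤ)} (τ : cornersOf F → Bool) {v : ℤ × ℤ} (hv : v ∈ cornersOf F) :
    v ∈ gsm182Set (cornersOf F) τ ↔ atSpin τ v = 1 := by
  rw [gsm182_mem_set]
  unfold atSpin
  rw [dif_pos hv]
  constructor
  · rintro ⟨_, h⟩
    rw [if_pos h]
  · intro h
    refine ⟨hv, ?_⟩
    by_contra hc
    rw [if_neg hc] at h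
    omega

theorem gsm182_dual_iff {F : Finset (ℤ × ℤ)} (τd : F → Bool) {f : ℤ × ℤ} (hf : f ∈ F) :
    f ∈ gsm182Set F τd ↔ atDual τd f = 1 := by
  rw [gsm182_mem_set]
  unfold atDual
  rw [dif_pos hf]
  constructor
  · rintro ⟨_, h⟩
    rw [if_pos h]
  · intro h
    refine ⟨hf, ?_⟩
    by_contra hc
    rw [if_neg hc] at h
    omega

theorem gsm182_spin_agree {F : Finset (ℤ × ℤ)} (τ : cornersOf F → Bool) {v v' : ℤ × ℤ} (hv : v ∈ cornersOf F)
    (hv' : v' ∈ cornersOf F) :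
    (v ∈ gsm182Set (cornersOf F) τ ↔ v' ∈ gsm182Set (cornersOf F) τ) ↔ atSpin τ v = atSpin τ v' := by
  rw [gsm182_spin_iff τ hv, gsm182_spin_iff τ hv']
  rcases at92_spin_sq τ v with h | h <;> rcases at92_spin_sq τ v' with h' | h' <;> rw [h, h'] <;> simp

theorem gsm182_dual_agree {F : Finset (ℤ × ℤ)} (τd : F → Bool) {f f' : ℤ × ℤ} (hf : f ∈ F) (hf' : f' ∈ F) :
    (f ∈ gsm182Set F τd ↔ f' ∈ gsm182Set F τd) ↔ atDual τd f = atDual τd f' := by
  rw [gsm182_dual_iff τd hf, gsm182_dual_iff τd hf']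
  rcases at92_dual_sq τd f with h | h <;> rcases at92_dual_sq τd f' with h' | h' <;> rw [h, h'] <;> simp

theorem gsm182_tau {F : Finset (ℤ × ℤ)} (τ : cornersOf F → Bool) (D : Finset (ℤ × ℤ)) (O : Finset ((ℤ × ℤ) × Bool)) :
    rswTau F ⟨gsm182Set (cornersOf F) τ, D, O⟩ = τ := by
  funext v
  unfold rswTau
  by_cases h : τ v = true
  · rw [h]
    simp only [decide_eq_true_eq]
    exact (gsm182_mem_set _ τ v).2 ⟨v.2, h⟩
  · have h' : τ v = false := by simpa using h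
    rw [h']
    simp only [decide_eq_false_iff_not]
    intro hv
    obtain ⟨_, h1⟩ := (gsm182_mem_set _ τ v).1 hv
    exact h h1

theorem gsm182_tauD {F : Finset (ℤ × ℤ)} (τd : F → Bool) (S : Finset (ℤ × ℤ)) (O : Finset ((ℤ × ℤ) × Bool)) :
    rswTauD F ⟨S, gsm182Set F τd, O⟩ = τd := by
  funext v
  unfold rswTauD
  by_cases h : τd v = true
  · rw [h]
    simp only [decide_eq_true_eq]
    exact (gsm182_mem_set _ τd v).2 ⟨v.2, h⟩
  · have h' : τd v = false := by simpa using h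
    rw [h']
    simp only [decide_eq_false_iff_not]
    intro hv
    obtain ⟨_, h1⟩ := (gsm182_mem_set _ τd v).1 hv
    exact h h1

/-! corners -/

theorem gsm182_corner0 {F : Finset (ℤ × ℤ)} {f : ℤ × ℤ} (hf : f ∈ F) : f ∈ cornersOf F := by
  unfold cornersOf
  exact Finset.mem_biUnion.2 ⟨f, hf, by simp⟩

theorem gsm182_corner1 {F : Finset (ℤ × ℤ)} {f : ℤ × ℤ} (hf : f ∈ F) : (f.1 + 1, f.2) ∈ cornersOf F := by
  unfold cornersOf
  exact Finset.mem_biUnion.2 ⟨f, hf, by simp⟩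

theorem gsm182_corner2 {F : Finset (ℤ × ℤ)} {f : ℤ × ℤ} (hf : f ∈ F) : (f.1, f.2 + 1) ∈ cornersOf F := by
  unfold cornersOf
  exact Finset.mem_biUnion.2 ⟨f, hf, by simp⟩

theorem gsm182_corner3 {F : Finset (ℤ × ℤ)} {f : ℤ × ℤ} (hf : f ∈ F) : (f.1 + 1, f.2 + 1) ∈ cornersOf F := by
  unfold cornersOf
  exact Finset.mem_biUnion.2 ⟨f, hf, by simp⟩

theorem gsm182_mem_int {F : Finset (ℤ × ℤ)} (e : (ℤ × ℤ) × Bool) : e ∈ rswInt F ↔ e.1 ∈ F ∧ rswCo e ∈ F := by
  unfold rswInt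
  simp [Finset.mem_filter, Finset.mem_product]

theorem gsm182_end_corner {F : Finset (ℤ × ℤ)} {e : (ℤ × ℤ) × Bool} (he : e.1 ∈ F) : rswEnd e ∈ cornersOf F := by
  unfold rswEnd
  split_ifs
  · exact gsm182_corner2 he
  · exact gsm182_corner1 he

/-- the boundary condition in spin words -/
def Gsm182Bc {F : Finset (ℤ × ℤ)} (τ : cornersOf F → Bool) : Prop :=
  ∀ v ∈ cornersOf F, OnPolygon F v → atSpin τ v = 1

theorem gsm182_bc_iff {F : Finset (ℤ × ℤ)} (τ : cornersOf F → Bool) (D : Finset (ℤ × ℤ)) (O : Finset ((ℤ × ℤ) × Bool)) :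
    RswBc F true ⟨gsm182Set (cornersOf F) τ, D, O⟩ ↔ Gsm182Bc τ := by
  unfold RswBc Gsm182Bc
  refine forall_congr' fun v => forall_congr' fun hv => forall_congr' fun _ => ?_
  simp only [iff_true]
  exact gsm182_spin_iff τ hv

/-- the factor of one interior edge after the sum over its `W` state -/
noncomputable def gsm182Fac (t : ℝ) {F : Finset (ℤ × ℤ)} (τ : cornersOf F → Bool) (τd : F → Bool) (e : (ℤ × ℤ) × Bool) : ℝ :=
  open Classical in
  if atSpin τ e.1 = atSpin τ (rswEnd e) then (if atDual τd e.1 = atDual τd (rswCo e) then 1 else t)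
  else (if atDual τd e.1 = atDual τd (rswCo e) then t else 0)

/-- number of disagreements carried by one interior edge pair -/
noncomputable def gsm182Num {F : Finset (ℤ × ℤ)} (τ : cornersOf F → Bool) (τd : F → Bool) (e : (ℤ × ℤ) × Bool) : ℕ :=
  open Classical in
  (if atSpin τ e.1 = atSpin τ (rswEnd e) then 0 else 1) + (if atDual τd e.1 = atDual τd (rswCo e) then 0 else 1)

theorem gsm182_adm_iff {F : Finset (ℤ × ℤ)} (τ : cornersOf F → Bool) (τd : F → Bool) :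
    IsAdmissibleSpins τ τd ↔ Gsm182Bc τ ∧ ∀ e ∈ rswInt F,
      atSpin τ e.1 = atSpin τ (rswEnd e) ∨ atDual τd e.1 = atDual τd (rswCo e) := by
  unfold IsAdmissibleSpins Gsm182Bc
  refine and_congr Iff.rfl ?_
  constructor
  · rintro h ⟨v, b⟩ he
    rw [gsm182_mem_int] at he
    obtain ⟨h1, h2⟩ := h v (gsm182_corner0 he.1)
    cases b with
    | false =>
      have h3 := h1 ⟨he.1, by simpa [rswCo] using he.2⟩
      rcases mul_eq_zero.1 h3 with h4 | h4
      · left; simp only [rswEnd]; simpa using sub_eq_zero.1 h4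
      · right; simp only [rswCo]; simpa using sub_eq_zero.1 h4
    | true =>
      have h3 := h2 ⟨he.1, by simpa [rswCo] using he.2⟩
      rcases mul_eq_zero.1 h3 with h4 | h4
      · left; simp only [rswEnd]; simpa using sub_eq_zero.1 h4
      · right; simp only [rswCo]; simpa using sub_eq_zero.1 h4
  · intro h v _
    constructor
    · rintro ⟨h1, h2⟩
      have h3 := h (v, false) ((gsm182_mem_int _).2 ⟨h1, by simpa [rswCo] using h2⟩)
      simp only [rswEnd, rswCo] at h3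
      rcases h3 with h4 | h4
      · have : atSpin τ v = atSpin τ (v.1 + 1, v.2) := by simpa using h4
        rw [this]; simp
      · have : atDual τd v = atDual τd (v.1, v.2 - 1) := by simpa using h4
        rw [this]; simp
    · rintro ⟨h1, h2⟩
      have h3 := h (v, true) ((gsm182_mem_int _).2 ⟨h1, by simpa [rswCo] using h2⟩)
      simp only [rswEnd, rswCo] at h3
      rcases h3 with h4 | h4
      · have : atSpin τ v = atSpin τ (v.1, v.2 + 1) := by simpa using h4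
        rw [this]; simp
      · have : atDual τd v = atDual τd (v.1 - 1, v.2) := by simpa using h4
        rw [this]; simp

theorem gsm182_sum_int (F : Finset (ℤ × ℤ)) (h : (ℤ × ℤ) × Bool → ℕ) :
    ∑ e ∈ rswInt F, h e = ∑ v ∈ cornersOf F,
      ((if v ∈ F ∧ (v.1, v.2 - 1) ∈ F then h (v, false) else 0) + (if v ∈ F ∧ (v.1 - 1, v.2) ∈ F then h (v, true) else 0)) := by
  unfold rswInt
  rw [Finset.sum_filter, Finset.sum_product]
  have hsub : F ⊆ cornersOf F := fun f hf => gsm182_corner0 hf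
  rw [← Finset.sum_subset hsub]
  · refine Finset.sum_congr rfl fun v hv => ?_
    rw [Fintype.sum_bool]
    simp only [rswCo, hv, true_and]
    simp only [if_true, Bool.false_eq_true, if_false]
    rw [add_comm]
  · intro v _ hv
    simp [hv]


/-- a horizontal boundary edge carries no disagreement -/
theorem gsm182_bdry_h {F : Finset (ℤ × ℤ)} {τ : cornersOf F → Bool} (hbc : Gsm182Bc τ) {v : ℤ × ℤ}
    (h1 : v ∈ F ∨ (v.1, v.2 - 1) ∈ F) (h2 : ¬ (v ∈ F ∧ (v.1, v.2 - 1) ∈ F)) :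
    atSpin τ v = atSpin τ (v.1 + 1, v.2) := by
  have hc : v ∈ cornersOf F ∧ (v.1 + 1, v.2) ∈ cornersOf F := by
    rcases h1 with h | h
    · exact ⟨gsm182_corner0 h, gsm182_corner1 h⟩
    · have a := gsm182_corner2 h
      have b := gsm182_corner3 h
      simp only [sub_add_cancel] at a b
      exact ⟨a, b⟩
  have p1 : OnPolygon F v := by
    unfold OnPolygon
    rintro ⟨a, _, b, _⟩
    exact h2 ⟨a, b⟩
  have p2 : OnPolygon F (v.1 + 1, v.2) := by
    unfold OnPolygon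
    rintro ⟨_, a, _, b⟩
    simp only [add_sub_cancel_right] at a b
    exact h2 ⟨a, b⟩
  rw [hbc _ hc.1 p1, hbc _ hc.2 p2]

/-- a vertical boundary edge carries no disagreement -/
theorem gsm182_bdry_v {F : Finset (ℤ × ℤ)} {τ : cornersOf F → Bool} (hbc : Gsm182Bc τ) {v : ℤ × ℤ}
    (h1 : v ∈ F ∨ (v.1 - 1, v.2) ∈ F) (h2 : ¬ (v ∈ F ∧ (v.1 - 1, v.2) ∈ F)) :
    atSpin τ v = atSpin τ (v.1, v.2 + 1) := by
  have hc : v ∈ cornersOf F ∧ (v.1, v.2 + 1) ∈ cornersOf F := by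
    rcases h1 with h | h
    · exact ⟨gsm182_corner0 h, gsm182_corner2 h⟩
    · have a := gsm182_corner1 h
      have b := gsm182_corner3 h
      simp only [sub_add_cancel] at a b
      exact ⟨a, b⟩
  have p1 : OnPolygon F v := by
    unfold OnPolygon
    rintro ⟨a, b, _, _⟩
    exact h2 ⟨a, b⟩
  have p2 : OnPolygon F (v.1, v.2 + 1) := by
    unfold OnPolygon
    rintro ⟨_, _, a, b⟩
    simp only [add_sub_cancel_right] at a b
    exact h2 ⟨a, b⟩
  rw [hbc _ hc.1 p1, hbc _ hc.2 p2]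

theorem gsm182_ite_arith (A1 A2 P1 P2 Q1 Q2 : Prop) [Decidable A1] [Decidable A2] [Decidable P1] [Decidable P2]
    [Decidable Q1] [Decidable Q2] [Decidable (A1 ∧ ¬ P1)] [Decidable (A2 ∧ ¬ P2)] [Decidable (A1 ∧ ¬ Q1)] [Decidable (A2 ∧ ¬ Q2)] :
    (if A1 ∧ ¬ P1 then 1 else 0 : ℕ) + (if A2 ∧ ¬ P2 then 1 else 0) + (if A1 ∧ ¬ Q1 then 1 else 0) +
      (if A2 ∧ ¬ Q2 then 1 else 0) =
    (if A1 then (if P1 then 0 else 1) + (if Q1 then 0 else 1) else 0) +
      (if A2 then (if P2 then 0 else 1) + (if Q2 then 0 else 1) else 0) := by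
  by_cases a1 : A1 <;> by_cases a2 : A2 <;> by_cases p1 : P1 <;> by_cases p2 : P2 <;> by_cases q1 : Q1 <;>
    by_cases q2 : Q2 <;> simp [a1, a2, p1, p2, q1, q2]

theorem gsm182_disagree {F : Finset (ℤ × ℤ)} (τ : cornersOf F → Bool) (τd : F → Bool) (hbc : Gsm182Bc τ) :
    atDisagreements τ τd = ∑ e ∈ rswInt F, gsm182Num τ τd e := by
  classical
  rw [gsm182_sum_int]
  unfold atDisagreements
  refine Finset.sum_congr rfl fun v _ => ?_
  have e1 : (if (v ∈ F ∨ (v.1, v.2 - 1) ∈ F) ∧ atSpin τ v ≠ atSpin τ (v.1 + 1, v.2) then 1 else 0 : ℕ) =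
      if (v ∈ F ∧ (v.1, v.2 - 1) ∈ F) ∧ atSpin τ v ≠ atSpin τ (v.1 + 1, v.2) then 1 else 0 := by
    by_cases h2 : v ∈ F ∧ (v.1, v.2 - 1) ∈ F
    · simp [h2]
    · by_cases h1 : v ∈ F ∨ (v.1, v.2 - 1) ∈ F
      · have := gsm182_bdry_h hbc h1 h2
        simp [this]
      · have h3 : ¬ ((v ∈ F ∨ (v.1, v.2 - 1) ∈ F) ∧ atSpin τ v ≠ atSpin τ (v.1 + 1, v.2)) := fun h => h1 h.1
        have h4 : ¬ ((v ∈ F ∧ (v.1, v.2 - 1) ∈ F) ∧ atSpin τ v ≠ atSpin τ (v.1 + 1, v.2)) := fun h => h2 h.1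
        rw [if_neg h3, if_neg h4]
  have e2 : (if (v ∈ F ∨ (v.1 - 1, v.2) ∈ F) ∧ atSpin τ v ≠ atSpin τ (v.1, v.2 + 1) then 1 else 0 : ℕ) =
      if (v ∈ F ∧ (v.1 - 1, v.2) ∈ F) ∧ atSpin τ v ≠ atSpin τ (v.1, v.2 + 1) then 1 else 0 := by
    by_cases h2 : v ∈ F ∧ (v.1 - 1, v.2) ∈ F
    · simp [h2]
    · by_cases h1 : v ∈ F ∨ (v.1 - 1, v.2) ∈ F
      · have := gsm182_bdry_v hbc h1 h2
        simp [this]
      · have h3 : ¬ ((v ∈ F ∨ (v.1 - 1, v.2) ∈ F) ∧ atSpin τ v ≠ atSpin τ (v.1, v.2 + 1)) := fun h => h1 h.1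
        have h4 : ¬ ((v ∈ F ∧ (v.1 - 1, v.2) ∈ F) ∧ atSpin τ v ≠ atSpin τ (v.1, v.2 + 1)) := fun h => h2 h.1
        rw [if_neg h3, if_neg h4]
  rw [e1, e2]
  unfold gsm182Num
  simp only [rswEnd, rswCo, Bool.false_eq_true, if_false, if_true]
  exact gsm182_ite_arith _ _ _ _ _ _

/-- the weight after the sum over the `W` edges -/
theorem gsm182_weight (t : ℝ) {F : Finset (ℤ × ℤ)} (τ : cornersOf F → Bool) (τd : F → Bool) :
    (open Classical in if Gsm182Bc τ then ∏ e ∈ rswInt F, gsm182Fac t τ τd e else 0) =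
      (open Classical in if IsAdmissibleSpins τ τd then t ^ atDisagreements τ τd else 0) := by
  classical
  by_cases hbc : Gsm182Bc τ
  · rw [if_pos hbc]
    by_cases hadm : IsAdmissibleSpins τ τd
    · rw [if_pos hadm, gsm182_disagree τ τd hbc, ← Finset.prod_pow_eq_pow_sum]
      refine Finset.prod_congr rfl fun e he => ?_
      have h := ((gsm182_adm_iff τ τd).1 hadm).2 e he
      unfold gsm182Fac gsm182Num
      by_cases b1 : atSpin τ e.1 = atSpin τ (rswEnd e) <;> by_cases b2 : atDual τd e.1 = atDual τd (rswCo e)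
      · simp [b1, b2]
      · simp [b1, b2]
      · simp [b1, b2]
      · exact absurd h (by tauto)
    · rw [if_neg hadm]
      have h : ¬ ∀ e ∈ rswInt F, atSpin τ e.1 = atSpin τ (rswEnd e) ∨ atDual τd e.1 = atDual τd (rswCo e) :=
        fun h => hadm ((gsm182_adm_iff τ τd).2 ⟨hbc, h⟩)
      push Not at h
      obtain ⟨e, he, h1, h2⟩ := h
      apply Finset.prod_eq_zero he
      unfold gsm182Fac
      rw [if_neg h1, if_neg h2]
  · rw [if_neg hbc, if_neg]
    exact fun h => hbc ((gsm182_adm_iff τ τd).1 h).1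

/-- the factor of `rswFac` in spin words -/
theorem gsm182_fac (t : ℝ) {F : Finset (ℤ × ℤ)} (τ : cornersOf F → Bool) (τd : F → Bool) (O : Finset ((ℤ × ℤ) × Bool))
    {e : (ℤ × ℤ) × Bool} (he : e ∈ rswInt F) :
    rswFac t ⟨gsm182Set (cornersOf F) τ, gsm182Set F τd, O⟩ e =
      (open Classical in if e ∈ O then (if atSpin τ e.1 = atSpin τ (rswEnd e) then t else 0)
        else if atDual τd e.1 = atDual τd (rswCo e) then (if atSpin τ e.1 = atSpin τ (rswEnd e) then 1 - t else t) else 0) := by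
  classical
  rw [gsm182_mem_int] at he
  unfold rswFac
  simp only [gsm182_spin_agree τ (gsm182_corner0 he.1) (gsm182_end_corner he.1), gsm182_dual_agree τd he.1 he.2]

theorem gsm182_fac_add (t : ℝ) {F : Finset (ℤ × ℤ)} (τ : cornersOf F → Bool) (τd : F → Bool) (e : (ℤ × ℤ) × Bool) :
    (open Classical in (if atSpin τ e.1 = atSpin τ (rswEnd e) then t else 0) +
      (if atDual τd e.1 = atDual τd (rswCo e) then (if atSpin τ e.1 = atSpin τ (rswEnd e) then 1 - t else t) else 0)) =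
      gsm182Fac t τ τd e := by
  classical
  unfold gsm182Fac
  by_cases b1 : atSpin τ e.1 = atSpin τ (rswEnd e) <;> by_cases b2 : atDual τd e.1 = atDual τd (rswCo e) <;>
    simp [b1, b2]

/-- **the marginal of the flat `(S, D, O)` problem on the spins is the Ashkin--Teller weight of Def_0468** -/
theorem gsm182_rswSum (t : ℝ) (F : Finset (ℤ × ℤ)) (Y : at92Cfg F → ℝ) :
    rswSum t F true (fun ω => Y (rswTau F ω, rswTauD F ω)) = ∑ p ∈ at92Adm F, at92W t p * Y p := by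
  classical
  unfold rswSum
  rw [gsm182_sum_powerset]
  have h1 : ∀ τ : cornersOf F → Bool,
      (∑ D ∈ F.powerset, ∑ O ∈ (rswInt F).powerset, rswWt t F true ⟨gsm182Set (cornersOf F) τ, D, O⟩ *
        Y (rswTau F ⟨gsm182Set (cornersOf F) τ, D, O⟩, rswTauD F ⟨gsm182Set (cornersOf F) τ, D, O⟩)) =
      ∑ τd : F → Bool, if IsAdmissibleSpins τ τd then t ^ atDisagreements τ τd * Y (τ, τd) else 0 := by
    intro τ
    rw [gsm182_sum_powerset]
    refine Finset.sum_congr rfl fun τd _ => ?_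
    have h2 : ∀ O ∈ (rswInt F).powerset, rswWt t F true ⟨gsm182Set (cornersOf F) τ, gsm182Set F τd, O⟩ *
        Y (rswTau F ⟨gsm182Set (cornersOf F) τ, gsm182Set F τd, O⟩, rswTauD F ⟨gsm182Set (cornersOf F) τ, gsm182Set F τd, O⟩) =
        (if Gsm182Bc τ then Y (τ, τd) else 0) * ∏ e ∈ rswInt F, (if e ∈ O then (if atSpin τ e.1 = atSpin τ (rswEnd e) then t else 0)
        else if atDual τd e.1 = atDual τd (rswCo e) then (if atSpin τ e.1 = atSpin τ (rswEnd e) then 1 - t else t) else 0) := by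
      intro O _
      rw [gsm182_tau, gsm182_tauD]
      unfold rswWt
      simp only [gsm182_bc_iff]
      by_cases hbc : Gsm182Bc τ
      · rw [if_pos hbc, if_pos hbc, mul_comm]
        congr 1
        exact Finset.prod_congr rfl fun e he => gsm182_fac t τ τd O he
      · rw [if_neg hbc, if_neg hbc]; simp
    rw [Finset.sum_congr rfl h2, ← Finset.mul_sum, gsm182_sum_open]
    simp only [gsm182_fac_add]
    have h3 := gsm182_weight t τ τd
    by_cases hbc : Gsm182Bc τ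
    · rw [if_pos hbc] at h3 ⊢
      rw [h3]
      split_ifs <;> ring
    · rw [if_neg hbc] at h3 ⊢
      rw [zero_mul]
      by_cases hadm : IsAdmissibleSpins τ τd
      · exact absurd ((gsm182_adm_iff τ τd).1 hadm).1 hbc
      · rw [if_neg hadm]
  rw [Finset.sum_congr rfl fun τ _ => h1 τ]
  unfold at92Adm at92W
  rw [Finset.sum_filter, ← Finset.univ_product_univ, Finset.sum_product]

theorem gsm182_rswE (t : ℝ) (F : Finset (ℤ × ℤ)) (Y : at92Cfg F → ℝ) :
    rswE t F true (fun ω => Y (rswTau F ω, rswTauD F ω)) = lmE (at92Adm F) (at92W t) Y := by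
  unfold rswE lmE
  rw [gsm182_rswSum]
  have := gsm182_rswSum t F (fun _ => 1)
  simp only [mul_one] at this
  rw [this]


/-! ### 3. geometry of `faceRegionSq` under `IsAdmissibleApprox` -/

/-- the dilation of the plane -/
noncomputable def gsm182Dil (δ : ℝ) (hδ : δ ≠ 0) : (ℝ × ℝ) ≃ₜ (ℝ × ℝ) :=
  (Homeomorph.mulLeft₀ δ hδ).prodCongr (Homeomorph.mulLeft₀ δ hδ)

theorem gsm182_dil_apply (δ : ℝ) (hδ : δ ≠ 0) (z : ℝ × ℝ) : gsm182Dil δ hδ z = (δ * z.1, δ * z.2) := rfl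

theorem gsm182_region_scale {δ : ℝ} (hδ : 0 < δ) (F : Finset (ℤ × ℤ)) :
    gsm182Dil δ hδ.ne' ⁻¹' faceRegionSq δ F = faceRegionSq 1 F := by
  unfold faceRegionSq
  rw [Homeomorph.preimage_interior]
  congr 1
  ext z
  simp only [mem_preimage, mem_iUnion, mem_prod, mem_Icc, gsm182_dil_apply, one_mul, exists_prop]
  refine exists_congr fun f => and_congr Iff.rfl ?_
  rw [mul_le_mul_iff_of_pos_left hδ, mul_le_mul_iff_of_pos_left hδ, mul_le_mul_iff_of_pos_left hδ,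
    mul_le_mul_iff_of_pos_left hδ]

theorem gsm182_jordan {δ : ℝ} (hδ : 0 < δ) {F : Finset (ℤ × ℤ)} {γ : Circle → ℝ × ℝ} (hc : Continuous γ)
    (hi : Function.Injective γ) (hr : Set.range γ = frontier (faceRegionSq δ F)) : RswJordan F := by
  refine ⟨(gsm182Dil δ hδ.ne').symm ∘ γ, (gsm182Dil δ hδ.ne').symm.continuous.comp hc,
    (gsm182Dil δ hδ.ne').symm.injective.comp hi, ?_⟩
  rw [Set.range_comp, hr, ← gsm182_region_scale hδ F, ← Homeomorph.preimage_frontier,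
    Homeomorph.image_symm]

theorem gsm182_jordan_approx {D : Set (ℝ × ℝ)} {δ : ℕ → ℝ} {F : ℕ → Finset (ℤ × ℤ)} (hF : IsAdmissibleApprox D δ F) (n : ℕ) :
    RswJordan (F n) := by
  obtain ⟨h1, _, _, γ, γs, _, _, _, h2, _⟩ := hF
  exact gsm182_jordan (h1 n) (h2 n).1 (h2 n).2.1 (h2 n).2.2

/-- a face whose centre lies in the region belongs to `F` -/
theorem gsm182_face_of_centre {δ : ℝ} (hδ : 0 < δ) {F : Finset (ℤ × ℤ)} {f : ℤ × ℤ}
    (h : (δ * ((f.1 : ℝ) + 1 / 2), δ * ((f.2 : ℝ) + 1 / 2)) ∈ faceRegionSq δ F) : f ∈ F := by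
  have h1 := interior_subset h
  simp only [mem_iUnion, mem_prod, mem_Icc, exists_prop] at h1
  obtain ⟨g, hg, ⟨a1, a2⟩, b1, b2⟩ := h1
  rw [mul_le_mul_iff_of_pos_left hδ] at a1 a2 b1 b2
  have e1 : g.1 = f.1 := by
    have c1 : (g.1 : ℝ) < f.1 + 1 := by linarith
    have c2 : (f.1 : ℝ) < g.1 + 1 := by linarith
    have c1' : g.1 < f.1 + 1 := by exact_mod_cast c1
    have c2' : f.1 < g.1 + 1 := by exact_mod_cast c2
    omega
  have e2 : g.2 = f.2 := by
    have c1 : (g.2 : ℝ) < f.2 + 1 := by linarith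
    have c2 : (f.2 : ℝ) < g.2 + 1 := by linarith
    have c1' : g.2 < f.2 + 1 := by exact_mod_cast c1
    have c2' : f.2 < g.2 + 1 := by exact_mod_cast c2
    omega
  have : g = f := Prod.ext e1 e2
  rwa [← this]

/-- the centre of a face of `F` lies in the region -/
theorem gsm182_centre_of_face {δ : ℝ} (hδ : 0 < δ) {F : Finset (ℤ × ℤ)} {f : ℤ × ℤ} (h : f ∈ F) :
    (δ * ((f.1 : ℝ) + 1 / 2), δ * ((f.2 : ℝ) + 1 / 2)) ∈ faceRegionSq δ F := by
  unfold faceRegionSq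
  rw [mem_interior]
  refine ⟨Set.Ioo (δ * f.1) (δ * (f.1 + 1)) ×ˢ Set.Ioo (δ * f.2) (δ * (f.2 + 1)), ?_, isOpen_Ioo.prod isOpen_Ioo, ?_⟩
  · intro z hz
    simp only [mem_iUnion, exists_prop]
    exact ⟨f, h, ⟨Ioo_subset_Icc_self hz.1, Ioo_subset_Icc_self hz.2⟩⟩
  · refine ⟨⟨?_, ?_⟩, ?_, ?_⟩ <;> nlinarith

theorem gsm182_region_bdd (δ : ℝ) (F : Finset (ℤ × ℤ)) : Bornology.IsBounded (faceRegionSq δ F) := by
  unfold faceRegionSq
  refine Bornology.IsBounded.subset ?_ interior_subset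
  exact (F.isCompact_biUnion fun f _ => isCompact_Icc.prod isCompact_Icc).isBounded

/-- a preconnected set which meets `U` and its complement meets the frontier -/
theorem gsm182_meets_frontier {X : Type*} [TopologicalSpace X] {t U : Set X} (ht : IsPreconnected t)
    (h1 : (t ∩ U).Nonempty) (h2 : (t ∩ Uᶜ).Nonempty) : (t ∩ frontier U).Nonempty := by
  by_contra hc
  rw [Set.not_nonempty_iff_eq_empty] at hc
  have hno : ∀ x ∈ t, x ∉ frontier U := fun x hx hf => by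
    have : x ∈ t ∩ frontier U := ⟨hx, hf⟩
    rw [hc] at this
    exact this
  have hcov : t ⊆ interior U ∪ (closure U)ᶜ := by
    intro x hx
    by_cases hcl : x ∈ closure U
    · left
      by_contra hi
      exact hno x hx ⟨hcl, hi⟩
    · right; exact hcl
  obtain ⟨x, hxt, hxU⟩ := h1
  obtain ⟨y, hyt, hyU⟩ := h2
  have a1 : (t ∩ interior U).Nonempty := by
    refine ⟨x, hxt, ?_⟩
    by_contra hi
    exact hno x hxt ⟨subset_closure hxU, hi⟩
  have a2 : (t ∩ (closure U)ᶜ).Nonempty := by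
    refine ⟨y, hyt, fun hcl => ?_⟩
    exact hno y hyt ⟨hcl, fun hi => hyU (interior_subset hi)⟩
  obtain ⟨w, _, hw1, hw2⟩ := ht _ _ isOpen_interior isClosed_closure.isOpen_compl hcov a1 a2
  exact hw2 (subset_closure (interior_subset hw1))

/-- a bounded set lies to the left of its frontier -/
theorem gsm182_left_of_frontier {U : Set (ℝ × ℝ)} (hb : Bornology.IsBounded U) {R : ℝ}
    (hfr : ∀ z ∈ frontier U, z.1 ≤ R) : ∀ z ∈ U, z.1 ≤ R := by
  intro z hz
  by_contra hc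
  push Not at hc
  obtain ⟨B, hB⟩ := hb.exists_norm_le
  have hpre : IsPreconnected ((fun s : ℝ => (z.1 + s, z.2)) '' Set.Ici 0) :=
    isPreconnected_Ici.image _ (by fun_prop)
  have h1 : (((fun s : ℝ => (z.1 + s, z.2)) '' Set.Ici 0) ∩ U).Nonempty :=
    ⟨z, ⟨0, by simp, by simp⟩, hz⟩
  have h2 : (((fun s : ℝ => (z.1 + s, z.2)) '' Set.Ici 0) ∩ Uᶜ).Nonempty := by
    refine ⟨(z.1 + (|B| + |z.1| + 1), z.2), ⟨|B| + |z.1| + 1, by simp; positivity, rfl⟩, fun hU => ?_⟩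
    have h3 := hB _ hU
    have h4 : |z.1 + (|B| + |z.1| + 1)| ≤ ‖((z.1 + (|B| + |z.1| + 1), z.2) : ℝ × ℝ)‖ := by
      rw [Prod.norm_def]; exact le_max_left _ _
    have h5 := le_abs_self (z.1 + (|B| + |z.1| + 1))
    have h6 := neg_abs_le z.1
    have h7 := le_abs_self B
    linarith
  obtain ⟨y, ⟨s, hs, rfl⟩, hy⟩ := gsm182_meets_frontier hpre h1 h2
  have := hfr _ hy
  simp only [mem_Ici] at hs
  simp only at this
  linarith

/-- the faces of an admissible approximation stay in a fixed half plane -/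
theorem gsm182_out {D : Set (ℝ × ℝ)} (hB : Bornology.IsBounded D) {δ : ℕ → ℝ} {F : ℕ → Finset (ℤ × ℤ)}
    (hF : IsAdmissibleApprox D δ F) :
    ∃ R : ℝ, 1 ≤ R ∧ (∀ z ∈ D, |z.1| ≤ R) ∧ ∀ᶠ n in atTop, ∀ f ∈ F n, δ n * ((f.1 : ℝ) + 1 / 2) ≤ R := by
  obtain ⟨B, hBn⟩ := hB.closure.exists_norm_le
  obtain ⟨h1, _, _, γ, γs, _, _, hγ, h2, h3⟩ := hF
  refine ⟨|B| + 1, by linarith [abs_nonneg B], fun z hz => ?_, ?_⟩
  · have a1 := hBn z (subset_closure hz)
    have a2 : |z.1| ≤ ‖z‖ := by rw [Prod.norm_def]; exact le_max_left _ _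
    linarith [le_abs_self B]
  · filter_upwards [h3 1 one_pos] with n hn f hf
    have hc := gsm182_centre_of_face (h1 n) hf
    refine gsm182_left_of_frontier (gsm182_region_bdd (δ n) (F n)) (R := |B| + 1) ?_ _ hc
    intro z hz
    rw [← (h2 n).2.2] at hz
    obtain ⟨x, rfl⟩ := hz
    have a0 : γ x ∈ closure D := by
      have : γ x ∈ frontier D := by rw [← hγ]; exact mem_range_self x
      exact frontier_subset_closure this
    have a1 := hBn _ a0
    have a2 : |(γ x).1| ≤ ‖γ x‖ := by rw [Prod.norm_def]; exact le_max_left _ _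
    have a3 := hn x
    have a4 : ((γs n x).1 - (γ x).1) ^ 2 < 1 ^ 2 := by nlinarith [sq_nonneg ((γs n x).2 - (γ x).2)]
    have a5 : |(γs n x).1 - (γ x).1| < 1 := abs_lt_of_sq_lt_sq a4 (by norm_num)
    have a6 := le_abs_self ((γs n x).1 - (γ x).1)
    have a7 := le_abs_self (γ x).1
    have a8 := le_abs_self B
    linarith

/-- a fixed neighbourhood of a compact subset of `D` is eventually covered -/
theorem gsm182_in {D : Set (ℝ × ℝ)} (hD : IsOpen D) {δ : ℕ → ℝ} {F : ℕ → Finset (ℤ × ℤ)}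
    (hF : IsAdmissibleApprox D δ F) {K : Set (ℝ × ℝ)} (hK : IsCompact K) (hKD : K ⊆ D) :
    ∃ c : ℝ, 0 < c ∧ ∀ᶠ n in atTop, ∀ z ∈ K, ∀ y : ℝ × ℝ, |y.1 - z.1| ≤ c → |y.2 - z.2| ≤ c →
      y ∈ faceRegionSq (δ n) (F n) := by
  obtain ⟨c, hc, hsub⟩ := hK.exists_cthickening_subset_open hD hKD
  refine ⟨c, hc, ?_⟩
  filter_upwards [hF.2.2.1 _ hK.cthickening hsub] with n hn z hz y h1 h2
  apply hn
  apply Metric.mem_cthickening_of_dist_le y z c K hz
  rw [Prod.dist_eq, Real.dist_eq, Real.dist_eq]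
  exact max_le h1 h2

/-! ### 4. the estimate at one mesh -/

/-- the lattice input: the type of `exit_rsw_mom_smear` (Exit/RSW) -/
def Gsm182In (t : ℝ) : Prop :=
  ∀ p : ℕ, ∃ C : ℝ, 0 < C ∧ ∀ (F : Finset (ℤ × ℤ)) (z0 : ℤ × ℤ) (a n : ℕ) (A : ℝ) (w : (ℤ × ℤ) →₀ ℝ),
    RswJordan F → 1 ≤ a → rswBox z0 (3 * a) ⊆ F → ¬ rswBox z0 n ⊆ F → RswSm z0 a A w →
    rswE t F true (fun ω => |rswArr w (rswH F ω)| ^ p) ≤
      (C * A * (1 + Real.sqrt (Real.log ((n : ℝ) / a)))) ^ p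

theorem gsm182_log {R r x : ℝ} (hR : 1 ≤ R) (hr : 0 < r) (hr1 : r ≤ 1) (hx0 : 0 < x) (hx : x ≤ 6 * R / r) :
    (1 + Real.sqrt (Real.log x)) ^ 2 ≤ 2 * (1 + Real.log (6 * R)) * (1 + Real.log (1 / r)) := by
  have ha : 0 ≤ Real.log (6 * R) := Real.log_nonneg (by linarith)
  have hb : 0 ≤ Real.log (1 / r) := Real.log_nonneg (by rw [le_div_iff₀ hr]; linarith)
  have h1 : Real.log x ≤ Real.log (6 * R) + Real.log (1 / r) := by
    rw [← Real.log_mul (by positivity) (by positivity)]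
    apply Real.log_le_log hx0
    rw [mul_one_div]; exact hx
  set L := Real.log (6 * R) + Real.log (1 / r) with hL
  have hL0 : 0 ≤ L := by positivity
  have h2 : Real.sqrt (Real.log x) ≤ Real.sqrt L := Real.sqrt_le_sqrt h1
  have h3 : Real.sqrt L ^ 2 = L := Real.sq_sqrt hL0
  have h4 : 0 ≤ Real.sqrt (Real.log x) := Real.sqrt_nonneg _
  have h5 : (1 + Real.sqrt (Real.log x)) ^ 2 ≤ (1 + Real.sqrt L) ^ 2 := pow_le_pow_left₀ (by positivity) (by linarith) 2
  have h6 : (1 + Real.sqrt L) ^ 2 ≤ 2 + 2 * L := by nlinarith [sq_nonneg (Real.sqrt L - 1)]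
  have h7 : 2 + 2 * L ≤ 2 * (1 + Real.log (6 * R)) * (1 + Real.log (1 / r)) := by
    rw [hL]; nlinarith [mul_nonneg ha hb]
  linarith

theorem gsm182_mem_box (z : ℤ × ℤ) (n : ℕ) (f : ℤ × ℤ) :
    f ∈ rswBox z n ↔ (z.1 - n ≤ f.1 ∧ f.1 < z.1 + n) ∧ (z.2 - n ≤ f.2 ∧ f.2 < z.2 + n) := by
  unfold rswBox
  rw [Finset.mem_product, Finset.mem_Ico, Finset.mem_Ico]

theorem gsm182_card_box (z : ℤ × ℤ) (n : ℕ) : ((rswBox z n).card : ℝ) = 4 * (n : ℝ) ^ 2 := by
  unfold rswBox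
  rw [Finset.card_product, Int.card_Ico, Int.card_Ico]
  have e1 : (z.1 + n - (z.1 - n)).toNat = 2 * n := by omega
  have e2 : (z.2 + n - (z.2 - n)).toNat = 2 * n := by omega
  rw [e1, e2]
  push_cast
  ring

/-- the three integer data: base point, inner radius, outer radius -/
theorem gsm182_radii {F : Finset (ℤ × ℤ)} {d c R r : ℝ} (hd : 0 < d) (hd1 : d ≤ 1) (hR : 1 ≤ R) (hr : 0 < r)
    (hdr : d ≤ r) (hrc : 12 * r ≤ c) {z : ℝ × ℝ} (hzR : |z.1| ≤ R)
    (hin : ∀ y : ℝ × ℝ, |y.1 - z.1| ≤ c → |y.2 - z.2| ≤ c → y ∈ faceRegionSq d F)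
    (hout : ∀ f ∈ F, d * ((f.1 : ℝ) + 1 / 2) ≤ R) :
    ∃ (z0 : ℤ × ℤ) (a N : ℕ), 1 ≤ a ∧ (a : ℝ) * d ≤ 3 * r ∧ 0 < (N : ℝ) ∧ (N : ℝ) / a ≤ 6 * R / r ∧
      (∀ v : ℤ × ℤ, ((d * v.1, d * v.2) : ℝ × ℝ) ∈ wkBall z r → v ∈ rswBox z0 a) ∧
      rswBox z0 (3 * a) ⊆ F ∧ ¬ rswBox z0 N ⊆ F := by
  obtain ⟨x1, hx1⟩ : ∃ x : ℤ, x = ⌊z.1 / d⌋ := ⟨_, rfl⟩
  obtain ⟨x2, hx2⟩ : ∃ x : ℤ, x = ⌊z.2 / d⌋ := ⟨_, rfl⟩
  obtain ⟨a, ha⟩ : ∃ a : ℕ, a = ⌈r / d⌉₊ + 1 := ⟨_, rfl⟩
  obtain ⟨N, hN⟩ : ∃ N : ℕ, N = ⌈(2 * R + 2) / d⌉₊ := ⟨_, rfl⟩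
  -- the floors
  have f1 : d * (x1 : ℝ) ≤ z.1 := by
    have := Int.floor_le (z.1 / d)
    rw [le_div_iff₀ hd] at this
    rw [hx1]; linarith
  have f2 : z.1 < d * (x1 : ℝ) + d := by
    have := Int.lt_floor_add_one (z.1 / d)
    rw [div_lt_iff₀ hd] at this
    rw [hx1]; linarith
  have g1 : d * (x2 : ℝ) ≤ z.2 := by
    have := Int.floor_le (z.2 / d)
    rw [le_div_iff₀ hd] at this
    rw [hx2]; linarith
  have g2 : z.2 < d * (x2 : ℝ) + d := by
    have := Int.lt_floor_add_one (z.2 / d)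
    rw [div_lt_iff₀ hd] at this
    rw [hx2]; linarith
  -- the radii
  have a1 : r + d ≤ d * (a : ℝ) := by
    have := Nat.le_ceil (r / d)
    rw [div_le_iff₀ hd] at this
    rw [ha]; push_cast; linarith
  have a2 : d * (a : ℝ) ≤ 3 * r := by
    have h1 := Nat.ceil_lt_add_one (a := r / d) (by positivity)
    have h2 : (⌈r / d⌉₊ : ℝ) * d < (r / d + 1) * d := mul_lt_mul_of_pos_right h1 hd
    have h3 : (r / d + 1) * d = r + d := by field_simp
    rw [ha]; push_cast; linarith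
  have a0 : (0 : ℝ) < a := by rw [ha]; positivity
  have ha1 : 1 ≤ a := by rw [ha]; omega
  have n1 : 2 * R + 2 ≤ d * (N : ℝ) := by
    have := Nat.le_ceil ((2 * R + 2) / d)
    rw [div_le_iff₀ hd] at this
    rw [hN]; linarith
  have n2 : d * (N : ℝ) ≤ 6 * R := by
    have h1 := Nat.ceil_lt_add_one (a := (2 * R + 2) / d) (by positivity)
    have h2 : (⌈(2 * R + 2) / d⌉₊ : ℝ) * d < ((2 * R + 2) / d + 1) * d := mul_lt_mul_of_pos_right h1 hd
    have h3 : ((2 * R + 2) / d + 1) * d = 2 * R + 2 + d := by field_simp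
    rw [hN]; linarith
  have n0 : (0 : ℝ) < N := by
    by_contra hc
    push Not at hc
    have : d * (N : ℝ) ≤ 0 := mul_nonpos_of_nonneg_of_nonpos hd.le hc
    linarith
  have hN1 : 1 ≤ N := by exact_mod_cast n0
  refine ⟨(x1, x2), a, N, ha1, by linarith, n0, ?_, ?_, ?_, ?_⟩
  · rw [div_le_div_iff₀ a0 hr]
    have e1 : d * ((N : ℝ) * r) ≤ d * (6 * R * a) := by
      have t1 : d * (N : ℝ) * r ≤ 6 * R * r := mul_le_mul_of_nonneg_right n2 hr.le
      have t2 : 6 * R * r ≤ 6 * R * (d * a) := mul_le_mul_of_nonneg_left (by linarith) (by linarith)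
      calc d * ((N : ℝ) * r) = d * (N : ℝ) * r := by ring
        _ ≤ 6 * R * (d * a) := t1.trans t2
        _ = d * (6 * R * a) := by ring
    exact le_of_mul_le_mul_left e1 hd
  · intro v h1
    have h2 : (d * v.1 - z.1) ^ 2 + (d * v.2 - z.2) ^ 2 ≤ r ^ 2 := h1
    have b1 : |d * v.1 - z.1| ≤ r :=
      abs_le_of_sq_le_sq (by linarith [sq_nonneg (d * (v.2 : ℝ) - z.2)]) hr.le
    have b2 : |d * v.2 - z.2| ≤ r :=
      abs_le_of_sq_le_sq (by linarith [sq_nonneg (d * (v.1 : ℝ) - z.1)]) hr.le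
    rw [abs_le] at b1 b2
    rw [gsm182_mem_box]
    refine ⟨⟨?_, ?_⟩, ?_, ?_⟩
    · have : d * ((x1 : ℝ) - a) ≤ d * v.1 := by rw [mul_sub]; linarith
      have := le_of_mul_le_mul_left this hd
      exact_mod_cast this
    · have : d * (v.1 : ℝ) < d * ((x1 : ℝ) + a) := by rw [mul_add]; linarith
      have := lt_of_mul_lt_mul_left this hd.le
      exact_mod_cast this
    · have : d * ((x2 : ℝ) - a) ≤ d * v.2 := by rw [mul_sub]; linarith
      have := le_of_mul_le_mul_left this hd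
      exact_mod_cast this
    · have : d * (v.2 : ℝ) < d * ((x2 : ℝ) + a) := by rw [mul_add]; linarith
      have := lt_of_mul_lt_mul_left this hd.le
      exact_mod_cast this
  · intro f hf
    rw [gsm182_mem_box] at hf
    obtain ⟨⟨c1, c2⟩, c3, c4⟩ := hf
    have c1' : (x1 : ℝ) - 3 * a ≤ f.1 := by exact_mod_cast c1
    have c2' : (f.1 : ℝ) + 1 ≤ x1 + 3 * a := by exact_mod_cast c2
    have c3' : (x2 : ℝ) - 3 * a ≤ f.2 := by exact_mod_cast c3
    have c4' : (f.2 : ℝ) + 1 ≤ x2 + 3 * a := by exact_mod_cast c4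
    have m1 := mul_le_mul_of_nonneg_left c1' hd.le
    have m2 := mul_le_mul_of_nonneg_left c2' hd.le
    have m3 := mul_le_mul_of_nonneg_left c3' hd.le
    have m4 := mul_le_mul_of_nonneg_left c4' hd.le
    rw [mul_sub] at m1 m3
    rw [mul_add, mul_add] at m2 m4
    have e3 : d * (3 * (a : ℝ)) = 3 * (d * a) := by ring
    rw [e3] at m1 m2 m3 m4
    apply gsm182_face_of_centre hd
    apply hin
    · simp only
      rw [abs_le, mul_add]
      constructor <;> linarith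
    · simp only
      rw [abs_le, mul_add]
      constructor <;> linarith
  · intro hsub
    have hmem : ((x1 + N - 1, x2) : ℤ × ℤ) ∈ rswBox (x1, x2) N := by
      rw [gsm182_mem_box]
      simp only
      omega
    have h1 := hout _ (hsub hmem)
    simp only at h1
    push_cast at h1
    have h2 := (abs_le.1 hzR).1
    have h3 : d * ((x1 : ℝ) + N - 1 + 1 / 2) = d * x1 + d * N - d / 2 := by ring
    rw [h3] at h1
    linarith

theorem gsm182_core {t : ℝ} {m : ℕ} {C1 : ℝ} (hC1 : 0 < C1)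
    (hIn : ∀ (F : Finset (ℤ × ℤ)) (z0 : ℤ × ℤ) (a n : ℕ) (A : ℝ) (w : (ℤ × ℤ) →₀ ℝ),
      RswJordan F → 1 ≤ a → rswBox z0 (3 * a) ⊆ F → ¬ rswBox z0 n ⊆ F → RswSm z0 a A w →
      rswE t F true (fun ω => |rswArr w (rswH F ω)| ^ (2 * m)) ≤
        (C1 * A * (1 + Real.sqrt (Real.log ((n : ℝ) / a)))) ^ (2 * m))
    {F : Finset (ℤ × ℤ)} (hJ : RswJordan F) {d c R r : ℝ} (hd : 0 < d) (hd1 : d ≤ 1) (hR : 1 ≤ R) (hr : 0 < r)
    (hr1 : r ≤ 1) (hdr : d ≤ r) (hrc : 12 * r ≤ c) {z : ℝ × ℝ} (hzR : |z.1| ≤ R)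
    (hin : ∀ y : ℝ × ℝ, |y.1 - z.1| ≤ c → |y.2 - z.2| ≤ c → y ∈ faceRegionSq d F)
    (hout : ∀ f ∈ F, d * ((f.1 : ℝ) + 1 / 2) ≤ R)
    {M : ℝ} {W : ℤ × ℤ → ℝ} (hW : ∀ v, |W v| ≤ M * d ^ 2)
    (hW0 : ∀ v : ℤ × ℤ, ((d * v.1, d * v.2) : ℝ × ℝ) ∉ wkBall z r → W v = 0) :
    lmE (at92Adm F) (at92W t) (fun p => (∑ v ∈ cornersOf F, W v * atHeight p.1 p.2 v) ^ (2 * m)) ≤
      (C1 ^ (2 * m) * 36 ^ (2 * m) * (2 * (1 + Real.log (6 * R))) ^ m) * (M * r ^ 2) ^ (2 * m)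
        * (1 + Real.log (1 / r)) ^ m := by
  classical
  have hd2 : 0 < d ^ 2 := by positivity
  have hM : 0 ≤ M := by
    have := (abs_nonneg _).trans (hW 0)
    by_contra hc
    push Not at hc
    have : M * d ^ 2 < 0 := mul_neg_of_neg_of_pos hc hd2
    linarith
  obtain ⟨z0, a, N, ha1, a2, n0, hx, hsupp, hbox, hnot⟩ := gsm182_radii hd hd1 hR hr hdr hrc hzR hin hout
  have a0 : (0 : ℝ) < a := by exact_mod_cast ha1
  -- the weights
  obtain ⟨w, hwv⟩ : ∃ w : (ℤ × ℤ) →₀ ℝ, w = Finsupp.onFinset (cornersOf F) (fun v => if v ∈ cornersOf F then W v else 0)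
    (fun v hv => by by_contra hc; exact hv (if_neg hc)) := ⟨_, rfl⟩
  have hwv' : ∀ v, w v = if v ∈ cornersOf F then W v else 0 := fun v => by rw [hwv]; rfl
  have hwabs : ∀ v, |w v| ≤ M * d ^ 2 := by
    intro v
    rw [hwv']
    split_ifs
    · exact hW v
    · rw [abs_zero]; positivity
  obtain ⟨A, hA⟩ : ∃ A : ℝ, A = 4 * M * ((a : ℝ) * d) ^ 2 := ⟨_, rfl⟩
  have hA0 : 0 ≤ A := by rw [hA]; positivity
  have hA36 : A ≤ 36 * (M * r ^ 2) := by
    have e1 : ((a : ℝ) * d) ^ 2 ≤ (3 * r) ^ 2 := pow_le_pow_left₀ (by positivity) a2 2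
    have e2 := mul_le_mul_of_nonneg_left e1 hM
    calc A = 4 * (M * ((a : ℝ) * d) ^ 2) := by rw [hA]; ring
      _ ≤ 4 * (M * (3 * r) ^ 2) := by linarith
      _ = 36 * (M * r ^ 2) := by ring
  have hws : w.support ⊆ rswBox z0 a := by
    intro v hv
    rw [Finsupp.mem_support_iff, hwv'] at hv
    apply hsupp
    by_contra hc
    apply hv
    rw [hW0 v hc]
    simp
  have hSm : RswSm z0 a A w := by
    refine ⟨hws, ?_, ?_⟩
    · calc ∑ u ∈ w.support, |w u| ≤ ∑ u ∈ rswBox z0 a, |w u| :=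
            Finset.sum_le_sum_of_subset_of_nonneg hws fun _ _ _ => abs_nonneg _
        _ ≤ ∑ _u ∈ rswBox z0 a, M * d ^ 2 := Finset.sum_le_sum fun u _ => hwabs u
        _ = A := by rw [Finset.sum_const, nsmul_eq_mul, gsm182_card_box, hA]; ring
    · intro u
      have h1 := mul_le_mul_of_nonneg_right (hwabs u) (by positivity : (0 : ℝ) ≤ (a : ℝ) ^ 2)
      have h2 : 0 ≤ M * ((a : ℝ) * d) ^ 2 := by positivity
      calc |w u| * (a : ℝ) ^ 2 ≤ M * d ^ 2 * (a : ℝ) ^ 2 := h1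
        _ = M * ((a : ℝ) * d) ^ 2 := by ring
        _ ≤ A := by rw [hA]; linarith
  have key := hIn F z0 a N A w hJ ha1 hbox hnot hSm
  have hfun : (fun ω : RswCfg => |rswArr w (rswH F ω)| ^ (2 * m)) =
      fun ω => (fun p : at92Cfg F => (∑ v ∈ cornersOf F, W v * atHeight p.1 p.2 v) ^ (2 * m)) (rswTau F ω, rswTauD F ω) := by
    funext ω
    simp only
    rw [(even_two_mul m).pow_abs]
    congr 1
    unfold rswArr rswH
    rw [hwv, Finsupp.onFinset_sum _ (fun _ => by simp)]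
    refine Finset.sum_congr rfl fun v hv => ?_
    rw [if_pos hv]
  rw [hfun, gsm182_rswE t F (fun p : at92Cfg F => (∑ v ∈ cornersOf F, W v * atHeight p.1 p.2 v) ^ (2 * m))] at key
  refine key.trans ?_
  have hlog := gsm182_log hR hr hr1 (div_pos n0 a0) hx
  obtain ⟨q, hq⟩ : ∃ q : ℝ, q = 1 + Real.sqrt (Real.log ((N : ℝ) / a)) := ⟨_, rfl⟩
  rw [← hq] at hlog ⊢
  have hq0 : 0 ≤ q := by have := Real.sqrt_nonneg (Real.log ((N : ℝ) / a)); rw [hq]; linarith
  have hMr : 0 ≤ M * r ^ 2 := by positivity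
  calc (C1 * A * q) ^ (2 * m) ≤ (C1 * (36 * (M * r ^ 2)) * q) ^ (2 * m) := by
        apply pow_le_pow_left₀ (by positivity)
        gcongr
    _ = C1 ^ (2 * m) * 36 ^ (2 * m) * (M * r ^ 2) ^ (2 * m) * (q ^ 2) ^ m := by
        rw [mul_pow, mul_pow, mul_pow, pow_mul q]; ring
    _ ≤ C1 ^ (2 * m) * 36 ^ (2 * m) * (M * r ^ 2) ^ (2 * m) *
          (2 * (1 + Real.log (6 * R)) * (1 + Real.log (1 / r))) ^ m := by
        apply mul_le_mul_of_nonneg_left _ (by positivity)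
        exact pow_le_pow_left₀ (by positivity) hlog m
    _ = _ := by rw [mul_pow (2 * (1 + Real.log (6 * R)))]; ring


/-! ### 5. the bounds along an admissible approximation -/

theorem gsm182_w {t : ℝ} (hIn : Gsm182In t) {D : Set (ℝ × ℝ)} (hD : IsOpen D) (hB : Bornology.IsBounded D)
    {δ : ℕ → ℝ} {F : ℕ → Finset (ℤ × ℤ)} (hF : IsAdmissibleApprox D δ F) {K : Set (ℝ × ℝ)} (hK : IsCompact K)
    (hKD : K ⊆ D) (m : ℕ) :
    ∃ C r0 : ℝ, 0 < C ∧ 0 < r0 ∧ r0 ≤ 1 ∧ ∀ z ∈ K, ∀ r : ℝ, 0 < r → r ≤ r0 → ∀ᶠ n in atTop, ∀ (M : ℝ) (W : ℤ × ℤ → ℝ),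
      (∀ v, |W v| ≤ M * δ n ^ 2) → (∀ v : ℤ × ℤ, ((δ n * v.1, δ n * v.2) : ℝ × ℝ) ∉ wkBall z r → W v = 0) →
      lmE (at92Adm (F n)) (at92W t) (fun p => (∑ v ∈ cornersOf (F n), W v * atHeight p.1 p.2 v) ^ (2 * m)) ≤
        C * (M * r ^ 2) ^ (2 * m) * (1 + Real.log (1 / r)) ^ m := by
  obtain ⟨C1, hC1, hIn'⟩ := hIn (2 * m)
  obtain ⟨c, hc, hin⟩ := gsm182_in hD hF hK hKD
  obtain ⟨R, hR, hRD, hout⟩ := gsm182_out hB hF
  have hl : 0 ≤ Real.log (6 * R) := Real.log_nonneg (by linarith)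
  refine ⟨C1 ^ (2 * m) * 36 ^ (2 * m) * (2 * (1 + Real.log (6 * R))) ^ m, min 1 (c / 12), by positivity, by positivity,
    min_le_left _ _, fun z hz r hr hr0 => ?_⟩
  have hr1 : r ≤ 1 := hr0.trans (min_le_left _ _)
  have hr2 : r ≤ c / 12 := hr0.trans (min_le_right _ _)
  have e1 : ∀ᶠ n in atTop, δ n < min r 1 := hF.2.1.eventually (gt_mem_nhds (by positivity))
  filter_upwards [hin, hout, e1] with n hn1 hn2 hn3 M W hW hW0
  exact gsm182_core hC1 hIn' (gsm182_jordan_approx hF n) (hF.1 n) (hn3.le.trans (min_le_right _ _)) hR hr hr1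
    (hn3.le.trans (min_le_left _ _)) (by linarith) (hRD z (hKD hz)) (hn1 z hz) hn2 hW hW0

theorem gsm182_gaussM (t δ : ℝ) (F : Finset (ℤ × ℤ)) (g : ℝ × ℝ → ℝ) (k : ℕ) :
    gaussM t δ F (Multiset.replicate k g) = lmE (at92Adm F) (at92W t)
      (fun p => (∑ v ∈ cornersOf F, (δ ^ 2 * g (δ * v.1, δ * v.2)) * atHeight p.1 p.2 v) ^ k) := by
  unfold gaussM lmM
  refine lm_E_congr _ _ fun p _ => ?_
  rw [Multiset.map_replicate, Multiset.prod_replicate]
  congr 1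
  unfold at92X
  simp only
  rw [Finset.mul_sum]
  exact Finset.sum_congr rfl fun v _ => by ring

theorem gsm182_small {t : ℝ} (hIn : Gsm182In t) {D : Set (ℝ × ℝ)} (hD : IsOpen D) (hB : Bornology.IsBounded D)
    {δ : ℕ → ℝ} {F : ℕ → Finset (ℤ × ℤ)} (hF : IsAdmissibleApprox D δ F) {K : Set (ℝ × ℝ)} (hK : IsCompact K)
    (hKD : K ⊆ D) (m : ℕ) :
    ∃ C r0 : ℝ, 0 < C ∧ 0 < r0 ∧ r0 ≤ 1 ∧ ∀ z ∈ K, ∀ r : ℝ, 0 < r → r ≤ r0 → ∀ᶠ n in atTop, ∀ (M : ℝ) (g : ℝ × ℝ → ℝ),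
      (∀ y, |g y| ≤ M) → (∀ y, y ∉ wkBall z r → g y = 0) →
      gaussM t (δ n) (F n) (Multiset.replicate (2 * m) g) ≤ C * (M * r ^ 2) ^ (2 * m) * (1 + Real.log (1 / r)) ^ m := by
  obtain ⟨C, r0, hC, hr0, hr01, H⟩ := gsm182_w hIn hD hB hF hK hKD m
  refine ⟨C, r0, hC, hr0, hr01, fun z hz r hr hrr => ?_⟩
  filter_upwards [H z hz r hr hrr] with n hn M g hg hg0
  rw [gsm182_gaussM]
  refine hn M _ (fun v => ?_) (fun v hv => ?_)
  · rw [abs_mul, abs_of_nonneg (by positivity : (0 : ℝ) ≤ δ n ^ 2), mul_comm]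
    exact mul_le_mul_of_nonneg_right (hg _) (by positivity)
  · rw [hg0 _ hv, mul_zero]

theorem gsm182_fixed {t : ℝ} (ht : 0 < t) (hIn : Gsm182In t) {D : Set (ℝ × ℝ)} (hD : IsOpen D) (hB : Bornology.IsBounded D)
    {δ : ℕ → ℝ} {F : ℕ → Finset (ℤ × ℤ)} (hF : IsAdmissibleApprox D δ F) {K : Set (ℝ × ℝ)} (hK : IsCompact K)
    (hKD : K ⊆ D) (m : ℕ) :
    ∃ C : ℝ, 0 < C ∧ ∀ᶠ n in atTop, ∀ (M : ℝ) (g : ℝ × ℝ → ℝ), (∀ y, |g y| ≤ M) → (∀ y, y ∉ K → g y = 0) →
      gaussM t (δ n) (F n) (Multiset.replicate (2 * m) g) ≤ C * M ^ (2 * m) := by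
  classical
  obtain ⟨C, r, hC, hr, hr1, H⟩ := gsm182_w hIn hD hB hF hK hKD m
  obtain ⟨T, hTK, hcov⟩ := hK.elim_nhds_subcover (fun z => {y | C0467.sqDist y z < r ^ 2})
    (fun z _ => (isOpen_lt (hg_continuous_sqDist_left z) continuous_const).mem_nhds
      (by show C0467.sqDist z z < r ^ 2; rw [hg_sqDist_self]; positivity))
  have hl0 : 0 ≤ Real.log (1 / r) := Real.log_nonneg (by rw [le_div_iff₀ hr]; linarith)
  refine ⟨(T.card : ℝ) ^ (2 * m) * ((T.card : ℝ) * (C * (r ^ 2) ^ (2 * m) * (1 + Real.log (1 / r)) ^ m)) + 1,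
    by positivity, ?_⟩
  have e2 : ∀ᶠ n in atTop, ∀ z ∈ T, ∀ (M : ℝ) (W : ℤ × ℤ → ℝ),
      (∀ v, |W v| ≤ M * δ n ^ 2) → (∀ v : ℤ × ℤ, ((δ n * v.1, δ n * v.2) : ℝ × ℝ) ∉ wkBall z r → W v = 0) →
      lmE (at92Adm (F n)) (at92W t) (fun p => (∑ v ∈ cornersOf (F n), W v * atHeight p.1 p.2 v) ^ (2 * m)) ≤
        C * (M * r ^ 2) ^ (2 * m) * (1 + Real.log (1 / r)) ^ m :=
    (Filter.eventually_all_finset T).2 fun z hz => H z (hTK z hz) r hr le_rfl
  filter_upwards [e2] with n hn2 M g hg hg0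
  have hδ := hF.1 n
  have hM : 0 ≤ M := (abs_nonneg _).trans (hg 0)
  have hMp : 0 ≤ M ^ (2 * m) := by positivity
  have hwnn : ∀ p ∈ at92Adm (F n), 0 ≤ at92W t p := fun p _ => (pow_pos ht _).le
  obtain ⟨A, hA⟩ : ∃ A : ℝ, A = (T.card : ℝ) ^ (2 * m) * ((T.card : ℝ) * (C * (r ^ 2) ^ (2 * m) * (1 + Real.log (1 / r)) ^ m)) :=
    ⟨_, rfl⟩
  rw [← hA]
  have hA0 : 0 ≤ A := by rw [hA]; positivity
  rw [gsm182_gaussM]
  rcases T.eq_empty_or_nonempty with hT | hT
  · -- `K` is empty, `g = 0`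
    have hg' : ∀ y, g y = 0 := fun y => hg0 y (fun hy => by
      have := hcov hy
      rw [hT] at this
      simp at this)
    have hz : (fun p : at92Cfg (F n) => (∑ v ∈ cornersOf (F n), (δ n ^ 2 * g (δ n * v.1, δ n * v.2)) * atHeight p.1 p.2 v) ^ (2 * m)) =
        fun _ => (0 : ℝ) ^ (2 * m) := by
      funext p
      congr 1
      apply Finset.sum_eq_zero
      intro v _
      rw [hg', mul_zero, zero_mul]
    rw [hz, lm_E_const (at92_Z_pos ht (F n))]
    rcases Nat.eq_zero_or_pos m with rfl | hm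
    · simp only [mul_zero, pow_zero, mul_one]
      linarith
    · rw [zero_pow (by omega)]
      positivity
  -- the selection of one disc for every site
  let pos : ℤ × ℤ → ℝ × ℝ := fun v => (δ n * v.1, δ n * v.2)
  let W0 : ℤ × ℤ → ℝ := fun v => δ n ^ 2 * g (pos v)
  let P : ℤ × ℤ → ℝ × ℝ → Prop := fun v z => z ∈ T ∧ pos v ∈ wkBall z r
  let sel : ℤ × ℤ → ℝ × ℝ := fun v => if h : ∃ z, P v z then h.choose else 0
  let w : ℝ × ℝ → ℤ × ℤ → ℝ := fun z v => if (∃ z', P v z') ∧ sel v = z then W0 v else 0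
  have hsel : ∀ v, (∃ z, P v z) → P v (sel v) := by
    intro v hv
    simp only [sel, dif_pos hv]
    exact hv.choose_spec
  have hWb : ∀ v, |W0 v| ≤ M * δ n ^ 2 := by
    intro v
    simp only [W0]
    rw [abs_mul, abs_of_nonneg (by positivity : (0 : ℝ) ≤ δ n ^ 2), mul_comm]
    exact mul_le_mul_of_nonneg_right (hg _) (by positivity)
  have hw1 : ∀ z v, |w z v| ≤ M * δ n ^ 2 := by
    intro z v
    simp only [w]
    split_ifs
    · exact hWb v
    · rw [abs_zero]; positivity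
  have hw2 : ∀ z (v : ℤ × ℤ), ((δ n * v.1, δ n * v.2) : ℝ × ℝ) ∉ wkBall z r → w z v = 0 := by
    intro z v hv
    simp only [w]
    rw [if_neg]
    rintro ⟨h1, h2⟩
    exact hv (h2 ▸ (hsel v h1).2)
  have hw3 : ∀ v, ∑ z ∈ T, w z v = W0 v := by
    intro v
    by_cases hv : ∃ z, P v z
    · have : ∀ z, w z v = if sel v = z then W0 v else 0 := by
        intro z; simp only [w, hv, true_and]
      simp_rw [this]
      rw [Finset.sum_ite_eq, if_pos (hsel v hv).1]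
    · have h1 : ∀ z, w z v = 0 := by
        intro z; simp only [w, hv, false_and, if_false]
      simp_rw [h1]
      rw [Finset.sum_const_zero]
      symm
      simp only [W0]
      rw [hg0, mul_zero]
      intro hyK
      apply hv
      have := hcov hyK
      simp only [mem_iUnion] at this
      obtain ⟨z, hz, hyz⟩ := this
      have hyz' : C0467.sqDist (pos v) z < r ^ 2 := hyz
      exact ⟨z, hz, hyz'.le⟩
  have hsplit : ∀ p : at92Cfg (F n), ∑ v ∈ cornersOf (F n), (δ n ^ 2 * g (δ n * v.1, δ n * v.2)) * atHeight p.1 p.2 v =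
      ∑ z ∈ T, ∑ v ∈ cornersOf (F n), w z v * atHeight p.1 p.2 v := by
    intro p
    rw [Finset.sum_comm]
    refine Finset.sum_congr rfl fun v _ => ?_
    rw [← Finset.sum_mul, hw3]
  have step1 : lmE (at92Adm (F n)) (at92W t)
      (fun p => (∑ v ∈ cornersOf (F n), (δ n ^ 2 * g (δ n * v.1, δ n * v.2)) * atHeight p.1 p.2 v) ^ (2 * m)) ≤
      lmE (at92Adm (F n)) (at92W t) (fun p => (T.card : ℝ) ^ (2 * m) *
        ∑ z ∈ T, (∑ v ∈ cornersOf (F n), w z v * atHeight p.1 p.2 v) ^ (2 * m)) := by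
    apply lm_E_mono hwnn
    intro p _
    rw [hsplit p]
    exact lim_sm_power_mean T hT _ m
  refine step1.trans ?_
  rw [lm_E_mul_left, lm_E_sum]
  have step2 : ∑ z ∈ T, lmE (at92Adm (F n)) (at92W t)
      (fun p => (∑ v ∈ cornersOf (F n), w z v * atHeight p.1 p.2 v) ^ (2 * m)) ≤
      ∑ _z ∈ T, C * (M * r ^ 2) ^ (2 * m) * (1 + Real.log (1 / r)) ^ m :=
    Finset.sum_le_sum fun z hz => hn2 z hz M (w z) (hw1 z) (hw2 z)
  rw [Finset.sum_const, nsmul_eq_mul] at step2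
  calc (T.card : ℝ) ^ (2 * m) * ∑ z ∈ T, lmE (at92Adm (F n)) (at92W t)
        (fun p => (∑ v ∈ cornersOf (F n), w z v * atHeight p.1 p.2 v) ^ (2 * m))
      ≤ (T.card : ℝ) ^ (2 * m) * ((T.card : ℝ) * (C * (M * r ^ 2) ^ (2 * m) * (1 + Real.log (1 / r)) ^ m)) :=
        mul_le_mul_of_nonneg_left step2 (by positivity)
    _ = A * M ^ (2 * m) := by rw [hA, mul_pow M]; ring
    _ ≤ (A + 1) * M ^ (2 * m) := by nlinarith

/-- **(A0)+(A1) for the Ashkin--Teller height in every bounded open `D`, from the lattice log-moment bound.** -/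
theorem gsm182_sm {t : ℝ} (ht : 0 < t) (hIn : Gsm182In t) {D : Set (ℝ × ℝ)} (hD : IsOpen D) (hB : Bornology.IsBounded D)
    {δ : ℕ → ℝ} {F : ℕ → Finset (ℤ × ℤ)} (hF : IsAdmissibleApprox D δ F) : GaussSM t D δ F := by
  refine ⟨fun m K hK hKD => ?_, fun m K hK hKD => ?_⟩
  · obtain ⟨C, hC, H⟩ := gsm182_fixed ht hIn hD hB hF hK hKD m
    refine ⟨C, hC, fun M g _ hg hg0 => ?_⟩
    filter_upwards [H] with n hn
    exact hn M g hg hg0
  · obtain ⟨C, r0, hC, hr0, hr01, H⟩ := gsm182_small hIn hD hB hF hK hKD m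
    refine ⟨C, r0, hC, hr0, hr01, fun z hz r hr hrr M g _ hg hg0 => ?_⟩
    filter_upwards [H z hz r hr hrr] with n hn
    exact hn M g hg hg0

/-- the input is the exit of unit RSW -/
theorem gsm182_in_of_exit (t : ℝ) (ht1 : 1 / 2 ≤ t) (ht2 : t < 1) : Gsm182In t :=
  fun p => exit_rsw_mom_smear t ht1 ht2 p

/-- **the contract `gauss_sm` of Exit/GAUSS, verbatim** -/
theorem gsm182_gauss_sm (t : ℝ) (ht1 : 1 / 2 ≤ t) (ht2 : t < 1) (D : Set (ℝ × ℝ)) (hD : GaussDom D) (δ : ℕ → ℝ)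
    (F : ℕ → Finset (ℤ × ℤ)) (hF : IsAdmissibleApprox D δ F) : GaussSM t D δ F :=
  gsm182_sm (by linarith) (gsm182_in_of_exit t ht1 ht2) hD.1 hD.2.1 hF

end Claimed.Agent.R292
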