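import Claimed.Agent.R292.Defs.GaussArch
import Claimed.Agent.R292.Gauss.Sm182
import Claimed.Agent.R292.Height

/-!
# Row 292 (S0540), Gauss/Depth172 : [DEPTH] `GaussDepth` FROM THE LATTICE LOG-MOMENT BOUND      (owner helper172; prefix `gdp172_`)      0 sorry of its own

TEX[prop:boundary-decay] ("the pairing bound itself is uniformly bounded near the wall"), TEX[eq:flat-scaled-moments] at the scale of the depth.
Port of `bdy_sm_core`, `bdy_sm_depth` (R291/Bdy/Mom Part 1) to the square lattice; the tools of 182 (Gauss/Sm182) are imported.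
SCALE INVARIANT radii (`dep = limDep D z`): test `r = θ dep`, inner clearance `c = dep/2`, outer radius `2 dep` (a face off `F n` near the nearest frontier point), `θ = 1/24`.
* `gdp172_ball_dep`     the sup ball of radius `limDep D z` about `z ∈ D` lies in `D`
* `gdp172_radii`        base point, inner radius `a`, outer radius `N` with `N / a ≤ 4 Rout / r`
* `gdp172_core`         one mesh: weights `|W v| ≤ M d²` carried by the disc of radius `r`:  `E (∑ W H)^(2m) ≤ (36 C₁ (M r²) (1 + √log(4 Rout/r)))^(2m)`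
* `gdp172_off`          under `IsAdmissibleApprox`: eventually a face off `F n` at sup distance `≤ 2 dep` of `z`
* **`gdp172_depth`**    `Gsm182In t → GaussDepth t D δ F`;   `gdp172_depth_exit` from `exit_rsw_mom_smear`
-/

set_option autoImplicit false

namespace Claimed.Agent.R292

open MeasureTheory Filter Topology Set
open Claims Claims.C0468 Claimed.Agent.R291

/-- the sup ball of radius `limDep D z` about `z ∈ D` lies in `D` -/
theorem gdp172_ball_dep {D : Set (ℝ × ℝ)} (hB : Bornology.IsBounded D) {z : ℝ × ℝ} (hz : z ∈ D) :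
    Metric.ball z (limDep D z) ⊆ D := by
  have hne : D ≠ univ := by
    intro h
    rw [h] at hB
    exact (NormedSpace.unbounded_univ ℝ (ℝ × ℝ)) hB
  obtain ⟨y, hy, hyd⟩ := exists_mem_frontier_infDist_compl_eq_dist hz hne
  have h1 : limDep D z ≤ Metric.infDist z Dᶜ := by
    rw [hyd]
    exact Metric.infDist_le_dist_of_mem hy
  exact (Metric.ball_subset_ball h1).trans Metric.ball_infDist_compl_subset

/-- the three integer data, scale invariant -/
theorem gdp172_radii {F : Finset (ℤ × ℤ)} {d c Ro r : ℝ} (hd : 0 < d) (hr : 0 < r)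
    (hdr : d ≤ r) (hrc : 12 * r ≤ c) (hrR : r ≤ Ro) {z : ℝ × ℝ}
    (hin : ∀ y : ℝ × ℝ, |y.1 - z.1| ≤ c → |y.2 - z.2| ≤ c → y ∈ faceRegionSq d F)
    (hout : ∃ f : ℤ × ℤ, f ∉ F ∧ |d * (f.1 : ℝ) - z.1| ≤ Ro ∧ |d * (f.2 : ℝ) - z.2| ≤ Ro) :
    ∃ (z0 : ℤ × ℤ) (a N : ℕ), 1 ≤ a ∧ (a : ℝ) * d ≤ 3 * r ∧ 0 < (N : ℝ) ∧ (N : ℝ) / a ≤ 4 * Ro / r ∧
      (∀ v : ℤ × ℤ, ((d * v.1, d * v.2) : ℝ × ℝ) ∈ wkBall z r → v ∈ rswBox z0 a) ∧
      rswBox z0 (3 * a) ⊆ F ∧ ¬ rswBox z0 N ⊆ F := by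
  obtain ⟨x1, hx1⟩ : ∃ x : ℤ, x = ⌊z.1 / d⌋ := ⟨_, rfl⟩
  obtain ⟨x2, hx2⟩ : ∃ x : ℤ, x = ⌊z.2 / d⌋ := ⟨_, rfl⟩
  obtain ⟨a, ha⟩ : ∃ a : ℕ, a = ⌈r / d⌉₊ + 1 := ⟨_, rfl⟩
  obtain ⟨N, hN⟩ : ∃ N : ℕ, N = ⌈Ro / d⌉₊ + 2 := ⟨_, rfl⟩
  have hRo : 0 < Ro := lt_of_lt_of_le hr hrR
  have f1 : d * (x1 : ℝ) ≤ z.1 := by
    have := Int.floor_le (z.1 / d)
    rw [le_div_iff₀ hd] at this
    rw [hx1]; linarith
  have f2 : z.1 < d * (x1 : ℝ) + d := by
    have := Int.lt_floor_add_one (z.1 / d)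
    rw [div_lt_iff₀ hd] at this
    rw [hx1]; linarith
  have g1 : d * (x2 : ℝ) ≤ z.2 := by
    have := Int.floor_le (z.2 / d)
    rw [le_div_iff₀ hd] at this
    rw [hx2]; linarith
  have g2 : z.2 < d * (x2 : ℝ) + d := by
    have := Int.lt_floor_add_one (z.2 / d)
    rw [div_lt_iff₀ hd] at this
    rw [hx2]; linarith
  have a1 : r + d ≤ d * (a : ℝ) := by
    have := Nat.le_ceil (r / d)
    rw [div_le_iff₀ hd] at this
    rw [ha]; push_cast; linarith
  have a2 : d * (a : ℝ) ≤ 3 * r := by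
    have h1 := Nat.ceil_lt_add_one (a := r / d) (by positivity)
    have h2 : (⌈r / d⌉₊ : ℝ) * d < (r / d + 1) * d := mul_lt_mul_of_pos_right h1 hd
    have h3 : (r / d + 1) * d = r + d := by field_simp
    rw [ha]; push_cast; linarith
  have a0 : (0 : ℝ) < a := by rw [ha]; positivity
  have ha1 : 1 ≤ a := by rw [ha]; omega
  have n1 : Ro + 2 * d ≤ d * (N : ℝ) := by
    have := Nat.le_ceil (Ro / d)
    rw [div_le_iff₀ hd] at this
    rw [hN]; push_cast; linarith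
  have n2 : d * (N : ℝ) ≤ 4 * Ro := by
    have h1 := Nat.ceil_lt_add_one (a := Ro / d) (by positivity)
    have h2 : (⌈Ro / d⌉₊ : ℝ) * d < (Ro / d + 1) * d := mul_lt_mul_of_pos_right h1 hd
    have h3 : (Ro / d + 1) * d = Ro + d := by field_simp
    rw [hN]; push_cast; linarith
  have n0 : (0 : ℝ) < N := by rw [hN]; positivity
  refine ⟨(x1, x2), a, N, ha1, by linarith, n0, ?_, ?_, ?_, ?_⟩
  · rw [div_le_div_iff₀ a0 hr]
    have e1 : d * ((N : ℝ) * r) ≤ d * (4 * Ro * a) := by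
      have t1 : d * (N : ℝ) * r ≤ 4 * Ro * r := mul_le_mul_of_nonneg_right n2 hr.le
      have t2 : 4 * Ro * r ≤ 4 * Ro * (d * a) := mul_le_mul_of_nonneg_left (by linarith) (by linarith)
      calc d * ((N : ℝ) * r) = d * (N : ℝ) * r := by ring
        _ ≤ 4 * Ro * (d * a) := t1.trans t2
        _ = d * (4 * Ro * a) := by ring
    exact le_of_mul_le_mul_left e1 hd
  · intro v h1
    have h2 : (d * v.1 - z.1) ^ 2 + (d * v.2 - z.2) ^ 2 ≤ r ^ 2 := h1
    have b1 : |d * v.1 - z.1| ≤ r :=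
      abs_le_of_sq_le_sq (by linarith [sq_nonneg (d * (v.2 : ℝ) - z.2)]) hr.le
    have b2 : |d * v.2 - z.2| ≤ r :=
      abs_le_of_sq_le_sq (by linarith [sq_nonneg (d * (v.1 : ℝ) - z.1)]) hr.le
    rw [abs_le] at b1 b2
    rw [gsm182_mem_box]
    refine ⟨⟨?_, ?_⟩, ?_, ?_⟩
    · have : d * ((x1 : ℝ) - a) ≤ d * v.1 := by rw [mul_sub]; linarith
      have := le_of_mul_le_mul_left this hd
      exact_mod_cast this
    · have : d * (v.1 : ℝ) < d * ((x1 : ℝ) + a) := by rw [mul_add]; linarith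
      have := lt_of_mul_lt_mul_left this hd.le
      exact_mod_cast this
    · have : d * ((x2 : ℝ) - a) ≤ d * v.2 := by rw [mul_sub]; linarith
      have := le_of_mul_le_mul_left this hd
      exact_mod_cast this
    · have : d * (v.2 : ℝ) < d * ((x2 : ℝ) + a) := by rw [mul_add]; linarith
      have := lt_of_mul_lt_mul_left this hd.le
      exact_mod_cast this
  · intro f hf
    rw [gsm182_mem_box] at hf
    obtain ⟨⟨c1, c2⟩, c3, c4⟩ := hf
    have c1' : (x1 : ℝ) - 3 * a ≤ f.1 := by exact_mod_cast c1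
    have c2' : (f.1 : ℝ) + 1 ≤ x1 + 3 * a := by exact_mod_cast c2
    have c3' : (x2 : ℝ) - 3 * a ≤ f.2 := by exact_mod_cast c3
    have c4' : (f.2 : ℝ) + 1 ≤ x2 + 3 * a := by exact_mod_cast c4
    have m1 := mul_le_mul_of_nonneg_left c1' hd.le
    have m2 := mul_le_mul_of_nonneg_left c2' hd.le
    have m3 := mul_le_mul_of_nonneg_left c3' hd.le
    have m4 := mul_le_mul_of_nonneg_left c4' hd.le
    rw [mul_sub] at m1 m3
    rw [mul_add, mul_add] at m2 m4
    have e3 : d * (3 * (a : ℝ)) = 3 * (d * a) := by ring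
    rw [e3] at m1 m2 m3 m4
    apply gsm182_face_of_centre hd
    apply hin
    · simp only
      rw [abs_le, mul_add]
      constructor <;> linarith
    · simp only
      rw [abs_le, mul_add]
      constructor <;> linarith
  · intro hsub
    obtain ⟨f, hfF, k1, k2⟩ := hout
    refine hfF (hsub ?_)
    rw [abs_le] at k1 k2
    rw [gsm182_mem_box]
    refine ⟨⟨?_, ?_⟩, ?_, ?_⟩
    · have : d * ((x1 : ℝ) - N) ≤ d * f.1 := by rw [mul_sub]; linarith
      have := le_of_mul_le_mul_left this hd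
      exact_mod_cast this
    · have : d * (f.1 : ℝ) < d * ((x1 : ℝ) + N) := by rw [mul_add]; linarith
      have := lt_of_mul_lt_mul_left this hd.le
      exact_mod_cast this
    · have : d * ((x2 : ℝ) - N) ≤ d * f.2 := by rw [mul_sub]; linarith
      have := le_of_mul_le_mul_left this hd
      exact_mod_cast this
    · have : d * (f.2 : ℝ) < d * ((x2 : ℝ) + N) := by rw [mul_add]; linarith
      have := lt_of_mul_lt_mul_left this hd.le
      exact_mod_cast this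

/-- the estimate at one mesh, scale invariant -/
theorem gdp172_core {t : ℝ} {m : ℕ} {C1 : ℝ} (hC1 : 0 < C1)
    (hIn : ∀ (F : Finset (ℤ × ℤ)) (z0 : ℤ × ℤ) (a n : ℕ) (A : ℝ) (w : (ℤ × ℤ) →₀ ℝ),
      RswJordan F → 1 ≤ a → rswBox z0 (3 * a) ⊆ F → ¬ rswBox z0 n ⊆ F → RswSm z0 a A w →
      rswE t F true (fun ω => |rswArr w (rswH F ω)| ^ (2 * m)) ≤
        (C1 * A * (1 + Real.sqrt (Real.log ((n : ℝ) / a)))) ^ (2 * m))
    {F : Finset (ℤ × ℤ)} (hJ : RswJordan F) {d c Ro r : ℝ} (hd : 0 < d) (hr : 0 < r)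
    (hdr : d ≤ r) (hrc : 12 * r ≤ c) (hrR : r ≤ Ro) {z : ℝ × ℝ}
    (hin : ∀ y : ℝ × ℝ, |y.1 - z.1| ≤ c → |y.2 - z.2| ≤ c → y ∈ faceRegionSq d F)
    (hout : ∃ f : ℤ × ℤ, f ∉ F ∧ |d * (f.1 : ℝ) - z.1| ≤ Ro ∧ |d * (f.2 : ℝ) - z.2| ≤ Ro)
    {M : ℝ} {W : ℤ × ℤ → ℝ} (hW : ∀ v, |W v| ≤ M * d ^ 2)
    (hW0 : ∀ v : ℤ × ℤ, ((d * v.1, d * v.2) : ℝ × ℝ) ∉ wkBall z r → W v = 0) :
    lmE (at92Adm F) (at92W t) (fun p => (∑ v ∈ cornersOf F, W v * atHeight p.1 p.2 v) ^ (2 * m)) ≤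
      (C1 * (36 * (M * r ^ 2)) * (1 + Real.sqrt (Real.log (4 * Ro / r)))) ^ (2 * m) := by
  classical
  have hd2 : 0 < d ^ 2 := by positivity
  have hM : 0 ≤ M := by
    have := (abs_nonneg _).trans (hW 0)
    by_contra hc
    push Not at hc
    have : M * d ^ 2 < 0 := mul_neg_of_neg_of_pos hc hd2
    linarith
  obtain ⟨z0, a, N, ha1, a2, n0, hx, hsupp, hbox, hnot⟩ := gdp172_radii hd hr hdr hrc hrR hin hout
  have a0 : (0 : ℝ) < a := by exact_mod_cast ha1
  obtain ⟨w, hwv⟩ : ∃ w : (ℤ × ℤ) →₀ ℝ, w = Finsupp.onFinset (cornersOf F) (fun v => if v ∈ cornersOf F then W v else 0)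
    (fun v hv => by by_contra hc; exact hv (if_neg hc)) := ⟨_, rfl⟩
  have hwv' : ∀ v, w v = if v ∈ cornersOf F then W v else 0 := fun v => by rw [hwv]; rfl
  have hwabs : ∀ v, |w v| ≤ M * d ^ 2 := by
    intro v
    rw [hwv']
    split_ifs
    · exact hW v
    · rw [abs_zero]; positivity
  obtain ⟨A, hA⟩ : ∃ A : ℝ, A = 4 * M * ((a : ℝ) * d) ^ 2 := ⟨_, rfl⟩
  have hA0 : 0 ≤ A := by rw [hA]; positivity
  have hA36 : A ≤ 36 * (M * r ^ 2) := by
    have e1 : ((a : ℝ) * d) ^ 2 ≤ (3 * r) ^ 2 := pow_le_pow_left₀ (by positivity) a2 2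
    have e2 := mul_le_mul_of_nonneg_left e1 hM
    calc A = 4 * (M * ((a : ℝ) * d) ^ 2) := by rw [hA]; ring
      _ ≤ 4 * (M * (3 * r) ^ 2) := by linarith
      _ = 36 * (M * r ^ 2) := by ring
  have hws : w.support ⊆ rswBox z0 a := by
    intro v hv
    rw [Finsupp.mem_support_iff, hwv'] at hv
    apply hsupp
    by_contra hc
    apply hv
    rw [hW0 v hc]
    simp
  have hSm : RswSm z0 a A w := by
    refine ⟨hws, ?_, ?_⟩
    · calc ∑ u ∈ w.support, |w u| ≤ ∑ u ∈ rswBox z0 a, |w u| :=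
            Finset.sum_le_sum_of_subset_of_nonneg hws fun _ _ _ => abs_nonneg _
        _ ≤ ∑ _u ∈ rswBox z0 a, M * d ^ 2 := Finset.sum_le_sum fun u _ => hwabs u
        _ = A := by rw [Finset.sum_const, nsmul_eq_mul, gsm182_card_box, hA]; ring
    · intro u
      have h1 := mul_le_mul_of_nonneg_right (hwabs u) (by positivity : (0 : ℝ) ≤ (a : ℝ) ^ 2)
      have h2 : 0 ≤ M * ((a : ℝ) * d) ^ 2 := by positivity
      calc |w u| * (a : ℝ) ^ 2 ≤ M * d ^ 2 * (a : ℝ) ^ 2 := h1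
        _ = M * ((a : ℝ) * d) ^ 2 := by ring
        _ ≤ A := by rw [hA]; linarith
  have key := hIn F z0 a N A w hJ ha1 hbox hnot hSm
  have hfun : (fun ω : RswCfg => |rswArr w (rswH F ω)| ^ (2 * m)) =
      fun ω => (fun p : at92Cfg F => (∑ v ∈ cornersOf F, W v * atHeight p.1 p.2 v) ^ (2 * m)) (rswTau F ω, rswTauD F ω) := by
    funext ω
    simp only
    rw [(even_two_mul m).pow_abs]
    congr 1
    unfold rswArr rswH
    rw [hwv, Finsupp.onFinset_sum _ (fun _ => by simp)]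
    refine Finset.sum_congr rfl fun v hv => ?_
    rw [if_pos hv]
  rw [hfun, gsm182_rswE t F (fun p : at92Cfg F => (∑ v ∈ cornersOf F, W v * atHeight p.1 p.2 v) ^ (2 * m))] at key
  refine key.trans ?_
  have hq : Real.sqrt (Real.log ((N : ℝ) / a)) ≤ Real.sqrt (Real.log (4 * Ro / r)) :=
    Real.sqrt_le_sqrt (Real.log_le_log (div_pos n0 a0) hx)
  have hq0 : 0 ≤ Real.sqrt (Real.log ((N : ℝ) / a)) := Real.sqrt_nonneg _
  apply pow_le_pow_left₀ (by positivity)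
  have hMr : 0 ≤ M * r ^ 2 := by positivity
  gcongr

/-- eventually there is a face off `F n` whose lower left corner is at sup distance `≤ 2 dep` of `z` -/
theorem gdp172_off {D : Set (ℝ × ℝ)} {δ : ℕ → ℝ} {F : ℕ → Finset (ℤ × ℤ)} (hF : IsAdmissibleApprox D δ F)
    {z q : ℝ × ℝ} (hq : q ∈ frontier D) {dep : ℝ} (hdep : 0 < dep) (hzq : dist z q = dep) :
    ∀ᶠ n in atTop, ∃ f : ℤ × ℤ, f ∉ F n ∧ |δ n * (f.1 : ℝ) - z.1| ≤ 2 * dep ∧ |δ n * (f.2 : ℝ) - z.2| ≤ 2 * dep := by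
  obtain ⟨h1, h0, _, γ, γs, _, _, hγ, h2, h3⟩ := hF
  rw [← hγ] at hq
  obtain ⟨x, rfl⟩ := hq
  have e1 : ∀ᶠ n in atTop, δ n < dep / 4 := h0.eventually (gt_mem_nhds (by positivity))
  filter_upwards [h3 (dep / 4) (by positivity), e1] with n hn hd
  have hδ := h1 n
  set y := γs n x with hy
  have hyfr : y ∈ frontier (faceRegionSq (δ n) (F n)) := by
    rw [← (h2 n).2.2]; exact mem_range_self x
  have hopen : IsOpen (faceRegionSq (δ n) (F n)) := by
    unfold faceRegionSq; exact isOpen_interior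
  have hynot : y ∉ faceRegionSq (δ n) (F n) := by
    intro hmem
    have := ((mem_sdiff y).mp hyfr).2
    rw [hopen.interior_eq] at this
    exact this hmem
  rw [at92h_region hδ] at hynot
  simp only [mem_ofPred_eq, not_forall] at hynot
  obtain ⟨f, hyf, hfF⟩ := hynot
  rw [at92h_mem_sq] at hyf
  obtain ⟨⟨p1, p2⟩, p3, p4⟩ := hyf
  have a3 := hn x
  have a4 : (y.1 - (γ x).1) ^ 2 < (dep / 4) ^ 2 := by nlinarith [sq_nonneg (y.2 - (γ x).2)]
  have a5 : (y.2 - (γ x).2) ^ 2 < (dep / 4) ^ 2 := by nlinarith [sq_nonneg (y.1 - (γ x).1)]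
  have b4 : |y.1 - (γ x).1| < dep / 4 := abs_lt_of_sq_lt_sq a4 (by positivity)
  have b5 : |y.2 - (γ x).2| < dep / 4 := abs_lt_of_sq_lt_sq a5 (by positivity)
  have c1 : |z.1 - (γ x).1| ≤ dep := by
    rw [← hzq, Prod.dist_eq, ← Real.dist_eq]; exact le_max_left _ _
  have c2 : |z.2 - (γ x).2| ≤ dep := by
    rw [← hzq, Prod.dist_eq, ← Real.dist_eq]; exact le_max_right _ _
  rw [abs_lt] at b4 b5
  rw [abs_le] at c1 c2
  refine ⟨f, hfF, ?_, ?_⟩
  · rw [abs_le]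
    constructor <;> nlinarith
  · rw [abs_le]
    constructor <;> nlinarith

/-- **[DEPTH]** -/
theorem gdp172_depth {t : ℝ} (hIn : Gsm182In t) {D : Set (ℝ × ℝ)} (hD : IsOpen D) (hB : Bornology.IsBounded D)
    {δ : ℕ → ℝ} {F : ℕ → Finset (ℤ × ℤ)} (hF : IsAdmissibleApprox D δ F) : GaussDepth t D δ F := by
  obtain ⟨C1, hC1, hIn'⟩ := hIn (2 * 2)
  set θ : ℝ := 1 / 24 with hθ
  set Q : ℝ := 1 + Real.sqrt (Real.log (4 * 2 / θ)) with hQ
  have hQ0 : 0 < Q := by have := Real.sqrt_nonneg (Real.log (4 * 2 / θ)); rw [hQ]; linarith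
  refine ⟨θ, (C1 * 36 * Q) ^ 4, by rw [hθ]; norm_num, by rw [hθ]; norm_num, by positivity,
    fun z hz A g hA hgc hg0 hgA hgs => ?_⟩
  have hne : D ≠ univ := by
    intro h
    rw [h] at hB
    exact (NormedSpace.unbounded_univ ℝ (ℝ × ℝ)) hB
  have hfr : (frontier D).Nonempty := by
    obtain ⟨y, hy, -⟩ := exists_mem_frontier_infDist_compl_eq_dist hz hne
    exact ⟨y, hy⟩
  set dep : ℝ := limDep D z with hdep
  have hd0 : 0 < dep := by
    have hzf : z ∉ frontier D := fun h => by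
      have := ((mem_sdiff z).mp h).2
      rw [hD.interior_eq] at this
      exact this hz
    exact (isClosed_frontier.notMem_iff_infDist_pos hfr).mp hzf
  obtain ⟨q, hq, hqd⟩ := isClosed_frontier.exists_infDist_eq_dist hfr z
  have hqd' : dist z q = dep := hqd.symm
  have hKc : IsCompact (Metric.closedBall z (dep / 2)) := isCompact_closedBall z _
  have hKD : Metric.closedBall z (dep / 2) ⊆ D :=
    (Metric.closedBall_subset_ball (by linarith)).trans (gdp172_ball_dep hB hz)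
  have e1 : ∀ᶠ n in atTop, δ n < θ * dep := hF.2.1.eventually (gt_mem_nhds (by positivity))
  filter_upwards [hF.2.2.1 _ hKc hKD, e1, gdp172_off hF hq hd0 hqd'] with n hn1 hn2 hn3
  have hδ := hF.1 n
  have hin : ∀ y : ℝ × ℝ, |y.1 - z.1| ≤ dep / 2 → |y.2 - z.2| ≤ dep / 2 → y ∈ faceRegionSq (δ n) (F n) := by
    intro y k1 k2
    apply hn1
    rw [Metric.mem_closedBall, Prod.dist_eq, Real.dist_eq, Real.dist_eq]
    exact max_le k1 k2
  have core := gdp172_core (m := 2) hC1 hIn' (gsm182_jordan_approx hF n) hδ (by positivity : 0 < θ * dep) hn2.le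
    (c := dep / 2) (by rw [hθ]; linarith) (Ro := 2 * dep) (by rw [hθ]; linarith) hin hn3
    (M := A / dep ^ 2) (W := fun v => δ n ^ 2 * g (δ n * v.1, δ n * v.2))
    (fun v => by
      rw [abs_mul, abs_of_nonneg (by positivity : 0 ≤ δ n ^ 2), abs_of_nonneg (hg0 _), mul_comm]
      exact mul_le_mul_of_nonneg_right (hgA _) (by positivity))
    (fun v hv => by rw [hgs _ hv, mul_zero])
  rw [gsm182_gaussM]
  refine core.trans ?_
  have eR : 4 * (2 * dep) / (θ * dep) = 4 * 2 / θ := by field_simp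
  have eM : A / dep ^ 2 * (θ * dep) ^ 2 = A * θ ^ 2 := by field_simp
  rw [eR, eM, ← hQ, ← mul_pow]
  have hθ2 : θ ^ 2 ≤ 1 := by rw [hθ]; norm_num
  have h36 : C1 * (36 * (A * θ ^ 2)) * Q ≤ C1 * 36 * Q * A := by
    have : C1 * (36 * (A * θ ^ 2)) * Q = (C1 * 36 * Q * A) * θ ^ 2 := by ring
    rw [this]
    exact mul_le_of_le_one_right (by positivity) hθ2
  exact pow_le_pow_left₀ (by positivity) h36 4

/-- [DEPTH] from the exit of unit RSW -/
theorem gdp172_depth_exit (t : ℝ) (ht1 : 1 / 2 ≤ t) (ht2 : t < 1) {D : Set (ℝ × ℝ)} (hD : GaussDom D)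
    {δ : ℕ → ℝ} {F : ℕ → Finset (ℤ × ℤ)} (hF : IsAdmissibleApprox D δ F) : GaussDepth t D δ F :=
  gdp172_depth (gsm182_in_of_exit t ht1 ht2) hD.1 hD.2.1 hF

end Claimed.Agent.R292
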