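import Claimed.Agent.R292.Defs.GAUSS
import Claimed.Agent.R292.Defs.Screen
import Claimed.Agent.R292.Height
import Claimed.Agent.R291.Lim.Kit

/-!
# Row 292 (S0540), Gauss/Harm162 : THE CONTRACT `gauss_harm` (A2loc) FROM THE CONTRACT `at_screen`      (owner helper162, unit GAUSS; prefix `gh162_`, defs `gh162*`, `Gh162*`)

AT paper, 06-gaussian.tex l.426-470 ("separated spectator heights are legitimate exterior observations" + truncation).  0 sorry: the statement of `at_screen`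
(Exit/Screen, head 229) is the hypothesis `Gh162Screen t`; the moments are the hypothesis `GaussSM t D δ F` (field `fix` only).

* NO DETOUR CURVE, NO JORDAN ARGUMENT.  A corner outside the closed square `Q` lies strictly to the east, west, north or south of `Q`; it walks STRAIGHT away from `Q` until it meets
  the polygon (`F` is finite).  All the corners and faces read on the way are outside `Q`:  `gh162_walk`, `gh162_height_ext`, `gh162_X_ext`.
* `ScrExt` quantifies over ALL pairs of spins, and the frozen `atHeight` is junk on the pairs which are not admissible.  `gh162Ext δ F Q A p` := the value of `A` at any ADMISSIBLE pair which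
  agrees with `p` outside `Q` (`0` if there is none): it is exterior for all pairs, and equals `A` on the admissible ones:  `gh162_ext_scr`, `gh162_ext_eq`, `gh162_ext_abs`.
* truncation of the spectator product at level `M`:  `|E(XP)| ≤ M |E(X tr_M(P)/M)| + (E X² + E P⁴)/(2M)`:  `gh162_trunc`.
* the regions lie in one box (`gh162_region_box`: a bounded set whose frontier lies in a ball lies in the ball).
* **`gh162_harm`** : `Gh162Screen t → GaussSM t D δ F → GaussHarm t D δ F`.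
-/

set_option autoImplicit false

namespace Claimed.Agent.R292

open MeasureTheory Filter Topology Set
open scoped ContDiff
open Claims Claims.C0468 Claimed.Agent.R291

/-- the statement of the contract `at_screen` of unit SCREEN (Exit/Screen.lean), at one `t` -/
def Gh162Screen (t : ℝ) : Prop :=
  ∀ (z : ℝ × ℝ) (r r' R : ℝ), 0 < r → r < r' →
    ∀ φ : ℝ × ℝ → ℝ, ContDiff ℝ ((⊤ : ℕ∞) : WithTop ℕ∞) φ → tsupport φ ⊆ Metric.ball z (r / 1000) →
    ∀ ε : ℝ, 0 < ε →
    ∃ δ₀ : ℝ, 0 < δ₀ ∧ ∀ δ : ℝ, 0 < δ → δ < δ₀ → ∀ F : Finset (ℤ × ℤ), ScrFlat δ F →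
      scrSq z r' ⊆ faceRegionSq δ F → faceRegionSq δ F ⊆ scrSq z R →
      ∀ G : at92Cfg F → ℝ, (∀ p, |G p| ≤ 1) → ScrExt δ F (scrSq z r) G →
        |scrE t F (fun p => at92X δ (C0468.lap2 φ) p * G p)| ≤ ε

/-! ### agreement outside a window -/

/-- the two pairs of spins agree at the corners and at the face centres outside `Q` -/
def Gh162Agree (δ : ℝ) (F : Finset (ℤ × ℤ)) (Q : Set (ℝ × ℝ)) (p p' : at92Cfg F) : Prop :=
  (∀ v : cornersOf F, ((δ * (v.1.1 : ℝ), δ * (v.1.2 : ℝ)) : ℝ × ℝ) ∉ Q → p.1 v = p'.1 v) ∧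
  (∀ f : F, ((δ * ((f.1.1 : ℝ) + 1 / 2), δ * ((f.1.2 : ℝ) + 1 / 2)) : ℝ × ℝ) ∉ Q → p.2 f = p'.2 f)

theorem gh162_scrExt_iff {δ : ℝ} {F : Finset (ℤ × ℤ)} {Q : Set (ℝ × ℝ)} {A : at92Cfg F → ℝ} :
    ScrExt δ F Q A ↔ ∀ p p', Gh162Agree δ F Q p p' → A p = A p' :=
  ⟨fun h p p' hp => h p p' hp.1 hp.2, fun h p p' h1 h2 => h p p' ⟨h1, h2⟩⟩

theorem gh162_agree_refl (δ : ℝ) (F : Finset (ℤ × ℤ)) (Q : Set (ℝ × ℝ)) (p : at92Cfg F) : Gh162Agree δ F Q p p :=
  ⟨fun _ _ => rfl, fun _ _ => rfl⟩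

theorem Gh162Agree.symm' {δ : ℝ} {F : Finset (ℤ × ℤ)} {Q : Set (ℝ × ℝ)} {p p' : at92Cfg F} (h : Gh162Agree δ F Q p p') :
    Gh162Agree δ F Q p' p :=
  ⟨fun v hv => (h.1 v hv).symm, fun f hf => (h.2 f hf).symm⟩

theorem Gh162Agree.trans' {δ : ℝ} {F : Finset (ℤ × ℤ)} {Q : Set (ℝ × ℝ)} {p p' p'' : at92Cfg F} (h : Gh162Agree δ F Q p p')
    (h' : Gh162Agree δ F Q p' p'') : Gh162Agree δ F Q p p'' :=
  ⟨fun v hv => (h.1 v hv).trans (h'.1 v hv), fun f hf => (h.2 f hf).trans (h'.2 f hf)⟩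

theorem gh162_spin_eq {δ : ℝ} {F : Finset (ℤ × ℤ)} {Q : Set (ℝ × ℝ)} {p p' : at92Cfg F} (h : Gh162Agree δ F Q p p')
    {v : ℤ × ℤ} (hv : ((δ * (v.1 : ℝ), δ * (v.2 : ℝ)) : ℝ × ℝ) ∉ Q) : atSpin p.1 v = atSpin p'.1 v := by
  unfold atSpin
  by_cases hc : v ∈ cornersOf F
  · rw [dif_pos hc, dif_pos hc, h.1 ⟨v, hc⟩ hv]
  · rw [dif_neg hc, dif_neg hc]

theorem gh162_dual_eq {δ : ℝ} {F : Finset (ℤ × ℤ)} {Q : Set (ℝ × ℝ)} {p p' : at92Cfg F} (h : Gh162Agree δ F Q p p')
    {f : ℤ × ℤ} (hf : ((δ * ((f.1 : ℝ) + 1 / 2), δ * ((f.2 : ℝ) + 1 / 2)) : ℝ × ℝ) ∉ Q) : atDual p.2 f = atDual p'.2 f := by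
  unfold atDual
  by_cases hc : f ∈ F
  · rw [dif_pos hc, dif_pos hc, h.2 ⟨f, hc⟩ hf]
  · rw [dif_neg hc, dif_neg hc]

/-! ### the straight walk to the polygon -/

/-- abstract walk: `nxt` moves a corner across the face `fc`, the level `μ` increases by one, the property `good` is kept, the spins read agree -/
theorem gh162_walk {F : Finset (ℤ × ℤ)} {p p' : at92Cfg F} {Hv Hf Hv' Hf' : ℤ × ℤ → ℝ}
    (h : IsATHeight p.1 p.2 Hv Hf) (h' : IsATHeight p'.1 p'.2 Hv' Hf')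
    (good : ℤ × ℤ → Prop) (nxt fc : ℤ × ℤ → ℤ × ℤ) (μ : ℤ × ℤ → ℤ)
    (hfc : ∀ v, ¬ OnPolygon F v → fc v ∈ F)
    (hc1 : ∀ v, at92hCor (fc v) v) (hc2 : ∀ v, at92hCor (fc v) (nxt v))
    (hμ : ∀ v, μ (nxt v) = μ v + 1)
    (hg : ∀ v, good v → good (nxt v))
    (hs : ∀ v, good v → atSpin p.1 v = atSpin p'.1 v)
    (hd : ∀ v, good v → atDual p.2 (fc v) = atDual p'.2 (fc v)) :
    ∀ v ∈ cornersOf F, good v → Hv v = Hv' v := by
  classical
  rw [at92h_isHeight_iff] at h h'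
  obtain ⟨N, hN⟩ := Finset.exists_le ((cornersOf F).image μ)
  have hN' : ∀ v ∈ cornersOf F, μ v ≤ N := fun v hv => hN _ (Finset.mem_image_of_mem μ hv)
  have key : ∀ k : ℕ, ∀ v ∈ cornersOf F, good v → N - μ v ≤ k → Hv v = Hv' v := by
    intro k
    induction k with
    | zero =>
      intro v hv gv hk
      by_cases hP : OnPolygon F v
      · rw [h.1 v hv hP, h'.1 v hv hP]
      · have hw : nxt v ∈ cornersOf F := at92h_mem_corners.2 ⟨fc v, hfc v hP, hc2 v⟩
        have := hN' _ hw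
        rw [hμ] at this
        push_cast at hk
        omega
    | succ k ih =>
      intro v hv gv hk
      by_cases hP : OnPolygon F v
      · rw [h.1 v hv hP, h'.1 v hv hP]
      · have hw : nxt v ∈ cornersOf F := at92h_mem_corners.2 ⟨fc v, hfc v hP, hc2 v⟩
        have e := ih _ hw (hg v gv) (by rw [hμ]; push_cast at hk ⊢; omega)
        have a1 := h.2 _ (hfc v hP) v (hc1 v)
        have a2 := h.2 _ (hfc v hP) _ (hc2 v)
        have b1 := h'.2 _ (hfc v hP) v (hc1 v)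
        have b2 := h'.2 _ (hfc v hP) _ (hc2 v)
        rw [hs v gv, hd v gv] at a1
        rw [hs _ (hg v gv), hd v gv] at a2
        linarith
  intro v hv gv
  exact key (N - μ v).toNat v hv gv (Int.self_le_toNat _)

/-- **the heights outside a closed square are read from the spins outside the square** -/
theorem gh162_height_ext {δ : ℝ} (hδ : 0 < δ) {F : Finset (ℤ × ℤ)} {z : ℝ × ℝ} {r : ℝ} {p p' : at92Cfg F}
    {Hv Hf Hv' Hf' : ℤ × ℤ → ℝ} (h : IsATHeight p.1 p.2 Hv Hf) (h' : IsATHeight p'.1 p'.2 Hv' Hf')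
    (ha : Gh162Agree δ F (scrSq z r) p p') {v : ℤ × ℤ} (hv : v ∈ cornersOf F)
    (hvQ : ((δ * (v.1 : ℝ), δ * (v.2 : ℝ)) : ℝ × ℝ) ∉ scrSq z r) : Hv v = Hv' v := by
  have hcase : z.1 + r < δ * (v.1 : ℝ) ∨ δ * (v.1 : ℝ) < z.1 - r ∨ z.2 + r < δ * (v.2 : ℝ) ∨ δ * (v.2 : ℝ) < z.2 - r := by
    by_contra hcon
    push Not at hcon
    exact hvQ ⟨⟨hcon.2.1, hcon.1⟩, ⟨hcon.2.2.2, hcon.2.2.1⟩⟩
  have hin : ∀ w : ℤ × ℤ, ¬ OnPolygon F w → w ∈ F ∧ (w.1 - 1, w.2) ∈ F ∧ (w.1, w.2 - 1) ∈ F ∧ (w.1 - 1, w.2 - 1) ∈ F := by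
    intro w hw
    unfold OnPolygon at hw
    exact not_not.1 hw
  rcases hcase with c | c | c | c
  · refine gh162_walk h h' (fun w => z.1 + r < δ * (w.1 : ℝ)) (fun w => (w.1 + 1, w.2)) (fun w => w) (fun w => w.1)
      (fun w hw => (hin w hw).1) (fun w => by simp [at92hCor]) (fun w => by simp [at92hCor]) (fun w => rfl) ?_ ?_ ?_ v hv c
    · intro w gw
      simp only [Int.cast_add, Int.cast_one]
      nlinarith
    · intro w gw
      exact gh162_spin_eq ha fun hq => absurd hq.1.2 (not_le.2 gw)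
    · intro w gw
      refine gh162_dual_eq ha fun hq => absurd hq.1.2 (not_le.2 ?_)
      simp only
      nlinarith
  · refine gh162_walk h h' (fun w => δ * (w.1 : ℝ) < z.1 - r) (fun w => (w.1 - 1, w.2)) (fun w => (w.1 - 1, w.2)) (fun w => -w.1)
      (fun w hw => (hin w hw).2.1) (fun w => by simp [at92hCor]) (fun w => by simp [at92hCor]) (fun w => by simp only; ring) ?_ ?_ ?_ v hv c
    · intro w gw
      simp only [Int.cast_sub, Int.cast_one]
      nlinarith
    · intro w gw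
      exact gh162_spin_eq ha fun hq => absurd hq.1.1 (not_le.2 gw)
    · intro w gw
      refine gh162_dual_eq ha fun hq => absurd hq.1.1 (not_le.2 ?_)
      simp only [Int.cast_sub, Int.cast_one]
      nlinarith
  · refine gh162_walk h h' (fun w => z.2 + r < δ * (w.2 : ℝ)) (fun w => (w.1, w.2 + 1)) (fun w => w) (fun w => w.2)
      (fun w hw => (hin w hw).1) (fun w => by simp [at92hCor]) (fun w => by simp [at92hCor]) (fun w => rfl) ?_ ?_ ?_ v hv c
    · intro w gw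
      simp only [Int.cast_add, Int.cast_one]
      nlinarith
    · intro w gw
      exact gh162_spin_eq ha fun hq => absurd hq.2.2 (not_le.2 gw)
    · intro w gw
      refine gh162_dual_eq ha fun hq => absurd hq.2.2 (not_le.2 ?_)
      simp only
      nlinarith
  · refine gh162_walk h h' (fun w => δ * (w.2 : ℝ) < z.2 - r) (fun w => (w.1, w.2 - 1)) (fun w => (w.1, w.2 - 1)) (fun w => -w.2)
      (fun w hw => (hin w hw).2.2.1) (fun w => by simp [at92hCor]) (fun w => by simp [at92hCor]) (fun w => by simp only; ring) ?_ ?_ ?_ v hv c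
    · intro w gw
      simp only [Int.cast_sub, Int.cast_one]
      nlinarith
    · intro w gw
      exact gh162_spin_eq ha fun hq => absurd hq.2.1 (not_le.2 gw)
    · intro w gw
      refine gh162_dual_eq ha fun hq => absurd hq.2.1 (not_le.2 ?_)
      simp only [Int.cast_sub, Int.cast_one]
      nlinarith

/-- a smeared height whose test vanishes on the square is exterior on the pairs which have a height -/
theorem gh162_X_ext' {δ : ℝ} (hδ : 0 < δ) {F : Finset (ℤ × ℤ)} {z : ℝ × ℝ} {r : ℝ} {g : ℝ × ℝ → ℝ} (hg : ∀ y ∈ scrSq z r, g y = 0)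
    {p p' : at92Cfg F} (hp : ∃ Hf, IsATHeight p.1 p.2 (atHeight p.1 p.2) Hf) (hp' : ∃ Hf, IsATHeight p'.1 p'.2 (atHeight p'.1 p'.2) Hf)
    (ha : Gh162Agree δ F (scrSq z r) p p') : at92X δ g p = at92X δ g p' := by
  obtain ⟨Hf, h⟩ := hp
  obtain ⟨Hf', h'⟩ := hp'
  unfold at92X
  congr 1
  refine Finset.sum_congr rfl fun v hv => ?_
  by_cases hq : ((δ * (v.1 : ℝ), δ * (v.2 : ℝ)) : ℝ × ℝ) ∈ scrSq z r
  · rw [hg _ hq, mul_zero, mul_zero]
  · rw [gh162_height_ext hδ h h' ha hv hq]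

theorem gh162_X_ext {D : Set (ℝ × ℝ)} {δ : ℕ → ℝ} {F : ℕ → Finset (ℤ × ℤ)} (hF : IsAdmissibleApprox D δ F) (n : ℕ)
    {z : ℝ × ℝ} {r : ℝ} {g : ℝ × ℝ → ℝ} (hg : ∀ y ∈ scrSq z r, g y = 0) {p p' : at92Cfg (F n)} (hp : p ∈ at92Adm (F n))
    (hp' : p' ∈ at92Adm (F n)) (ha : Gh162Agree (δ n) (F n) (scrSq z r) p p') : at92X (δ n) g p = at92X (δ n) g p' :=
  gh162_X_ext' (hF.1 n) hg (at92h_spec_approx hF n ((at92_mem_adm p).1 hp)) (at92h_spec_approx hF n ((at92_mem_adm p').1 hp')) ha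

/-! ### exterior version of an observable which is exterior on the admissible pairs -/

open Classical in
/-- the value of `A` at any admissible pair which agrees with `p` outside `Q` -/
noncomputable def gh162Ext (δ : ℝ) (F : Finset (ℤ × ℤ)) (Q : Set (ℝ × ℝ)) (A : at92Cfg F → ℝ) (p : at92Cfg F) : ℝ :=
  if h : ∃ p', p' ∈ at92Adm F ∧ Gh162Agree δ F Q p p' then A (Classical.choose h) else 0

theorem gh162_ext_scr {δ : ℝ} {F : Finset (ℤ × ℤ)} {Q : Set (ℝ × ℝ)} {A : at92Cfg F → ℝ}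
    (hA : ∀ p ∈ at92Adm F, ∀ p' ∈ at92Adm F, Gh162Agree δ F Q p p' → A p = A p') : ScrExt δ F Q (gh162Ext δ F Q A) := by
  rw [gh162_scrExt_iff]
  intro p p' hpp
  unfold gh162Ext
  by_cases h : ∃ q, q ∈ at92Adm F ∧ Gh162Agree δ F Q p q
  · have h' : ∃ q, q ∈ at92Adm F ∧ Gh162Agree δ F Q p' q := by
      obtain ⟨q, hq, hpq⟩ := h
      exact ⟨q, hq, hpp.symm'.trans' hpq⟩
    rw [dif_pos h, dif_pos h']
    have s1 := Classical.choose_spec h
    have s2 := Classical.choose_spec h'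
    exact hA _ s1.1 _ s2.1 (s1.2.symm'.trans' (hpp.trans' s2.2))
  · have h' : ¬ ∃ q, q ∈ at92Adm F ∧ Gh162Agree δ F Q p' q := by
      rintro ⟨q, hq, hpq⟩
      exact h ⟨q, hq, hpp.trans' hpq⟩
    rw [dif_neg h, dif_neg h']

theorem gh162_ext_eq {δ : ℝ} {F : Finset (ℤ × ℤ)} {Q : Set (ℝ × ℝ)} {A : at92Cfg F → ℝ}
    (hA : ∀ p ∈ at92Adm F, ∀ p' ∈ at92Adm F, Gh162Agree δ F Q p p' → A p = A p') {p : at92Cfg F} (hp : p ∈ at92Adm F) :
    gh162Ext δ F Q A p = A p := by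
  unfold gh162Ext
  have h : ∃ q, q ∈ at92Adm F ∧ Gh162Agree δ F Q p q := ⟨p, hp, gh162_agree_refl δ F Q p⟩
  rw [dif_pos h]
  have s1 := Classical.choose_spec h
  exact (hA _ hp _ s1.1 s1.2).symm

theorem gh162_ext_abs {δ : ℝ} {F : Finset (ℤ × ℤ)} {Q : Set (ℝ × ℝ)} {A : at92Cfg F → ℝ} (hA : ∀ p, |A p| ≤ 1) (p : at92Cfg F) :
    |gh162Ext δ F Q A p| ≤ 1 := by
  unfold gh162Ext
  split_ifs with h
  · exact hA _
  · simp

/-! ### truncation -/

/-- truncation of the second factor at level `M` -/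
theorem gh162_trunc {α : Type*} {A : Finset α} {w : α → ℝ} (hw : ∀ a ∈ A, 0 ≤ w a) (X P : α → ℝ) {M : ℝ} (hM : 0 < M) :
    |lmE A w (fun a => X a * P a)| ≤ M * |lmE A w (fun a => X a * (limTr M (P a) / M))|
      + (lmE A w (fun a => X a ^ 2) + lmE A w (fun a => P a ^ 4)) / (2 * M) := by
  have e : lmE A w (fun a => X a * P a)
      = M * lmE A w (fun a => X a * (limTr M (P a) / M)) + lmE A w (fun a => X a * (P a - limTr M (P a))) := by
    rw [← lm_E_mul_left, ← lm_E_add]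
    refine lm_E_congr _ _ fun a _ => ?_
    field_simp
    ring
  have b : |lmE A w (fun a => X a * (P a - limTr M (P a)))| ≤ (lmE A w (fun a => X a ^ 2) + lmE A w (fun a => P a ^ 4)) / (2 * M) := by
    calc |lmE A w (fun a => X a * (P a - limTr M (P a)))| ≤ lmE A w (fun a => |X a * (P a - limTr M (P a))|) := lm_E_abs_le hw _
      _ ≤ lmE A w (fun a => (2 * M)⁻¹ * (X a ^ 2 + P a ^ 4)) := by
          refine lm_E_mono hw fun a _ => ?_
          have h1 := lim_tr_err hM (P a) (m := 1) le_rfl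
          simp only [mul_one, Nat.reduceSub, pow_one] at h1
          rw [abs_mul]
          have h2 : |X a| * |P a - limTr M (P a)| ≤ |X a| * (P a ^ 2 / M) := mul_le_mul_of_nonneg_left h1 (abs_nonneg _)
          have h3 : |X a| * P a ^ 2 ≤ (X a ^ 2 + P a ^ 4) / 2 := by
            have := sq_nonneg (|X a| - P a ^ 2)
            have hx : |X a| ^ 2 = X a ^ 2 := sq_abs _
            nlinarith
          calc |X a| * |P a - limTr M (P a)| ≤ |X a| * (P a ^ 2 / M) := h2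
            _ = (|X a| * P a ^ 2) / M := by ring
            _ ≤ ((X a ^ 2 + P a ^ 4) / 2) / M := by gcongr
            _ = (2 * M)⁻¹ * (X a ^ 2 + P a ^ 4) := by field_simp
      _ = (lmE A w (fun a => X a ^ 2) + lmE A w (fun a => P a ^ 4)) / (2 * M) := by
          rw [lm_E_mul_left, lm_E_add]
          field_simp
  rw [e]
  calc |M * lmE A w (fun a => X a * (limTr M (P a) / M)) + lmE A w (fun a => X a * (P a - limTr M (P a)))|
      ≤ |M * lmE A w (fun a => X a * (limTr M (P a) / M))| + |lmE A w (fun a => X a * (P a - limTr M (P a)))| := abs_add_le _ _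
    _ ≤ _ := by
        rw [abs_mul, abs_of_pos hM]
        exact add_le_add le_rfl b

/-! ### the moment system -/

theorem gh162_X_add (δ : ℝ) {F : Finset (ℤ × ℤ)} (g g' : ℝ × ℝ → ℝ) (p : at92Cfg F) :
    at92X δ (g + g') p = at92X δ g p + at92X δ g' p := by
  unfold at92X
  rw [← mul_add, ← Finset.sum_add_distrib]
  congr 1
  exact Finset.sum_congr rfl fun v _ => by rw [Pi.add_apply]; ring

theorem gh162_X_smul (δ c : ℝ) {F : Finset (ℤ × ℤ)} (g : ℝ × ℝ → ℝ) (p : at92Cfg F) :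
    at92X δ (c • g) p = c * at92X δ g p := by
  unfold at92X
  rw [mul_left_comm, Finset.mul_sum (a := c)]
  congr 1
  exact Finset.sum_congr rfl fun v _ => by rw [Pi.smul_apply, smul_eq_mul]; ring

theorem gh162_M_replicate (t δ : ℝ) (F : Finset (ℤ × ℤ)) (g : ℝ × ℝ → ℝ) (k : ℕ) :
    gaussM t δ F (Multiset.replicate k g) = lmE (at92Adm F) (at92W t) (fun p => at92X δ g p ^ k) := by
  unfold gaussM lmM
  simp only [Multiset.map_replicate, Multiset.prod_replicate]

/-- the frozen Ashkin-Teller laws are a moment system on the tests of `D` -/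
theorem gh162_ok {t : ℝ} (ht : 0 < t) {D : Set (ℝ × ℝ)} {δ : ℕ → ℝ} {F : ℕ → Finset (ℤ × ℤ)} (hSM : GaussSM t D δ F) :
    LmOk (lmV D) (fun n => at92Adm (F n)) (fun _ => at92W t) (fun n g p => at92X (δ n) g p) where
  wnn := fun n a _ => (pow_pos ht _).le
  Zpos := fun n => at92_Z_pos ht (F n)
  add := fun n g g' _ _ h _ => gh162_X_add (δ n) g g' h
  smul := fun n c g _ h _ => gh162_X_smul (δ n) c g h
  bdd := by
    intro g hg p hp
    obtain ⟨m, rfl⟩ := hp
    have hg' : WkTest D g := lm_mem_V.1 hg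
    obtain ⟨C, -, hC⟩ := hSM.fix m (tsupport g) hg'.comp hg'.sub
    obtain ⟨M, hM⟩ := hg'.cont.bounded_above_of_compact_support hg'.comp
    refine ⟨C * M ^ (2 * m), (hC M g hg' (fun y => by simpa using hM y) fun y hy => image_eq_zero_of_notMem_tsupport hy).mono fun n hn => ?_⟩
    rw [gh162_M_replicate] at hn
    rw [← two_mul]
    exact hn

/-! ### geometry -/

/-- a bounded set whose frontier lies in a closed ball about the origin lies in that ball -/
theorem gh162_subset_of_frontier {U : Set (ℝ × ℝ)} (hb : Bornology.IsBounded U) {R : ℝ} (hR : 0 ≤ R)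
    (hfr : frontier U ⊆ Metric.closedBall 0 R) : U ⊆ Metric.closedBall 0 R := by
  intro x hx
  by_contra hxR
  rw [mem_closedBall_zero_iff, not_le] at hxR
  have hx0 : 0 < ‖x‖ := lt_of_le_of_lt hR hxR
  obtain ⟨B, hB⟩ := hb.subset_closedBall (0 : ℝ × ℝ)
  set ray : Set (ℝ × ℝ) := (fun s : ℝ => s • x) '' Ici 1 with hray
  have hpre : IsPreconnected ray := isPreconnected_Ici.image _ (by fun_prop)
  have hnorm : ∀ y ∈ ray, R < ‖y‖ := by
    rintro _ ⟨s, hs, rfl⟩
    rw [norm_smul, Real.norm_eq_abs, abs_of_nonneg (le_trans zero_le_one hs)]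
    have : (1 : ℝ) ≤ s := hs
    nlinarith
  have hsub : ray ⊆ interior U ∪ (closure U)ᶜ := by
    intro y hy
    by_contra hcon
    rw [mem_union, not_or, mem_compl_iff, not_not] at hcon
    have : y ∈ frontier U := ⟨hcon.2, hcon.1⟩
    have h2 := hfr this
    rw [mem_closedBall_zero_iff] at h2
    exact absurd h2 (not_le.2 (hnorm y hy))
  have hdisj : Disjoint (interior U) (closure U)ᶜ :=
    disjoint_compl_right.mono_left (interior_subset.trans subset_closure)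
  have hxr : x ∈ ray := ⟨1, le_refl (1 : ℝ), one_smul _ _⟩
  set s0 : ℝ := max 1 ((|B| + 1) / ‖x‖) with hs0
  have hyr : s0 • x ∈ ray := ⟨s0, Set.mem_Ici.2 (le_max_left _ _), rfl⟩
  have hyU : s0 • x ∉ U := by
    intro hy
    have h1 := hB hy
    rw [mem_closedBall_zero_iff, norm_smul, Real.norm_eq_abs, abs_of_nonneg (le_trans zero_le_one (le_max_left _ _))] at h1
    have h2 : (|B| + 1) / ‖x‖ ≤ s0 := le_max_right _ _
    rw [div_le_iff₀ hx0] at h2
    have := le_abs_self B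
    linarith
  rcases hpre.subset_or_subset isOpen_interior isClosed_closure.isOpen_compl hdisj hsub with h | h
  · exact hyU (interior_subset (h hyr))
  · exact h hxr (subset_closure hx)

theorem gh162_region_bounded (δ : ℝ) (F : Finset (ℤ × ℤ)) : Bornology.IsBounded (faceRegionSq δ F) := by
  unfold faceRegionSq
  refine Bornology.IsBounded.subset ?_ interior_subset
  exact (Bornology.isBounded_biUnion_finset F).2 fun f _ => (Metric.isBounded_Icc _ _).prod (Metric.isBounded_Icc _ _)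

/-- eventually all the regions lie in one square about `z` -/
theorem gh162_region_box {D : Set (ℝ × ℝ)} (hDb : Bornology.IsBounded D) {δ : ℕ → ℝ} {F : ℕ → Finset (ℤ × ℤ)}
    (hF : IsAdmissibleApprox D δ F) (z : ℝ × ℝ) : ∃ R : ℝ, ∀ᶠ n in atTop, faceRegionSq (δ n) (F n) ⊆ scrSq z R := by
  obtain ⟨-, -, -, γ, γs, -, -, hγ, hγs, hclose⟩ := hF
  obtain ⟨B, hB⟩ := hDb.closure.subset_closedBall (0 : ℝ × ℝ)
  refine ⟨|B| + 1 + ‖z‖, (hclose 1 one_pos).mono fun n hn => ?_⟩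
  have hfr : frontier (faceRegionSq (δ n) (F n)) ⊆ Metric.closedBall 0 (|B| + 1) := by
    rw [← (hγs n).2.2]
    rintro _ ⟨c, rfl⟩
    have h1 : γ c ∈ Metric.closedBall (0 : ℝ × ℝ) B := hB (frontier_subset_closure (hγ ▸ mem_range_self c))
    rw [mem_closedBall_zero_iff] at h1 ⊢
    have h2 := hn c
    have h3 : ‖γs n c - γ c‖ ≤ 1 := by
      rw [Prod.norm_def]
      refine max_le ?_ ?_
      · rw [Real.norm_eq_abs]
        refine abs_le_of_sq_le_sq ?_ zero_le_one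
        simp only [Prod.fst_sub]
        nlinarith [sq_nonneg ((γs n c).2 - (γ c).2)]
      · rw [Real.norm_eq_abs]
        refine abs_le_of_sq_le_sq ?_ zero_le_one
        simp only [Prod.snd_sub]
        nlinarith [sq_nonneg ((γs n c).1 - (γ c).1)]
    calc ‖γs n c‖ = ‖(γs n c - γ c) + γ c‖ := by rw [sub_add_cancel]
      _ ≤ ‖γs n c - γ c‖ + ‖γ c‖ := norm_add_le _ _
      _ ≤ |B| + 1 := by have := le_abs_self B; linarith
  have hsub := gh162_subset_of_frontier (gh162_region_bounded (δ n) (F n)) (by positivity) hfr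
  intro y hy
  have h1 := hsub hy
  rw [mem_closedBall_zero_iff, Prod.norm_def] at h1
  have hy1 : |y.1| ≤ |B| + 1 := (le_max_left _ _).trans h1
  have hy2 : |y.2| ≤ |B| + 1 := (le_max_right _ _).trans h1
  have hz1 : |z.1| ≤ ‖z‖ := by rw [Prod.norm_def]; exact le_max_left _ _
  have hz2 : |z.2| ≤ ‖z‖ := by rw [Prod.norm_def]; exact le_max_right _ _
  rw [abs_le] at hy1 hy2 hz1 hz2
  exact ⟨⟨by linarith [hy1.1, hz1.2], by linarith [hy1.2, hz1.1]⟩, ⟨by linarith [hy2.1, hz2.2], by linarith [hy2.2, hz2.1]⟩⟩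

theorem gh162_sq_compact (z : ℝ × ℝ) (r : ℝ) : IsCompact (scrSq z r) := isCompact_Icc.prod isCompact_Icc

/-- the square of half side `7ρ/10` lies in the disc of radius `ρ` -/
theorem gh162_sq_subset_ball (z : ℝ × ℝ) (ρ : ℝ) : scrSq z (7 / 10 * ρ) ⊆ wkBall z ρ := by
  rintro y ⟨⟨h1, h2⟩, h3, h4⟩
  show (y.1 - z.1) ^ 2 + (y.2 - z.2) ^ 2 ≤ ρ ^ 2
  have a1 : (y.1 - z.1) ^ 2 ≤ (7 / 10 * ρ) ^ 2 := sq_le_sq' (by linarith) (by linarith)
  have a2 : (y.2 - z.2) ^ 2 ≤ (7 / 10 * ρ) ^ 2 := sq_le_sq' (by linarith) (by linarith)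
  nlinarith [sq_nonneg ρ]

/-- a small disc whose centre is at distance `≥ 2ρ` does not meet the square of half side `3ρ/5` -/
theorem gh162_far {z c y : ℝ × ℝ} {ρ r : ℝ} (hρ : 0 < ρ) (hr0 : 0 < r) (hr : r < ρ / 4000) (hc : (2 * ρ) ^ 2 ≤ C0467.sqDist c z)
    (hy : y ∈ scrSq z (3 / 5 * ρ)) : y ∉ wkBall c r := by
  intro hyc
  obtain ⟨⟨h1, h2⟩, h3, h4⟩ := hy
  have hyc' : (y.1 - c.1) ^ 2 + (y.2 - c.2) ^ 2 ≤ r ^ 2 := hyc
  have hc' : (2 * ρ) ^ 2 ≤ (c.1 - z.1) ^ 2 + (c.2 - z.2) ^ 2 := hc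
  have a1 : (y.1 - z.1) ^ 2 ≤ (3 / 5 * ρ) ^ 2 := sq_le_sq' (by linarith) (by linarith)
  have a2 : (y.2 - z.2) ^ 2 ≤ (3 / 5 * ρ) ^ 2 := sq_le_sq' (by linarith) (by linarith)
  have b1 : (c.1 - z.1) ^ 2 ≤ 2 * (y.1 - c.1) ^ 2 + 2 * (y.1 - z.1) ^ 2 := by nlinarith [sq_nonneg ((y.1 - c.1) + (y.1 - z.1))]
  have b2 : (c.2 - z.2) ^ 2 ≤ 2 * (y.2 - c.2) ^ 2 + 2 * (y.2 - z.2) ^ 2 := by nlinarith [sq_nonneg ((y.2 - c.2) + (y.2 - z.2))]
  have hr2 : r ^ 2 ≤ (ρ / 4000) ^ 2 := pow_le_pow_left₀ hr0.le hr.le 2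
  nlinarith [sq_nonneg ρ, mul_pos hρ hρ]

/-! ### the contract -/

/-- **`gauss_harm` from `at_screen`** -/
theorem gh162_harm {t : ℝ} (ht : 0 < t) (hS : Gh162Screen t) {D : Set (ℝ × ℝ)} (hD : GaussDom D) {δ : ℕ → ℝ}
    {F : ℕ → Finset (ℤ × ℤ)} (hF : IsAdmissibleApprox D δ F) (hSM : GaussSM t D δ F) : GaussHarm t D δ F := by
  intro z0 ρ φ s hρ hball hφ hφs hs
  have hok := gh162_ok ht hSM
  -- the insertion is a test
  have hφc : HasCompactSupport φ := (wk_ball_compact z0 (by positivity)).of_isClosed_subset (isClosed_tsupport φ) hφs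
  have hφD : tsupport φ ⊆ D := hφs.trans ((wk_ball_mono z0 (by positivity) (by linarith)).trans hball)
  have hφt : WkTest D φ := ⟨hφ.continuous, hφc, hφD⟩
  have hLt : WkTest D (C0467.lap2 φ) := hφt.lap' hφ
  -- moment bounds
  obtain ⟨C1, hC1⟩ := hok.bdd (C0467.lap2 φ) (lm_mem_V.2 hLt) 2 even_two
  obtain ⟨C2, hC2⟩ := lm_M_bdd hok (s := 4 • s) (fun g hg => lm_mem_V.2 (hs g (Multiset.mem_of_mem_nsmul hg)).1)
  -- the box
  obtain ⟨R, hR⟩ := gh162_region_box hD.2.1 hF z0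
  have hr : (0 : ℝ) < 3 / 5 * ρ := by positivity
  have hrr : 3 / 5 * ρ < 7 / 10 * ρ := by linarith
  have hφb : tsupport φ ⊆ Metric.ball z0 (3 / 5 * ρ / 1000) := by
    intro y hy
    have h1 := wk_ball_subset z0 (by positivity) (hφs hy)
    rw [Metric.mem_closedBall] at h1
    rw [Metric.mem_ball]
    linarith
  have hin := hF.2.2.1 (scrSq z0 (7 / 10 * ρ)) (gh162_sq_compact _ _) ((gh162_sq_subset_ball z0 ρ).trans hball)
  -- the spectators vanish on the square
  have hvan : ∀ g ∈ s, ∀ y ∈ scrSq z0 (3 / 5 * ρ), g y = 0 := by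
    intro g hg y hy
    obtain ⟨-, c, r, hr0, hr1, -, hc, hz⟩ := hs g hg
    refine hz y (gh162_far hρ hr0 (lt_of_lt_of_le hr1 ?_) hc hy)
    have hcard : (0 : ℝ) ≤ (Multiset.card s : ℝ) := Nat.cast_nonneg _
    exact div_le_div_of_nonneg_left hρ.le (by norm_num) (by nlinarith)
  rw [Metric.tendsto_nhds]
  intro η hη
  set M : ℝ := (|C1| + |C2| + 1) / η with hMdef
  have hM : 0 < M := by positivity
  obtain ⟨δ₀, hδ₀, hscr⟩ := hS z0 (3 / 5 * ρ) (7 / 10 * ρ) R hr hrr φ hφ hφb (η / (4 * M)) (by positivity)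
  have hδlt : ∀ᶠ n in atTop, δ n < δ₀ := hF.2.1.eventually (gt_mem_nhds hδ₀)
  filter_upwards [hC1, hC2, hR, hin, hδlt] with n h1 h2 h3 h4 h5
  rw [Real.dist_eq, sub_zero]
  set P : at92Cfg (F n) → ℝ := fun p => (s.map fun g => at92X (δ n) g p).prod with hP
  set X : at92Cfg (F n) → ℝ := fun p => at92X (δ n) (C0467.lap2 φ) p with hX
  have e0 : gaussM t (δ n) (F n) (C0467.lap2 φ ::ₘ s) = lmE (at92Adm (F n)) (at92W t) (fun p => X p * P p) := by
    unfold gaussM lmM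
    simp only [Multiset.map_cons, Multiset.prod_cons, hX, hP]
  have hAext : ∀ p ∈ at92Adm (F n), ∀ p' ∈ at92Adm (F n), Gh162Agree (δ n) (F n) (scrSq z0 (3 / 5 * ρ)) p p' →
      limTr M (P p) / M = limTr M (P p') / M := by
    intro p hp p' hp' ha
    have : P p = P p' := by
      simp only [hP]
      congr 1
      exact Multiset.map_congr rfl fun g hg => gh162_X_ext hF n (hvan g hg) hp hp' ha
    rw [this]
  have hAabs : ∀ p, |limTr M (P p) / M| ≤ 1 := by
    intro p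
    rw [abs_div, abs_of_pos hM, div_le_one hM]
    exact lim_tr_abs_le hM.le _
  have hsc := hscr (δ n) (hF.1 n) h5 (F n) (scr_flat_of_approx hF n) h4 h3
    (gh162Ext (δ n) (F n) (scrSq z0 (3 / 5 * ρ)) fun p => limTr M (P p) / M) (gh162_ext_abs hAabs) (gh162_ext_scr hAext)
  have e1 : scrE t (F n) (fun p => at92X (δ n) (C0468.lap2 φ) p *
        gh162Ext (δ n) (F n) (scrSq z0 (3 / 5 * ρ)) (fun p => limTr M (P p) / M) p)
      = lmE (at92Adm (F n)) (at92W t) (fun p => X p * (limTr M (P p) / M)) := by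
    refine lm_E_congr _ _ fun p hp => ?_
    rw [gh162_ext_eq hAext hp]
    rfl
  rw [e1] at hsc
  have e2 : lmE (at92Adm (F n)) (at92W t) (fun p => P p ^ 4) = lmM (at92Adm (F n)) (at92W t) (fun g p => at92X (δ n) g p) (4 • s) := by
    unfold lmM
    simp only [Multiset.map_nsmul, Multiset.prod_nsmul, hP]
  have htr := gh162_trunc (fun a _ => (pow_pos ht _).le : ∀ a ∈ at92Adm (F n), 0 ≤ at92W t a) X P hM
  rw [e0]
  have b2 : lmE (at92Adm (F n)) (at92W t) (fun p => P p ^ 4) ≤ |C2| := by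
    rw [e2]
    exact (le_abs_self _).trans (h2.trans (le_abs_self _))
  have b1 : lmE (at92Adm (F n)) (at92W t) (fun p => X p ^ 2) ≤ |C1| := h1.trans (le_abs_self _)
  have b3 : (lmE (at92Adm (F n)) (at92W t) (fun p => X p ^ 2) + lmE (at92Adm (F n)) (at92W t) (fun p => P p ^ 4)) / (2 * M) ≤ η / 2 := by
    rw [div_le_iff₀ (by positivity)]
    have : η / 2 * (2 * M) = |C1| + |C2| + 1 := by
      rw [hMdef]; field_simp
    rw [this]
    linarith
  have b4 : M * |lmE (at92Adm (F n)) (at92W t) (fun p => X p * (limTr M (P p) / M))| ≤ η / 4 := by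
    calc M * |lmE (at92Adm (F n)) (at92W t) (fun p => X p * (limTr M (P p) / M))| ≤ M * (η / (4 * M)) :=
          mul_le_mul_of_nonneg_left hsc hM.le
      _ = η / 4 := by field_simp
  exact lt_of_le_of_lt (htr.trans (add_le_add b4 b3)) (by linarith)

end Claimed.Agent.R292
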