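import Claimed.Agent.R292.Gauss.Dict292
import Claimed.Agent.R292.Gauss.Dec72
import Claimed.Agent.R292.Rsw.Expl107
import Claimed.Agent.R292.Defs.GaussMatch
import Claimed.Agent.R292.Jordan.Depth7

/-!
# Row 292 (S0540), Gauss/Pl292 : PL-ADAPTERS = the plane functional of local gradient observables of the height FROM the statements of `exit_rsw_plane`, `exit_rsw_mom_plane`
(owner helper292, order of 181; prefix `at92p`; 0 sorry; the two exits are HYPOTHESES `At92pPlane t`, `At92pMom t` = their statements word for word)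

1. **`at92p_jordan_box`** : `RswJordan (rswBox z n)` for `1 ≤ n` (`at92p_sphere`: the sphere of the sup norm is a Jordan curve; `at92p_region_box`: the region of a box is the open sup ball)
2. the LOCAL HEIGHT `at92pH ω c v` = sum of the increments `(s(v) - s(v')) d(f) / 2` along the L-path from `c` to `c + v`: **`at92p_local`** (`= H (c + v) - H c` for every height on `F ⊇ rswBox c (m+1)`),
   `at92p_H_loc` (reads `(S, D)` in the vertex box `at92pVB c (m+1)` only)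
3. `at92pCl` (cleaned height), `at92pE t F G` (frozen flat expectation of `G (cleaned height)`), `at92pX G c` (the configuration observable), `at92p_X_loc : RswLoc ..`, **`at92p_X_eq`**, **`at92p_E_X`**,
   `at92p_ext_of_jordan : RswJordan F → At92hExt F`, **`at92p_lim`** (one limit along ALL Jordan exhaustions)
4. translation covariance: `at92pT w` on configurations, `at92pTF w` on face sets, `at92p_wt_T`, **`at92p_sum_T`**, **`at92p_E_T`**, `at92p_box_TF`, `at92p_H_T`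
5. `at92pPl t G` (limit along the boxes about `0`), **`at92p_pl_all`** = [LIM], **`at92p_pl_tr`** = [TR], **`at92p_pl_mom`** = [MOM] (shapes of the fields `lim`, `tr`, `mom` of 72's package)

PART 2 (prefix `at92m`; 0 sorry) : **MIX-DICT** = `at92m_mix : GaussMixR t → At92pPlane t → At92pMix t` (`At92pMix t` = the field `mix` of `Gd72Pl t` word for word), and `at92p_gd72 : At92pPlane t → At92pMom t → At92pMix t → Gd72Pl t`.
A. exploration from an ARBITRARY seed `B` (`at92mOut`, `at92m_sep_iff`, `at92m_out_loc`, `at92m_out_cut`), B. `at92m_expl_one` (the swap with an exterior spectator), C. `at92m_ht_congr` (the height on a wall-touching set of faces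
reads the configuration there only), `at92mFill`, D. `at92m_ext_sdiff` (`At92hExt` is closed under the exploration), E. `at92mG` (the exterior version of an observable of the heights outside a vertex box), `at92m_G_eq`, `at92m_X_inside`.
-/

set_option autoImplicit false

namespace Claimed.Agent.R292

open Claims Claims.C0468 Claimed.Agent.R291

/-! ## 1. a square box of faces is bounded by a Jordan curve -/

/-- the sphere of the sup norm of the plane is a Jordan curve -/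
theorem at92p_sphere (c : ℝ × ℝ) {ρ : ℝ} (hρ : 0 < ρ) :
    ∃ γ : Circle → ℝ × ℝ, Continuous γ ∧ Function.Injective γ ∧ Set.range γ = Metric.sphere c ρ := by
  let p : Circle → ℝ × ℝ := fun w => ((w : ℂ).re, (w : ℂ).im)
  have hpc : Continuous p := by
    have hc : Continuous (fun w : Circle => (w : ℂ)) := continuous_subtype_val
    refine Continuous.prodMk ?_ ?_
    · exact Complex.continuous_re.comp hc
    · exact Complex.continuous_im.comp hc
  have hp0 : ∀ w, p w ≠ 0 := by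
    intro w h
    have h1 : (w : ℂ).re = 0 := congrArg Prod.fst h
    have h2 : (w : ℂ).im = 0 := congrArg Prod.snd h
    have : (w : ℂ) = 0 := Complex.ext h1 h2
    exact Circle.coe_ne_zero w this
  have hn0 : ∀ w, 0 < ‖p w‖ := fun w => norm_pos_iff.2 (hp0 w)
  refine ⟨fun w => c + (ρ / ‖p w‖) • p w, ?_, ?_, ?_⟩
  · have h1 : Continuous fun w => ρ / ‖p w‖ := continuous_const.div hpc.norm (fun w => (hn0 w).ne')
    exact continuous_const.add (h1.smul hpc)
  · intro w w' h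
    simp only [add_right_inj] at h
    have h1 : (ρ / ‖p w‖) * (w : ℂ).re = (ρ / ‖p w'‖) * (w' : ℂ).re := by simpa [p] using congrArg Prod.fst h
    have h2 : (ρ / ‖p w‖) * (w : ℂ).im = (ρ / ‖p w'‖) * (w' : ℂ).im := by simpa [p] using congrArg Prod.snd h
    have ha : 0 < ρ / ‖p w‖ := div_pos hρ (hn0 w)
    have hb : 0 < ρ / ‖p w'‖ := div_pos hρ (hn0 w')
    have e : ((ρ / ‖p w‖ : ℝ) : ℂ) * (w : ℂ) = ((ρ / ‖p w'‖ : ℝ) : ℂ) * (w' : ℂ) := by
      apply Complex.ext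
      · simpa using h1
      · simpa using h2
    have en := congrArg norm e
    rw [norm_mul, norm_mul, Circle.norm_coe, Circle.norm_coe, mul_one, mul_one, Complex.norm_real, Complex.norm_real,
      Real.norm_of_nonneg ha.le, Real.norm_of_nonneg hb.le] at en
    rw [en] at e
    have hb' : ((ρ / ‖p w'‖ : ℝ) : ℂ) ≠ 0 := by exact_mod_cast hb.ne'
    exact Circle.ext (mul_left_cancel₀ hb' e)
  · ext y
    rw [Set.mem_range, mem_sphere_iff_norm]
    constructor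
    · rintro ⟨w, rfl⟩
      rw [add_sub_cancel_left, norm_smul, Real.norm_of_nonneg (div_pos hρ (hn0 w)).le, div_mul_cancel₀ _ (hn0 w).ne']
    · intro hy
      set u := y - c with hu
      have hu0 : u ≠ 0 := by
        intro h
        rw [h, norm_zero] at hy
        exact hρ.ne hy
      have hz0 : (⟨u.1, u.2⟩ : ℂ) ≠ 0 := by
        intro h
        exact hu0 (Prod.ext (congrArg Complex.re h) (congrArg Complex.im h))
      have he : 0 < ‖(⟨u.1, u.2⟩ : ℂ)‖ := norm_pos_iff.2 hz0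
      set e := ‖(⟨u.1, u.2⟩ : ℂ)‖ with hedef
      have hmem : ‖((e⁻¹ : ℝ) : ℂ) * (⟨u.1, u.2⟩ : ℂ)‖ = 1 := by
        rw [norm_mul, Complex.norm_real, Real.norm_of_nonneg (inv_pos.2 he).le, ← hedef, inv_mul_cancel₀ he.ne']
      refine ⟨⟨((e⁻¹ : ℝ) : ℂ) * (⟨u.1, u.2⟩ : ℂ), mem_sphere_zero_iff_norm.2 hmem⟩, ?_⟩
      have hp : p ⟨((e⁻¹ : ℝ) : ℂ) * (⟨u.1, u.2⟩ : ℂ), mem_sphere_zero_iff_norm.2 hmem⟩ = e⁻¹ • u := by
        apply Prod.ext
        · simp [p]
        · simp [p]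
      rw [hp, norm_smul, Real.norm_of_nonneg (inv_pos.2 he).le, hy, smul_smul]
      have : ρ / (e⁻¹ * ρ) * e⁻¹ = 1 := by field_simp
      rw [this, one_smul, hu]
      abel

theorem at92p_cover1 (a : ℤ) (n : ℕ) (hn : 1 ≤ n) (x : ℝ) :
    (∃ i : ℤ, (a - n ≤ i ∧ i < a + n) ∧ (i : ℝ) ≤ x ∧ x ≤ i + 1) ↔ ((a : ℝ) - n ≤ x ∧ x ≤ a + n) := by
  constructor
  · rintro ⟨i, ⟨h1, h2⟩, h3, h4⟩
    have h1' : ((a : ℝ) - n) ≤ i := by exact_mod_cast h1
    have h2' : (i : ℝ) + 1 ≤ a + n := by exact_mod_cast h2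
    constructor <;> linarith
  · rintro ⟨h1, h2⟩
    by_cases hx : x < a + n
    · refine ⟨⌊x⌋, ⟨?_, ?_⟩, Int.floor_le x, (Int.lt_floor_add_one x).le⟩
      · rw [Int.le_floor]; push_cast; exact h1
      · rw [Int.floor_lt]; push_cast; exact hx
    · have hx' : x = a + n := le_antisymm h2 (not_lt.1 hx)
      refine ⟨a + n - 1, ⟨by omega, by omega⟩, ?_, ?_⟩
      · push_cast; linarith
      · push_cast; linarith

/-- the region of a box of faces is the open ball of the sup norm -/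
theorem at92p_region_box (z : ℤ × ℤ) (n : ℕ) (hn : 1 ≤ n) :
    faceRegionSq 1 (rswBox z n) = Metric.ball ((z.1 : ℝ), (z.2 : ℝ)) n := by
  unfold faceRegionSq
  have e : (⋃ f ∈ rswBox z n, Set.Icc ((1 : ℝ) * f.1) (1 * (f.1 + 1)) ×ˢ Set.Icc ((1 : ℝ) * f.2) (1 * (f.2 + 1))) =
      Set.Icc ((z.1 : ℝ) - n) (z.1 + n) ×ˢ Set.Icc ((z.2 : ℝ) - n) (z.2 + n) := by
    ext x
    simp only [Set.mem_iUnion, Set.mem_prod, Set.mem_Icc, one_mul, exists_prop]
    rw [← at92p_cover1 z.1 n hn x.1, ← at92p_cover1 z.2 n hn x.2]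
    constructor
    · rintro ⟨f, hf, h1, h2⟩
      have hf' := at92f_mem_box.1 hf
      exact ⟨⟨f.1, hf'.1, h1⟩, ⟨f.2, hf'.2, h2⟩⟩
    · rintro ⟨⟨i, hi, h1⟩, ⟨j, hj, h2⟩⟩
      exact ⟨(i, j), at92f_mem_box.2 ⟨hi, hj⟩, h1, h2⟩
  rw [e, interior_prod_eq, interior_Icc, interior_Icc, ← ball_prod_same, Real.ball_eq_Ioo, Real.ball_eq_Ioo]

/-- **a box of faces is Jordan** -/
theorem at92p_jordan_box (z : ℤ × ℤ) (n : ℕ) (hn : 1 ≤ n) : RswJordan (rswBox z n) := by
  unfold RswJordan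
  have hn' : (0 : ℝ) < n := by exact_mod_cast hn
  rw [at92p_region_box z n hn, frontier_ball _ hn'.ne']
  exact at92p_sphere _ hn'

/-! ## 2. the local height: increments of the height are read from `(S, D)` along an L-path -/

/-- raw primal sign -/
noncomputable def at92pS (ω : RswCfg) (v : ℤ × ℤ) : ℝ := if v ∈ ω.S then 1 else -1

/-- raw dual sign -/
noncomputable def at92pD (ω : RswCfg) (f : ℤ × ℤ) : ℝ := if f ∈ ω.D then 1 else -1

/-- horizontal increment `H (i+1, j) - H (i, j)`, read in the face `(i, j)` -/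
noncomputable def at92pDx (ω : RswCfg) (i j : ℤ) : ℝ := (at92pS ω (i, j) - at92pS ω (i + 1, j)) * at92pD ω (i, j) / 2

/-- vertical increment `H (i, j+1) - H (i, j)`, read in the face `(i, j)` -/
noncomputable def at92pDy (ω : RswCfg) (i j : ℤ) : ℝ := (at92pS ω (i, j) - at92pS ω (i, j + 1)) * at92pD ω (i, j) / 2

/-- the local height anchored at `c`: `H (c + v) - H c` along the row of `c`, then the column of `c + v` -/
noncomputable def at92pH (ω : RswCfg) (c v : ℤ × ℤ) : ℝ :=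
  at92hZs (fun i => at92pDx ω (c.1 + i) c.2) v.1 + at92hZs (fun j => at92pDy ω (c.1 + v.1) (c.2 + j)) v.2

theorem at92p_zs_eq (φ g : ℤ → ℝ) (lo hi : ℤ) (hstep : ∀ n, lo ≤ n → n < hi → φ (n + 1) = φ n + g n) :
    ∀ a, lo ≤ 0 → 0 ≤ hi → lo ≤ a → a ≤ hi → φ a - φ 0 = at92hZs g a := by
  intro a
  induction a using Int.induction_on with
  | zero => intro _ _ _ _; rw [at92h_zs_zero, sub_self]
  | succ k ih =>
    intro h1 h2 h3 h4
    rw [at92h_zs_succ, ← ih h1 h2 (by omega) (by omega), hstep k (by omega) (by omega)]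
    ring
  | pred k ih =>
    intro h1 h2 h3 h4
    have e := at92h_zs_succ g (-(k : ℤ) - 1)
    have e2 := hstep (-(k : ℤ) - 1) (by omega) (by omega)
    rw [sub_add_cancel] at e e2
    have := ih h1 h2 (by omega) (by omega)
    linarith

theorem at92p_zs_congr {g g' : ℤ → ℝ} {a : ℤ} (h : ∀ i, (0 ≤ i ∧ i < a) ∨ (a ≤ i ∧ i < 0) → g i = g' i) :
    at92hZs g a = at92hZs g' a := by
  unfold at92hZs
  congr 1
  · exact Finset.sum_congr rfl fun i hi => h i (Or.inl (Finset.mem_Ico.1 hi))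
  · exact Finset.sum_congr rfl fun i hi => h i (Or.inr (Finset.mem_Ico.1 hi))

theorem at92p_spin {F : Finset (ℤ × ℤ)} (ω : RswCfg) {v : ℤ × ℤ} (hv : v ∈ cornersOf F) :
    ((atSpin (rswTau F ω) v : ℤ) : ℝ) = at92pS ω v := by
  rw [at92d_spin, if_pos hv]
  unfold at92pS
  split_ifs <;> simp

theorem at92p_dual {F : Finset (ℤ × ℤ)} (ω : RswCfg) {f : ℤ × ℤ} (hf : f ∈ F) :
    ((atDual (rswTauD F ω) f : ℤ) : ℝ) = at92pD ω f := by
  rw [at92d_dual, if_pos hf]
  unfold at92pD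
  split_ifs <;> simp

/-- the rule of the height in raw signs -/
theorem at92p_rule {F : Finset (ℤ × ℤ)} {ω : RswCfg} {Hv Hf : ℤ × ℤ → ℝ} (h : IsATHeight (rswTau F ω) (rswTauD F ω) Hv Hf)
    {f v : ℤ × ℤ} (hf : f ∈ F) (hv : at92hCor f v) : Hf f - Hv v = at92pS ω v * at92pD ω f / 2 := by
  rw [at92h_isHeight_iff] at h
  rw [h.2 f hf v hv, at92p_spin ω (at92h_mem_corners.2 ⟨f, hf, hv⟩), at92p_dual ω hf]

theorem at92p_stepx {F : Finset (ℤ × ℤ)} {ω : RswCfg} {Hv Hf : ℤ × ℤ → ℝ} (h : IsATHeight (rswTau F ω) (rswTauD F ω) Hv Hf)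
    {i j : ℤ} (hf : (i, j) ∈ F) : Hv (i + 1, j) = Hv (i, j) + at92pDx ω i j := by
  have a1 := at92p_rule h hf (v := (i, j)) (by simp [at92hCor])
  have a2 := at92p_rule h hf (v := (i + 1, j)) (by simp [at92hCor])
  unfold at92pDx
  linarith

theorem at92p_stepy {F : Finset (ℤ × ℤ)} {ω : RswCfg} {Hv Hf : ℤ × ℤ → ℝ} (h : IsATHeight (rswTau F ω) (rswTauD F ω) Hv Hf)
    {i j : ℤ} (hf : (i, j) ∈ F) : Hv (i, j + 1) = Hv (i, j) + at92pDy ω i j := by
  have a1 := at92p_rule h hf (v := (i, j)) (by simp [at92hCor])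
  have a2 := at92p_rule h hf (v := (i, j + 1)) (by simp [at92hCor])
  unfold at92pDy
  linarith

/-- **the local height is the increment of the height** as soon as `F` contains the box of radius `m + 1` about the anchor -/
theorem at92p_local {F : Finset (ℤ × ℤ)} {ω : RswCfg} {Hv Hf : ℤ × ℤ → ℝ} (h : IsATHeight (rswTau F ω) (rswTauD F ω) Hv Hf)
    {c : ℤ × ℤ} {m : ℕ} (hbox : rswBox c (m + 1) ⊆ F) {v : ℤ × ℤ} (hv1 : |v.1| ≤ m) (hv2 : |v.2| ≤ m) :
    Hv (c + v) - Hv c = at92pH ω c v := by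
  rw [abs_le] at hv1 hv2
  unfold at92pH
  have e1 := at92p_zs_eq (fun i => Hv (c.1 + i, c.2)) (fun i => at92pDx ω (c.1 + i) c.2) (-(m : ℤ)) m
    (fun n h1 h2 => by
      have := at92p_stepx h (i := c.1 + n) (j := c.2) (hbox (at92f_mem_box.2 (by push_cast; constructor <;> constructor <;> omega)))
      simp only [← add_assoc]
      exact this) v.1 (by omega) (by omega) hv1.1 hv1.2
  have e2 := at92p_zs_eq (fun j => Hv (c.1 + v.1, c.2 + j)) (fun j => at92pDy ω (c.1 + v.1) (c.2 + j)) (-(m : ℤ)) m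
    (fun n h1 h2 => by
      have := at92p_stepy h (i := c.1 + v.1) (j := c.2 + n) (hbox (at92f_mem_box.2 (by push_cast; constructor <;> constructor <;> omega)))
      simp only [← add_assoc]
      exact this) v.2 (by omega) (by omega) hv2.1 hv2.2
  simp only [add_zero] at e1 e2
  rw [← e1, ← e2]
  have : c + v = (c.1 + v.1, c.2 + v.2) := rfl
  rw [this]
  have : c = (c.1, c.2) := rfl
  conv_lhs => rw [this]
  ring

/-- the vertex box `[c - m, c + m]²` -/
noncomputable def at92pVB (c : ℤ × ℤ) (m : ℕ) : Finset (ℤ × ℤ) :=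
  Finset.Icc (c.1 - m) (c.1 + m) ×ˢ Finset.Icc (c.2 - m) (c.2 + m)

theorem at92p_mem_VB {c v : ℤ × ℤ} {m : ℕ} :
    v ∈ at92pVB c m ↔ (c.1 - m ≤ v.1 ∧ v.1 ≤ c.1 + m) ∧ (c.2 - m ≤ v.2 ∧ v.2 ≤ c.2 + m) := by
  unfold at92pVB
  rw [Finset.mem_product, Finset.mem_Icc, Finset.mem_Icc]

/-- the local height reads `(S, D)` in the vertex box of radius `m + 1` only -/
theorem at92p_H_loc {ω ω' : RswCfg} {c : ℤ × ℤ} {m : ℕ} (hS : ω.S ∩ at92pVB c (m + 1) = ω'.S ∩ at92pVB c (m + 1))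
    (hD : ω.D ∩ at92pVB c (m + 1) = ω'.D ∩ at92pVB c (m + 1)) {v : ℤ × ℤ} (hv1 : |v.1| ≤ m) (hv2 : |v.2| ≤ m) :
    at92pH ω c v = at92pH ω' c v := by
  rw [abs_le] at hv1 hv2
  have hs : ∀ u ∈ at92pVB c (m + 1), at92pS ω u = at92pS ω' u := by
    intro u hu
    have : u ∈ ω.S ↔ u ∈ ω'.S := by
      have := Finset.ext_iff.1 hS u
      simpa [Finset.mem_inter, hu] using this
    unfold at92pS
    simp only [this]
  have hd : ∀ u ∈ at92pVB c (m + 1), at92pD ω u = at92pD ω' u := by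
    intro u hu
    have : u ∈ ω.D ↔ u ∈ ω'.D := by
      have := Finset.ext_iff.1 hD u
      simpa [Finset.mem_inter, hu] using this
    unfold at92pD
    simp only [this]
  unfold at92pH
  congr 1
  · refine at92p_zs_congr fun i hi => ?_
    unfold at92pDx
    rw [hs _ (at92p_mem_VB.2 (by push_cast; constructor <;> constructor <;> omega)),
      hs _ (at92p_mem_VB.2 (by push_cast; constructor <;> constructor <;> omega)),
      hd _ (at92p_mem_VB.2 (by push_cast; constructor <;> constructor <;> omega))]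
  · refine at92p_zs_congr fun i hi => ?_
    unfold at92pDy
    rw [hs _ (at92p_mem_VB.2 (by push_cast; constructor <;> constructor <;> omega)),
      hs _ (at92p_mem_VB.2 (by push_cast; constructor <;> constructor <;> omega)),
      hd _ (at92p_mem_VB.2 (by push_cast; constructor <;> constructor <;> omega))]

/-! ## 3. local gradient observables of the height are local observables of the configuration -/

/-- the height cleaned off the corners of `F` (there the frozen `atHeight` is junk) -/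
noncomputable def at92pCl (F : Finset (ℤ × ℤ)) (h : ℤ × ℤ → ℝ) : ℤ × ℤ → ℝ := fun v => if v ∈ cornersOf F then h v else 0

/-- expectation of a function of the cleaned height field in the frozen flat law of `F` -/
noncomputable def at92pE (t : ℝ) (F : Finset (ℤ × ℤ)) (G : (ℤ × ℤ → ℝ) → ℝ) : ℝ :=
  lmE (at92Adm F) (at92W t) (fun p => G (at92pCl F (atHeight p.1 p.2)))

theorem at92p_E_rsw (t : ℝ) (F : Finset (ℤ × ℤ)) (G : (ℤ × ℤ → ℝ) → ℝ) :
    at92pE t F G = rswE t F true (fun ω => G (at92pCl F (rswH F ω))) :=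
  (at92d_E t F (fun p => G (at92pCl F (atHeight p.1 p.2)))).symm

theorem at92p_E_congr (t : ℝ) (F : Finset (ℤ × ℤ)) (b : Bool) {X Y : RswCfg → ℝ} (h : ∀ ω, rswWt t F b ω ≠ 0 → X ω = Y ω) :
    rswE t F b X = rswE t F b Y := by
  unfold rswE
  congr 1
  rw [at92d_sum_all, at92d_sum_all]
  refine Finset.sum_congr rfl fun ω _ => ?_
  by_cases hw : rswWt t F b ω = 0
  · rw [hw, zero_mul, zero_mul]
  · rw [h ω hw]

theorem at92p_ext_of_jordan {F : Finset (ℤ × ℤ)} (h : RswJordan F) : At92hExt F := by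
  obtain ⟨γ, hc, _, hr⟩ := h
  intro S h1 h2 h3
  refine at92h_ext_conn one_pos F ?_ S h1 h2 h3
  rw [← hr]
  exact isPreconnected_range hc

theorem at92p_box_mono (z : ℤ × ℤ) {m n : ℕ} (h : m ≤ n) : rswBox z m ⊆ rswBox z n := by
  intro f hf
  rw [at92f_mem_box] at hf ⊢
  have : (m : ℤ) ≤ n := by exact_mod_cast h
  constructor <;> constructor <;> omega

theorem at92p_VB_sub_box (c : ℤ × ℤ) (m : ℕ) : at92pVB c m ⊆ rswBox c (m + 1) := by
  intro f hf
  rw [at92p_mem_VB] at hf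
  rw [at92f_mem_box]
  push_cast
  constructor <;> constructor <;> omega

/-- the configuration observable attached to a local gradient observable of the height, anchored at `c` -/
noncomputable def at92pX (G : (ℤ × ℤ → ℝ) → ℝ) (c : ℤ × ℤ) (ω : RswCfg) : ℝ := G (fun u => at92pH ω c (u - c))

theorem at92p_X_loc {S : Finset (ℤ × ℤ)} {G : (ℤ × ℤ → ℝ) → ℝ} (hloc : ∀ h h' : ℤ × ℤ → ℝ, (∀ u ∈ S, h u = h' u) → G h = G h')
    {c : ℤ × ℤ} {m : ℕ} (hS : S ⊆ at92pVB c m) : RswLoc (at92pVB c (m + 1)) ∅ (at92pX G c) := by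
  intro ω ω' h1 h2 _
  refine hloc _ _ fun u hu => ?_
  have := at92p_mem_VB.1 (hS hu)
  refine at92p_H_loc h1 h2 ?_ ?_ <;> rw [abs_le] <;> simp only [Prod.fst_sub, Prod.snd_sub] <;> constructor <;> omega

/-- **pointwise**: on an admissible pair, a local gradient observable of the cleaned height is the local observable `at92pX` -/
theorem at92p_X_eq {F : Finset (ℤ × ℤ)} (hext : At92hExt F) {ω : RswCfg} (hadm : IsAdmissibleSpins (rswTau F ω) (rswTauD F ω))
    {S : Finset (ℤ × ℤ)} {G : (ℤ × ℤ → ℝ) → ℝ} (hloc : ∀ h h' : ℤ × ℤ → ℝ, (∀ u ∈ S, h u = h' u) → G h = G h')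
    (hgrad : ∀ (h : ℤ × ℤ → ℝ) (a : ℝ), G (fun u => h u + a) = G h)
    {c : ℤ × ℤ} {m : ℕ} (hS : S ⊆ at92pVB c m) (hbox : rswBox c (m + 1) ⊆ F) :
    G (at92pCl F (rswH F ω)) = at92pX G c ω := by
  obtain ⟨Hf, hH⟩ := at92h_spec (at92h_exists hext hadm)
  change IsATHeight (rswTau F ω) (rswTauD F ω) (rswH F ω) Hf at hH
  unfold at92pX
  rw [← hgrad (at92pCl F (rswH F ω)) (-rswH F ω c)]
  refine hloc _ _ fun u hu => ?_
  have hu' := at92p_mem_VB.1 (hS hu)
  have hc : u ∈ cornersOf F := at92h_self_mem_corners (hbox (at92p_VB_sub_box c m (hS hu)))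
  have := at92p_local hH hbox (v := u - c) (by rw [abs_le]; simp only [Prod.fst_sub]; constructor <;> omega)
    (by rw [abs_le]; simp only [Prod.snd_sub]; constructor <;> omega)
  rw [add_sub_cancel] at this
  unfold at92pCl
  rw [if_pos hc, ← this]
  ring

/-- **expectations**: for `F` Jordan containing the box of radius `m + 1` about `c` -/
theorem at92p_E_X (t : ℝ) {F : Finset (ℤ × ℤ)} (hext : At92hExt F)
    {S : Finset (ℤ × ℤ)} {G : (ℤ × ℤ → ℝ) → ℝ} (hloc : ∀ h h' : ℤ × ℤ → ℝ, (∀ u ∈ S, h u = h' u) → G h = G h')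
    (hgrad : ∀ (h : ℤ × ℤ → ℝ) (a : ℝ), G (fun u => h u + a) = G h)
    {c : ℤ × ℤ} {m : ℕ} (hS : S ⊆ at92pVB c m) (hbox : rswBox c (m + 1) ⊆ F) :
    at92pE t F G = rswE t F true (at92pX G c) := by
  rw [at92p_E_rsw]
  exact at92p_E_congr t F true fun ω hw => at92p_X_eq hext (at92f_adm_of_wt hw) hloc hgrad hS hbox

/-- a finite set of vertices lies in a vertex box about `c` -/
theorem at92p_exists_VB (S : Finset (ℤ × ℤ)) (c : ℤ × ℤ) : ∃ m : ℕ, S ⊆ at92pVB c m := by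
  refine ⟨S.sup (fun u => (u.1 - c.1).natAbs + (u.2 - c.2).natAbs), fun u hu => ?_⟩
  have := Finset.le_sup (f := fun u : ℤ × ℤ => (u.1 - c.1).natAbs + (u.2 - c.2).natAbs) hu
  rw [at92p_mem_VB]
  constructor <;> constructor <;> omega

/-- the statement of `exit_rsw_plane` -/
def At92pPlane (t : ℝ) : Prop :=
  ∀ (R : Finset (ℤ × ℤ)) (R' : Finset ((ℤ × ℤ) × Bool)) (X : RswCfg → ℝ), RswLoc R R' X →
    ∃ ℓ : ℝ, ∀ ε : ℝ, 0 < ε → ∃ n0 : ℕ, ∀ (F : Finset (ℤ × ℤ)) (b : Bool),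
      RswJordan F → rswBox 0 n0 ⊆ F → |rswE t F b X - ℓ| < ε

/-- **[LIM], all exhaustions**: one limit for the expectations of a local gradient observable of the height -/
theorem at92p_lim {t : ℝ} (hP : At92pPlane t) (S : Finset (ℤ × ℤ)) (G : (ℤ × ℤ → ℝ) → ℝ)
    (hloc : ∀ h h' : ℤ × ℤ → ℝ, (∀ u ∈ S, h u = h' u) → G h = G h') (hgrad : ∀ (h : ℤ × ℤ → ℝ) (a : ℝ), G (fun u => h u + a) = G h) :
    ∃ ℓ : ℝ, ∀ ε : ℝ, 0 < ε → ∃ n0 : ℕ, ∀ F : Finset (ℤ × ℤ), RswJordan F → rswBox 0 n0 ⊆ F → |at92pE t F G - ℓ| < ε := by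
  obtain ⟨m, hm⟩ := at92p_exists_VB S 0
  obtain ⟨ℓ, hℓ⟩ := hP _ _ _ (at92p_X_loc hloc hm)
  refine ⟨ℓ, fun ε hε => ?_⟩
  obtain ⟨n0, hn0⟩ := hℓ ε hε
  refine ⟨max n0 (m + 1), fun F hJ hF => ?_⟩
  rw [at92p_E_X t (at92p_ext_of_jordan hJ) hloc hgrad hm ((at92p_box_mono 0 (le_max_right _ _)).trans hF)]
  exact hn0 F true hJ ((at92p_box_mono 0 (le_max_left _ _)).trans hF)

/-! ## 4. translation covariance of the flat laws -/

/-- translation of edges -/
def at92pTe (w : ℤ × ℤ) : ((ℤ × ℤ) × Bool) ↪ ((ℤ × ℤ) × Bool) :=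
  ⟨fun e => (e.1 + w, e.2), fun e e' h => by
    have h1 := congrArg Prod.fst h
    have h2 := congrArg Prod.snd h
    simp only [add_left_inj] at h1 h2
    exact Prod.ext h1 h2⟩

theorem at92p_Te_apply (w : ℤ × ℤ) (e : (ℤ × ℤ) × Bool) : at92pTe w e = (e.1 + w, e.2) := rfl

/-- translation of a set of vertices or faces -/
def at92pTF (w : ℤ × ℤ) (F : Finset (ℤ × ℤ)) : Finset (ℤ × ℤ) := F.map (addRightEmbedding w)

/-- translation of a configuration -/
def at92pT (w : ℤ × ℤ) (ω : RswCfg) : RswCfg := ⟨at92pTF w ω.S, at92pTF w ω.D, ω.O.map (at92pTe w)⟩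

theorem at92p_mem_TF {w u : ℤ × ℤ} {F : Finset (ℤ × ℤ)} : u ∈ at92pTF w F ↔ u - w ∈ F := by
  unfold at92pTF
  rw [Finset.mem_map]
  constructor
  · rintro ⟨a, ha, rfl⟩
    simpa using ha
  · intro h
    exact ⟨u - w, h, by simp⟩

theorem at92p_mem_TO {w : ℤ × ℤ} {e : (ℤ × ℤ) × Bool} {O : Finset ((ℤ × ℤ) × Bool)} :
    e ∈ O.map (at92pTe w) ↔ (e.1 - w, e.2) ∈ O := by
  rw [Finset.mem_map]
  constructor
  · rintro ⟨a, ha, rfl⟩
    simpa [at92p_Te_apply] using ha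
  · intro h
    exact ⟨(e.1 - w, e.2), h, by simp [at92p_Te_apply]⟩

theorem at92p_cfg_ext {ω ω' : RswCfg} (h1 : ω.S = ω'.S) (h2 : ω.D = ω'.D) (h3 : ω.O = ω'.O) : ω = ω' := by
  cases ω; cases ω'; simp only at h1 h2 h3; subst h1; subst h2; subst h3; rfl

theorem at92p_T_T (w : ℤ × ℤ) (ω : RswCfg) : at92pT w (at92pT (-w) ω) = ω := by
  refine at92p_cfg_ext ?_ ?_ ?_
  · ext u; simp only [at92pT, at92p_mem_TF]; simp
  · ext u; simp only [at92pT, at92p_mem_TF]; simp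
  · ext e; simp only [at92pT, at92p_mem_TO]; simp

theorem at92p_T_T' (w : ℤ × ℤ) (ω : RswCfg) : at92pT (-w) (at92pT w ω) = ω := by
  have := at92p_T_T (-w) ω
  rwa [neg_neg] at this

theorem at92p_end_sub (e : (ℤ × ℤ) × Bool) (w : ℤ × ℤ) : rswEnd (e.1 - w, e.2) = rswEnd e - w := by
  unfold rswEnd
  split_ifs <;> ext <;> simp <;> ring

theorem at92p_co_sub (e : (ℤ × ℤ) × Bool) (w : ℤ × ℤ) : rswCo (e.1 - w, e.2) = rswCo e - w := by
  unfold rswCo
  split_ifs <;> ext <;> simp <;> ring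

theorem at92p_cor_sub (f v w : ℤ × ℤ) : at92hCor (f - w) (v - w) ↔ at92hCor f v := by
  unfold at92hCor
  simp only [Prod.fst_sub, Prod.snd_sub]
  constructor <;> rintro ⟨h1, h2⟩ <;> constructor <;> omega

theorem at92p_corners_TF {w v : ℤ × ℤ} {F : Finset (ℤ × ℤ)} : v ∈ cornersOf (at92pTF w F) ↔ v - w ∈ cornersOf F := by
  rw [at92h_mem_corners, at92h_mem_corners]
  constructor
  · rintro ⟨f, hf, hc⟩
    exact ⟨f - w, at92p_mem_TF.1 hf, (at92p_cor_sub f v w).2 hc⟩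
  · rintro ⟨f, hf, hc⟩
    refine ⟨f + w, at92p_mem_TF.2 (by simpa using hf), ?_⟩
    rw [← at92p_cor_sub (f + w) v w]
    simpa using hc

theorem at92p_poly_TF {w v : ℤ × ℤ} {F : Finset (ℤ × ℤ)} : OnPolygon (at92pTF w F) v ↔ OnPolygon F (v - w) := by
  unfold OnPolygon
  simp only [at92p_mem_TF]
  have e1 : ((v.1 - 1, v.2) : ℤ × ℤ) - w = ((v - w).1 - 1, (v - w).2) := by ext <;> simp <;> ring
  have e2 : ((v.1, v.2 - 1) : ℤ × ℤ) - w = ((v - w).1, (v - w).2 - 1) := by ext <;> simp <;> ring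
  have e3 : ((v.1 - 1, v.2 - 1) : ℤ × ℤ) - w = ((v - w).1 - 1, (v - w).2 - 1) := by ext <;> simp <;> ring
  rw [e1, e2, e3]

theorem at92p_int_TF {w : ℤ × ℤ} {e : (ℤ × ℤ) × Bool} {F : Finset (ℤ × ℤ)} : e ∈ rswInt (at92pTF w F) ↔ (e.1 - w, e.2) ∈ rswInt F := by
  rw [at92d_mem_int, at92d_mem_int, at92p_mem_TF, at92p_mem_TF, at92p_co_sub]

theorem at92p_int_TF_eq (w : ℤ × ℤ) (F : Finset (ℤ × ℤ)) : rswInt (at92pTF w F) = (rswInt F).map (at92pTe w) := by
  ext e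
  rw [at92p_int_TF, at92p_mem_TO]

theorem at92p_fac_congr (t : ℝ) {ω ω' : RswCfg} {e e' : (ℤ × ℤ) × Bool} (hO : e ∈ ω.O ↔ e' ∈ ω'.O)
    (hS : (e.1 ∈ ω.S ↔ rswEnd e ∈ ω.S) ↔ (e'.1 ∈ ω'.S ↔ rswEnd e' ∈ ω'.S))
    (hD : (e.1 ∈ ω.D ↔ rswCo e ∈ ω.D) ↔ (e'.1 ∈ ω'.D ↔ rswCo e' ∈ ω'.D)) : rswFac t ω e = rswFac t ω' e' := by
  unfold rswFac
  by_cases h1 : e ∈ ω.O
  · rw [if_pos h1, if_pos (hO.1 h1)]
    by_cases h2 : (e.1 ∈ ω.S ↔ rswEnd e ∈ ω.S)
    · rw [if_pos h2, if_pos (hS.1 h2)]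
    · rw [if_neg h2, if_neg (mt hS.2 h2)]
  · rw [if_neg h1, if_neg (mt hO.2 h1)]
    by_cases h3 : (e.1 ∈ ω.D ↔ rswCo e ∈ ω.D)
    · rw [if_pos h3, if_pos (hD.1 h3)]
      by_cases h2 : (e.1 ∈ ω.S ↔ rswEnd e ∈ ω.S)
      · rw [if_pos h2, if_pos (hS.1 h2)]
      · rw [if_neg h2, if_neg (mt hS.2 h2)]
    · rw [if_neg h3, if_neg (mt hD.2 h3)]

theorem at92p_fac_T (t : ℝ) (w : ℤ × ℤ) (ω : RswCfg) (e : (ℤ × ℤ) × Bool) : rswFac t (at92pT w ω) (at92pTe w e) = rswFac t ω e := by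
  have e0 : ((at92pTe w e).1 - w, (at92pTe w e).2) = e := by simp [at92p_Te_apply]
  have e1 : (at92pTe w e).1 - w = e.1 := by simp [at92p_Te_apply]
  have e2 : rswEnd (at92pTe w e) - w = rswEnd e := by rw [← at92p_end_sub, e0]
  have e3 : rswCo (at92pTe w e) - w = rswCo e := by rw [← at92p_co_sub, e0]
  refine at92p_fac_congr t ?_ ?_ ?_
  · simp only [at92pT, at92p_mem_TO, e0]
  · simp only [at92pT, at92p_mem_TF, e1, e2]
  · simp only [at92pT, at92p_mem_TF, e1, e3]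

theorem at92p_bc_T (w : ℤ × ℤ) (F : Finset (ℤ × ℤ)) (b : Bool) (ω : RswCfg) : RswBc (at92pTF w F) b (at92pT w ω) ↔ RswBc F b ω := by
  unfold RswBc
  constructor
  · intro h v hv hp
    have := h (v + w) (at92p_corners_TF.2 (by simpa using hv)) (at92p_poly_TF.2 (by simpa using hp))
    simpa [at92pT, at92p_mem_TF] using this
  · intro h v hv hp
    have := h (v - w) (at92p_corners_TF.1 hv) (at92p_poly_TF.1 hp)
    simpa [at92pT, at92p_mem_TF] using this

theorem at92p_wt_T (t : ℝ) (w : ℤ × ℤ) (F : Finset (ℤ × ℤ)) (b : Bool) (ω : RswCfg) :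
    rswWt t (at92pTF w F) b (at92pT w ω) = rswWt t F b ω := by
  unfold rswWt
  by_cases h : RswBc F b ω
  · rw [if_pos h, if_pos ((at92p_bc_T w F b ω).2 h), at92p_int_TF_eq, Finset.prod_map]
    exact Finset.prod_congr rfl fun e _ => at92p_fac_T t w ω e
  · rw [if_neg h, if_neg (mt (at92p_bc_T w F b ω).1 h)]

theorem at92p_all_T {w : ℤ × ℤ} {F : Finset (ℤ × ℤ)} {ω : RswCfg} (h : ω ∈ at92dAll F) : at92pT w ω ∈ at92dAll (at92pTF w F) := by
  rw [at92d_mem_all] at h ⊢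
  refine ⟨fun u hu => ?_, fun u hu => ?_, fun e he => ?_⟩
  · exact at92p_corners_TF.2 (h.1 (at92p_mem_TF.1 hu))
  · exact at92p_mem_TF.2 (h.2.1 (at92p_mem_TF.1 hu))
  · exact at92p_int_TF.2 (h.2.2 (at92p_mem_TO.1 he))

theorem at92p_TF_TF (w : ℤ × ℤ) (F : Finset (ℤ × ℤ)) : at92pTF (-w) (at92pTF w F) = F := by
  ext u; simp only [at92p_mem_TF]; simp

/-- **translation covariance (sums)** -/
theorem at92p_sum_T (t : ℝ) (w : ℤ × ℤ) (F : Finset (ℤ × ℤ)) (b : Bool) (X : RswCfg → ℝ) :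
    rswSum t (at92pTF w F) b X = rswSum t F b (fun ω => X (at92pT w ω)) := by
  rw [at92d_sum_all, at92d_sum_all]
  refine Finset.sum_bij' (fun ω _ => at92pT (-w) ω) (fun ω _ => at92pT w ω) ?_ ?_ ?_ ?_ ?_
  · intro ω hω
    have := at92p_all_T (w := -w) hω
    rwa [at92p_TF_TF] at this
  · intro ω hω; exact at92p_all_T hω
  · intro ω _; exact at92p_T_T w ω
  · intro ω _; exact at92p_T_T' w ω
  · intro ω _
    rw [at92p_T_T, ← at92p_wt_T t w F b (at92pT (-w) ω), at92p_T_T]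

/-- **translation covariance (expectations)** -/
theorem at92p_E_T (t : ℝ) (w : ℤ × ℤ) (F : Finset (ℤ × ℤ)) (b : Bool) (X : RswCfg → ℝ) :
    rswE t (at92pTF w F) b X = rswE t F b (fun ω => X (at92pT w ω)) := by
  unfold rswE
  rw [at92p_sum_T, at92p_sum_T]

theorem at92p_box_TF (w z : ℤ × ℤ) (n : ℕ) : at92pTF w (rswBox z n) = rswBox (z + w) n := by
  ext u
  rw [at92p_mem_TF, at92f_mem_box, at92f_mem_box]
  simp only [Prod.fst_sub, Prod.snd_sub, Prod.fst_add, Prod.snd_add]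
  constructor <;> rintro ⟨⟨h1, h2⟩, h3, h4⟩ <;> constructor <;> constructor <;> omega

theorem at92p_S_T (w : ℤ × ℤ) (ω : RswCfg) (v : ℤ × ℤ) : at92pS (at92pT w ω) (v + w) = at92pS ω v := by
  unfold at92pS
  simp only [at92pT, at92p_mem_TF, add_sub_cancel_right]

theorem at92p_D_T (w : ℤ × ℤ) (ω : RswCfg) (v : ℤ × ℤ) : at92pD (at92pT w ω) (v + w) = at92pD ω v := by
  unfold at92pD
  simp only [at92pT, at92p_mem_TF, add_sub_cancel_right]

/-- the local height is covariant -/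
theorem at92p_H_T (w : ℤ × ℤ) (ω : RswCfg) (c v : ℤ × ℤ) : at92pH (at92pT w ω) (c + w) v = at92pH ω c v := by
  unfold at92pH
  congr 1
  · congr 1
    funext i
    unfold at92pDx
    have e1 : (((c + w).1 + i, (c + w).2) : ℤ × ℤ) = (c.1 + i, c.2) + w := by ext <;> simp <;> ring
    have e2 : (((c + w).1 + i + 1, (c + w).2) : ℤ × ℤ) = (c.1 + i + 1, c.2) + w := by ext <;> simp <;> ring
    rw [e1, e2, at92p_S_T, at92p_S_T, at92p_D_T]
  · congr 1
    funext j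
    unfold at92pDy
    have e1 : (((c + w).1 + v.1, (c + w).2 + j) : ℤ × ℤ) = (c.1 + v.1, c.2 + j) + w := by ext <;> simp <;> ring
    have e2 : (((c + w).1 + v.1, (c + w).2 + j + 1) : ℤ × ℤ) = (c.1 + v.1, c.2 + j + 1) + w := by ext <;> simp <;> ring
    rw [e1, e2, at92p_S_T, at92p_S_T, at92p_D_T]

/-! ## 5. the plane functional: [LIM], [TR], [MOM] -/

open Filter Topology in
/-- plane expectation of a local gradient observable: limit of the flat laws of the boxes about the origin -/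
noncomputable def at92pPl (t : ℝ) (G : (ℤ × ℤ → ℝ) → ℝ) : ℝ := limUnder atTop (fun n : ℕ => at92pE t (rswBox 0 n) G)

theorem at92p_box_sub {a b : ℤ × ℤ} {k n : ℕ} (h1 : k + (a.1 - b.1).natAbs ≤ n) (h2 : k + (a.2 - b.2).natAbs ≤ n) :
    rswBox a k ⊆ rswBox b n := by
  intro f hf
  rw [at92f_mem_box] at hf ⊢
  constructor <;> constructor <;> omega

open Filter Topology in
/-- **[LIM]** -/
theorem at92p_pl_all {t : ℝ} (hP : At92pPlane t) (S : Finset (ℤ × ℤ)) (G : (ℤ × ℤ → ℝ) → ℝ)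
    (hloc : ∀ h h' : ℤ × ℤ → ℝ, (∀ u ∈ S, h u = h' u) → G h = G h') (hgrad : ∀ (h : ℤ × ℤ → ℝ) (a : ℝ), G (fun u => h u + a) = G h) :
    Tendsto (fun n : ℕ => at92pE t (rswBox 0 n) G) atTop (𝓝 (at92pPl t G)) ∧
      ∀ ε : ℝ, 0 < ε → ∃ n0 : ℕ, ∀ F : Finset (ℤ × ℤ), RswJordan F → rswBox 0 n0 ⊆ F → |at92pE t F G - at92pPl t G| < ε := by
  obtain ⟨ℓ, hℓ⟩ := at92p_lim hP S G hloc hgrad
  have h1 : Tendsto (fun n : ℕ => at92pE t (rswBox 0 n) G) atTop (𝓝 ℓ) := by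
    rw [Metric.tendsto_atTop]
    intro ε hε
    obtain ⟨n0, hn0⟩ := hℓ ε hε
    refine ⟨max n0 1, fun n hn => ?_⟩
    rw [Real.dist_eq]
    exact hn0 _ (at92p_jordan_box 0 n (le_trans (le_max_right _ _) hn)) (at92p_box_mono 0 (le_trans (le_max_left _ _) hn))
  have h2 : at92pPl t G = ℓ := h1.limUnder_eq
  rw [h2]
  exact ⟨h1, hℓ⟩

open Filter Topology in
/-- **[TR]** the plane functional is invariant under the translations of the primal lattice -/
theorem at92p_pl_tr {t : ℝ} (hP : At92pPlane t) (S : Finset (ℤ × ℤ)) (G : (ℤ × ℤ → ℝ) → ℝ)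
    (hloc : ∀ h h' : ℤ × ℤ → ℝ, (∀ u ∈ S, h u = h' u) → G h = G h') (hgrad : ∀ (h : ℤ × ℤ → ℝ) (a : ℝ), G (fun u => h u + a) = G h)
    (w : ℤ × ℤ) : at92pPl t (fun h => G fun u => h (u + w)) = at92pPl t G := by
  obtain ⟨m, hm⟩ := at92p_exists_VB S 0
  have hloc' : ∀ h h' : ℤ × ℤ → ℝ, (∀ u ∈ at92pTF w S, h u = h' u) → (fun h => G fun u => h (u + w)) h = (fun h => G fun u => h (u + w)) h' := by
    intro h h' hh
    exact hloc _ _ fun u hu => hh (u + w) (at92p_mem_TF.2 (by simpa using hu))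
  have hgrad' : ∀ (h : ℤ × ℤ → ℝ) (a : ℝ), (fun h => G fun u => h (u + w)) (fun u => h u + a) = (fun h => G fun u => h (u + w)) h := by
    intro h a
    exact hgrad (fun u => h (u + w)) a
  have hm' : at92pTF w S ⊆ at92pVB w m := by
    intro u hu
    have := at92p_mem_VB.1 (hm (at92p_mem_TF.1 hu))
    rw [at92p_mem_VB]
    simp only [Prod.fst_sub, Prod.snd_sub, Prod.fst_zero, Prod.snd_zero] at this
    constructor <;> constructor <;> omega
  have A := (at92p_pl_all hP _ _ hloc' hgrad').1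
  have B := (at92p_pl_all hP S G hloc hgrad).2
  have key : ∀ n : ℕ, m + 1 + (w.1.natAbs + w.2.natAbs) ≤ n →
      at92pE t (rswBox 0 n) (fun h => G fun u => h (u + w)) = at92pE t (rswBox (-w) n) G := by
    intro n hn
    have hn1 : 1 ≤ n := by omega
    rw [at92p_E_X t (at92p_ext_of_jordan (at92p_jordan_box 0 n hn1)) hloc' hgrad' hm'
        (at92p_box_sub (by simp only [Prod.fst_zero, sub_zero]; omega) (by simp only [Prod.snd_zero, sub_zero]; omega)),
      at92p_E_X t (at92p_ext_of_jordan (at92p_jordan_box (-w) n hn1)) hloc hgrad hm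
        (at92p_box_sub (by simp only [Prod.fst_zero, Prod.fst_neg, sub_neg_eq_add, zero_add]; omega)
          (by simp only [Prod.snd_zero, Prod.snd_neg, sub_neg_eq_add, zero_add]; omega))]
    have e1 : rswBox 0 n = at92pTF w (rswBox (-w) n) := by rw [at92p_box_TF, neg_add_cancel]
    rw [e1, at92p_E_T]
    congr 1
    funext ω
    unfold at92pX
    change G (fun u => at92pH (at92pT w ω) w (u + w - w)) = G fun u => at92pH ω 0 (u - 0)
    congr 1
    funext u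
    have := at92p_H_T w ω 0 u
    rw [zero_add] at this
    rw [add_sub_cancel_right, this, sub_zero]
  have C : Tendsto (fun n : ℕ => at92pE t (rswBox 0 n) (fun h => G fun u => h (u + w))) atTop (𝓝 (at92pPl t G)) := by
    rw [Metric.tendsto_atTop]
    intro ε hε
    obtain ⟨n0, hn0⟩ := B ε hε
    refine ⟨max (n0 + (w.1.natAbs + w.2.natAbs)) (m + 1 + (w.1.natAbs + w.2.natAbs)), fun n hn => ?_⟩
    have h1 : n0 + (w.1.natAbs + w.2.natAbs) ≤ n := le_trans (le_max_left _ _) hn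
    have h2 : m + 1 + (w.1.natAbs + w.2.natAbs) ≤ n := le_trans (le_max_right _ _) hn
    rw [Real.dist_eq, key n h2]
    exact hn0 _ (at92p_jordan_box (-w) n (by omega))
      (at92p_box_sub (by simp only [Prod.fst_zero, Prod.fst_neg, sub_neg_eq_add, zero_add]; omega)
        (by simp only [Prod.snd_zero, Prod.snd_neg, sub_neg_eq_add, zero_add]; omega))
  exact tendsto_nhds_unique A C

/-- the statement of `exit_rsw_mom_plane` -/
def At92pMom (t : ℝ) : Prop :=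
  ∃ C0 : ℕ, ∀ p : ℕ, ∃ C : ℝ, 0 < C ∧ ∀ (F : Finset (ℤ × ℤ)) (z0 : ℤ × ℤ) (a : ℕ) (A : ℝ) (w : (ℤ × ℤ) →₀ ℝ),
    RswJordan F → 1 ≤ a → rswBox z0 (C0 * a) ⊆ F → RswSm z0 a A w → w.sum (fun _ x => x) = 0 →
    rswE t F true (fun ω => |rswArr w (rswH F ω)| ^ p) ≤ (C * A) ^ p

theorem at92p_card_VB (c : ℤ × ℤ) (m : ℕ) : (at92pVB c m).card = (2 * m + 1) ^ 2 := by
  unfold at92pVB
  rw [Finset.card_product, Int.card_Icc, Int.card_Icc, sq]
  congr 1 <;> omega

open Classical in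
/-- an array carried by a vertex box, as a finitely supported function -/
noncomputable def at92pArr (c : ℤ × ℤ) (m : ℕ) (w : ℤ × ℤ → ℝ) : (ℤ × ℤ) →₀ ℝ :=
  Finsupp.onFinset (at92pVB c m) (fun u => if u ∈ at92pVB c m then w u else 0) (fun u hu => by
    by_contra h
    exact hu (if_neg h))

theorem at92p_arr_apply (c : ℤ × ℤ) (m : ℕ) (w : ℤ × ℤ → ℝ) {u : ℤ × ℤ} (hu : u ∈ at92pVB c m) : at92pArr c m w u = w u := by
  unfold at92pArr
  rw [Finsupp.onFinset_apply, if_pos hu]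

theorem at92p_arr_supp (c : ℤ × ℤ) (m : ℕ) (w : ℤ × ℤ → ℝ) : (at92pArr c m w).support ⊆ at92pVB c m :=
  Finsupp.support_onFinset_subset

theorem at92p_arr_sum (c : ℤ × ℤ) (m : ℕ) (w : ℤ × ℤ → ℝ) (φ : ℤ × ℤ → ℝ) :
    (at92pArr c m w).sum (fun v x => x * φ v) = ∑ u ∈ at92pVB c m, w u * φ u := by
  rw [Finsupp.sum_of_support_subset _ (at92p_arr_supp c m w) (fun v x => x * φ v) (fun _ _ => zero_mul _)]
  exact Finset.sum_congr rfl fun u hu => by rw [at92p_arr_apply c m w hu]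

theorem at92p_arr_sm (c : ℤ × ℤ) (a : ℕ) (ha : 1 ≤ a) (w : ℤ × ℤ → ℝ) (hw : ∀ u, |w u| ≤ 1 / (a : ℝ) ^ 2) :
    RswSm c (2 * a) 9 (at92pArr c a w) := by
  have ha' : (1 : ℝ) ≤ a := by exact_mod_cast ha
  have ha2 : (0 : ℝ) < (a : ℝ) ^ 2 := by positivity
  have hle : ∀ u, |at92pArr c a w u| ≤ 1 / (a : ℝ) ^ 2 := by
    intro u
    by_cases hu : u ∈ at92pVB c a
    · rw [at92p_arr_apply c a w hu]; exact hw u
    · have : at92pArr c a w u = 0 := by
        by_contra h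
        exact hu (at92p_arr_supp c a w (Finsupp.mem_support_iff.2 h))
      rw [this, abs_zero]; positivity
  refine ⟨?_, ?_, ?_⟩
  · exact (at92p_arr_supp c a w).trans ((at92p_VB_sub_box c a).trans (at92p_box_mono c (by omega)))
  · calc ∑ u ∈ (at92pArr c a w).support, |at92pArr c a w u| ≤ ∑ u ∈ at92pVB c a, |at92pArr c a w u| :=
          Finset.sum_le_sum_of_subset_of_nonneg (at92p_arr_supp c a w) (fun _ _ _ => abs_nonneg _)
      _ ≤ ∑ _u ∈ at92pVB c a, 1 / (a : ℝ) ^ 2 := Finset.sum_le_sum fun u _ => hle u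
      _ = ((2 * a + 1 : ℕ) : ℝ) ^ 2 * (1 / (a : ℝ) ^ 2) := by
          rw [Finset.sum_const, at92p_card_VB, nsmul_eq_mul]; push_cast; ring
      _ ≤ 9 := by
          rw [mul_one_div, div_le_iff₀ ha2]
          push_cast
          nlinarith
  · intro u
    have := hle u
    rw [le_div_iff₀ ha2] at this
    push_cast
    nlinarith [abs_nonneg (at92pArr c a w u)]

open Filter Topology in
/-- **[MOM]** uniform even moments of neutral arrays in the plane functional -/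
theorem at92p_pl_mom {t : ℝ} (hP : At92pPlane t) (hM : At92pMom t) (m : ℕ) :
    ∃ C : ℝ, ∀ (u0 : ℤ × ℤ) (a : ℕ) (w : ℤ × ℤ → ℝ), 1 ≤ a → (∀ u, |w u| ≤ 1 / (a : ℝ) ^ 2) → ∑ u ∈ at92pVB u0 a, w u = 0 →
      at92pPl t (fun h => (∑ u ∈ at92pVB u0 a, w u * h u) ^ (2 * m)) ≤ C := by
  obtain ⟨C0, hC0⟩ := hM
  obtain ⟨C, _, hC⟩ := hC0 (2 * m)
  refine ⟨(C * 9) ^ (2 * m), fun u0 a w ha hw hn => ?_⟩
  have hloc : ∀ h h' : ℤ × ℤ → ℝ, (∀ u ∈ at92pVB u0 a, h u = h' u) →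
      (fun h : ℤ × ℤ → ℝ => (∑ u ∈ at92pVB u0 a, w u * h u) ^ (2 * m)) h = (fun h : ℤ × ℤ → ℝ => (∑ u ∈ at92pVB u0 a, w u * h u) ^ (2 * m)) h' := by
    intro h h' hh
    simp only
    congr 1
    exact Finset.sum_congr rfl fun u hu => by rw [hh u hu]
  have hgrad : ∀ (h : ℤ × ℤ → ℝ) (c : ℝ), (fun h : ℤ × ℤ → ℝ => (∑ u ∈ at92pVB u0 a, w u * h u) ^ (2 * m)) (fun u => h u + c) =
      (fun h : ℤ × ℤ → ℝ => (∑ u ∈ at92pVB u0 a, w u * h u) ^ (2 * m)) h := by
    intro h c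
    simp only
    congr 1
    simp only [mul_add, Finset.sum_add_distrib, ← Finset.sum_mul, hn, zero_mul, add_zero]
  have A := (at92p_pl_all hP _ _ hloc hgrad).1
  refine le_of_tendsto A ?_
  filter_upwards [eventually_ge_atTop (max 1 (max (C0 * (2 * a)) (a + 1) + (u0.1.natAbs + u0.2.natAbs)))] with n hn'
  have hn1 : 1 ≤ n := le_trans (le_max_left _ _) hn'
  have hn2 : max (C0 * (2 * a)) (a + 1) + (u0.1.natAbs + u0.2.natAbs) ≤ n := le_trans (le_max_right _ _) hn'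
  have hn3 : C0 * (2 * a) ≤ max (C0 * (2 * a)) (a + 1) := le_max_left _ _
  have hn4 : a + 1 ≤ max (C0 * (2 * a)) (a + 1) := le_max_right _ _
  have hb1 : rswBox u0 (C0 * (2 * a)) ⊆ rswBox 0 n :=
    at92p_box_sub (by simp only [Prod.fst_zero, sub_zero]; omega) (by simp only [Prod.snd_zero, sub_zero]; omega)
  have hb2 : rswBox u0 (a + 1) ⊆ rswBox 0 n :=
    at92p_box_sub (by simp only [Prod.fst_zero, sub_zero]; omega) (by simp only [Prod.snd_zero, sub_zero]; omega)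
  have key := hC (rswBox 0 n) u0 (2 * a) 9 (at92pArr u0 a w) (at92p_jordan_box 0 n hn1) (by omega) hb1 (at92p_arr_sm u0 a ha w hw)
    (by
      have := at92p_arr_sum u0 a w (fun _ => 1)
      simp only [mul_one] at this
      rw [this, hn])
  rw [at92p_E_rsw]
  refine le_of_eq_of_le ?_ key
  congr 1
  funext ω
  rw [(even_two_mul m).pow_abs]
  congr 1
  unfold rswArr
  rw [at92p_arr_sum]
  refine Finset.sum_congr rfl fun u hu => ?_
  unfold at92pCl
  rw [if_pos (at92h_self_mem_corners (hb2 (at92p_VB_sub_box u0 a hu)))]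


/-! # PART 2 : MIX-DICT -/

/-! ## A. exploration from an arbitrary seed `B ⊇ rswLayer F` (sec. 3 of Rsw/Expl107 with the layer replaced by `B`) -/

/-- the faces reachable from `B` by dual steps across edges which are not good -/
noncomputable def at92mOut (F : Finset (ℤ × ℤ)) (a : Bool) (B : Finset (ℤ × ℤ)) (ω : RswCfg) : Finset (ℤ × ℤ) :=
  @Finset.filter _ (fun g => ∃ f ∈ B, Relation.ReflTransGen (RswStep F a ω) f g) (fun _ => Classical.propDecidable _) F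

theorem at92m_mem_out {F : Finset (ℤ × ℤ)} {a : Bool} {B : Finset (ℤ × ℤ)} {ω : RswCfg} {g : ℤ × ℤ} :
    g ∈ at92mOut F a B ω ↔ g ∈ F ∧ ∃ f ∈ B, Relation.ReflTransGen (RswStep F a ω) f g :=
  @Finset.mem_filter _ _ (fun _ => Classical.propDecidable _) _ _

theorem at92m_out_sub (F : Finset (ℤ × ℤ)) (a : Bool) (B : Finset (ℤ × ℤ)) (ω : RswCfg) : at92mOut F a B ω ⊆ F :=
  fun _ hg => (at92m_mem_out.1 hg).1

theorem at92m_B_sub_out {F B : Finset (ℤ × ℤ)} (hB : B ⊆ F) (a : Bool) (ω : RswCfg) : B ⊆ at92mOut F a B ω :=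
  fun f hf => at92m_mem_out.2 ⟨hB hf, f, hf, Relation.ReflTransGen.refl⟩

theorem at92m_out_step {F : Finset (ℤ × ℤ)} {a : Bool} {B : Finset (ℤ × ℤ)} {ω : RswCfg} {f g : ℤ × ℤ}
    (hf : f ∈ at92mOut F a B ω) (h : RswStep F a ω f g) : g ∈ at92mOut F a B ω := by
  obtain ⟨_, b, hb, hr⟩ := at92m_mem_out.1 hf
  exact at92m_mem_out.2 ⟨h.2.1, b, hb, hr.tail h⟩

theorem at92m_out_reach {F : Finset (ℤ × ℤ)} {a : Bool} {B : Finset (ℤ × ℤ)} {ω : RswCfg} {f g : ℤ × ℤ}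
    (hf : f ∈ at92mOut F a B ω) (h : Relation.ReflTransGen (RswStep F a ω) f g) : g ∈ at92mOut F a B ω := by
  induction h with
  | refl => exact hf
  | tail _ hs ih => exact at92m_out_step ih hs

theorem at92m_sep_iff {F B : Finset (ℤ × ℤ)} (hB : B ⊆ F) {a : Bool} {ω : RswCfg} {A : Finset (ℤ × ℤ)} :
    RswSep F a ω A B ↔ Disjoint A (at92mOut F a B ω) := by
  rw [rsx_sep_def, Finset.disjoint_left]
  constructor
  · intro h f hf ho
    obtain ⟨_, g, hg, hr⟩ := at92m_mem_out.1 ho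
    exact h f hf g hg (rsx_reach_symm hr)
  · intro h f hf g hg hr
    exact h hf (at92m_out_reach (at92m_B_sub_out hB a ω hg) (rsx_reach_symm hr))

theorem at92m_out_congr {F B : Finset (ℤ × ℤ)} (hB : B ⊆ F) {a : Bool} {ω ω' : RswCfg}
    (h : ∀ e : (ℤ × ℤ) × Bool, (e.1 ∈ at92mOut F a B ω ∨ rswCo e ∈ at92mOut F a B ω) → (RswGood a ω e ↔ RswGood a ω' e)) :
    at92mOut F a B ω' = at92mOut F a B ω := by
  ext g
  constructor
  · intro hg
    obtain ⟨-, f, hf, hr⟩ := at92m_mem_out.1 hg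
    clear hg
    induction hr with
    | refl => exact at92m_B_sub_out hB a ω hf
    | @tail g1 g2 hr1 hs ih =>
      obtain ⟨h1, h2, e, he, hgd⟩ := hs
      refine at92m_out_step ih ⟨h1, h2, e, he, fun hh => hgd ((h e ?_).1 hh)⟩
      rcases he with ⟨rfl, _⟩ | ⟨_, rfl⟩
      · exact Or.inl ih
      · exact Or.inr ih
  · intro hg
    obtain ⟨hgF, f, hf, hr⟩ := at92m_mem_out.1 hg
    refine at92m_mem_out.2 ⟨hgF, f, hf, ?_⟩
    clear hg hgF
    induction hr with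
    | refl => exact Relation.ReflTransGen.refl
    | @tail g1 g2 hr1 hs ih =>
      have h1o : g1 ∈ at92mOut F a B ω := at92m_out_reach (at92m_B_sub_out hB a ω hf) hr1
      obtain ⟨h1, h2, e, he, hgd⟩ := hs
      refine ih.tail ⟨h1, h2, e, he, fun hh => hgd ((h e ?_).2 hh)⟩
      rcases he with ⟨rfl, _⟩ | ⟨_, rfl⟩
      · exact Or.inl h1o
      · exact Or.inr h1o

theorem at92m_out_loc1 {F B G : Finset (ℤ × ℤ)} (hB : B ⊆ F) {a : Bool} {ω ω' : RswCfg}
    (hS : ω.S \ rsxIn (F \ G) = ω'.S \ rsxIn (F \ G)) (hO : ω.O \ rswInt (F \ G) = ω'.O \ rswInt (F \ G))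
    (h : at92mOut F a B ω = G) : at92mOut F a B ω' = G := by
  rw [← h]
  refine at92m_out_congr hB fun e he => ?_
  rw [h] at he
  have hn : ¬ (e.1 ∈ F \ G ∧ rswCo e ∈ F \ G) := by
    rintro ⟨h1, h2⟩
    rcases he with he | he
    · exact (Finset.mem_sdiff.1 h1).2 he
    · exact (Finset.mem_sdiff.1 h2).2 he
  rw [rsx_good_iff, rsx_good_iff, rsx_sdiff_mem hO (fun hh => hn (rsx_mem_int.1 hh)),
    rsx_sdiff_mem hS (fun hh => hn (rsx_in_faces1 hh)), rsx_sdiff_mem hS (fun hh => hn (rsx_in_faces2 hh))]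

/-- the event `{Out = G}` does not read the strict inside of `F \ G` -/
theorem at92m_out_loc {F B : Finset (ℤ × ℤ)} (hB : B ⊆ F) (G : Finset (ℤ × ℤ)) (a : Bool) :
    RsxLocOut (F \ G) (fun ω => rsxInd (at92mOut F a B ω = G)) := by
  intro ω ω' hS _ hO
  exact rsx_ind_congr ⟨at92m_out_loc1 hB hS hO, at92m_out_loc1 hB hS.symm hO.symm⟩

theorem at92m_cross_good {F B : Finset (ℤ × ℤ)} (hB : B ⊆ F) (hL : rswLayer F ⊆ B) {a : Bool} {ω : RswCfg} {e : (ℤ × ℤ) × Bool}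
    (h : (e.1 ∈ F \ at92mOut F a B ω ∧ rswCo e ∉ F \ at92mOut F a B ω) ∨ (rswCo e ∈ F \ at92mOut F a B ω ∧ e.1 ∉ F \ at92mOut F a B ω)) :
    RswGood a ω e := by
  by_contra hg
  rcases h with ⟨h1, h2⟩ | ⟨h1, h2⟩
  · obtain ⟨h1F, h1o⟩ := Finset.mem_sdiff.1 h1
    by_cases hF : rswCo e ∈ F
    · have ho : rswCo e ∈ at92mOut F a B ω := by
        by_contra hh; exact h2 (Finset.mem_sdiff.2 ⟨hF, hh⟩)
      exact h1o (at92m_out_step ho ⟨hF, h1F, e, Or.inr ⟨rfl, rfl⟩, hg⟩)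
    · exact h1o (at92m_B_sub_out hB a ω (hL (rsx_layer_of_edge.1 h1F hF)))
  · obtain ⟨h1F, h1o⟩ := Finset.mem_sdiff.1 h1
    by_cases hF : e.1 ∈ F
    · have ho : e.1 ∈ at92mOut F a B ω := by
        by_contra hh; exact h2 (Finset.mem_sdiff.2 ⟨hF, hh⟩)
      exact h1o (at92m_out_step ho ⟨hF, h1F, e, Or.inl ⟨rfl, rfl⟩, hg⟩)
    · exact h1o (at92m_B_sub_out hB a ω (hL (rsx_layer_of_edge.2 h1F hF)))

/-- the unexplored part is sealed by a cut -/
theorem at92m_out_cut {F B : Finset (ℤ × ℤ)} (hB : B ⊆ F) (hL : rswLayer F ⊆ B) (a : Bool) (ω : RswCfg) :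
    RsxCut F (F \ at92mOut F a B ω) a ω := by
  refine ⟨rsx_bc_of_cross fun e he => at92m_cross_good hB hL he, fun e _ he' hx => ?_⟩
  have hn : ¬ (e.1 ∈ F \ at92mOut F a B ω ∧ rswCo e ∈ F \ at92mOut F a B ω) := fun hh => he' (rsx_mem_int.2 hh)
  refine (at92m_cross_good hB hL (a := a) (ω := ω) (e := e) ?_).1
  rcases hx with hx | hx
  · exact Or.inl ⟨hx, fun hh => hn ⟨hx, hh⟩⟩
  · exact Or.inr ⟨hx, fun hh => hn ⟨hh, hx⟩⟩

/-- **one explored set, with an exterior spectator** -/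
theorem at92m_expl_one {t : ℝ} (h0 : 0 < t) (h1 : t ≤ 1) {F B : Finset (ℤ × ℤ)} (hB : B ⊆ F) (hL : rswLayer F ⊆ B) (G : Finset (ℤ × ℤ))
    (a b : Bool) {X Y : RswCfg → ℝ} (hX : RsxLocIn (F \ G) X) (hY : RsxLocOut (F \ G) Y) :
    rswSum t F b (fun ω => rsxInd (at92mOut F a B ω = G) * (X ω * Y ω))
      = rswSum t F b (fun ω => rsxInd (at92mOut F a B ω = G) * Y ω) * rswE t (F \ G) a X := by
  have hY' : RsxLocOut (F \ G) (fun ω => rsxInd (at92mOut F a B ω = G) * Y ω) := by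
    intro ω ω' e1 e2 e3
    have q1 : rsxInd (at92mOut F a B ω = G) = rsxInd (at92mOut F a B ω' = G) := at92m_out_loc hB G a ω ω' e1 e2 e3
    simp only
    rw [q1, hY ω ω' e1 e2 e3]
  have hs := rsx_swap_E h0 h1 (Finset.sdiff_subset : F \ G ⊆ F) a b hX hY'
  have e1 : ∀ ω, rsxInd (RsxCut F (F \ G) a ω) * X ω * (rsxInd (at92mOut F a B ω = G) * Y ω) =
      rsxInd (at92mOut F a B ω = G) * (X ω * Y ω) := by
    intro ω
    by_cases h : at92mOut F a B ω = G
    · have hc : RsxCut F (F \ G) a ω := by rw [← h]; exact at92m_out_cut hB hL a ω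
      rw [rsx_ind_pos hc, rsx_ind_pos h]; ring
    · rw [rsx_ind_neg h]; ring
  have e2 : ∀ ω, rsxInd (RsxCut F (F \ G) a ω) * (rsxInd (at92mOut F a B ω = G) * Y ω) = rsxInd (at92mOut F a B ω = G) * Y ω := by
    intro ω
    by_cases h : at92mOut F a B ω = G
    · have hc : RsxCut F (F \ G) a ω := by rw [← h]; exact at92m_out_cut hB hL a ω
      rw [rsx_ind_pos hc, rsx_ind_pos h]; ring
    · rw [rsx_ind_neg h]; ring
  rw [rsx_sum_congr t F b e1, rsx_sum_congr t F b e2] at hs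
  exact hs

/-! ## C. the heights on a set of faces which touches the wall are read from the configuration on that set -/

theorem at92m_ht_congr {F : Finset (ℤ × ℤ)} (hext : At92hExt F) {ω ω' : RswCfg}
    (hadm : IsAdmissibleSpins (rswTau F ω) (rswTauD F ω)) (hadm' : IsAdmissibleSpins (rswTau F ω') (rswTauD F ω'))
    {Bs : Finset (ℤ × ℤ)} (hBs : Bs ⊆ F) (w : At92fWall F Bs)
    (hS : ∀ f ∈ Bs, ∀ v, at92hCor f v → (v ∈ ω.S ↔ v ∈ ω'.S)) (hD : ∀ f ∈ Bs, (f ∈ ω.D ↔ f ∈ ω'.D)) :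
    ∀ f ∈ Bs, ∀ v, at92hCor f v → rswH F ω v = rswH F ω' v := by
  obtain ⟨Hf, hH⟩ := at92h_spec (at92h_exists hext hadm)
  obtain ⟨Hf', hH'⟩ := at92h_spec (at92h_exists hext hadm')
  change IsATHeight (rswTau F ω) (rswTauD F ω) (rswH F ω) Hf at hH
  change IsATHeight (rswTau F ω') (rswTauD F ω') (rswH F ω') Hf' at hH'
  have key : ∀ f ∈ Bs, ∀ v, at92hCor f v → Hf f - Hf' f = rswH F ω v - rswH F ω' v := by
    intro f hf v hv
    have a1 := at92p_rule hH (hBs hf) hv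
    have a2 := at92p_rule hH' (hBs hf) hv
    have e1 : at92pS ω v = at92pS ω' v := by unfold at92pS; simp only [hS f hf v hv]
    have e2 : at92pD ω f = at92pD ω' f := by unfold at92pD; simp only [hD f hf]
    rw [e1, e2] at a1
    linarith
  have h0 := at92f_prop hBs w (fun f => Hf f - Hf' f) (fun v => rswH F ω v - rswH F ω' v) key (fun v hv hp => by
    rw [at92h_isHeight_iff] at hH hH'
    rw [hH.1 v hv hp, hH'.1 v hv hp, sub_zero])
  intro f hf v hv
  have := key f hf v hv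
  rw [h0 f hf] at this
  linarith

/-- the inside of `F'` replaced by the constant configuration -/
noncomputable def at92mFill (F' : Finset (ℤ × ℤ)) (a : Bool) (ω : RswCfg) : RswCfg := rsxMix F' (rsxCst F' a) ω

theorem at92m_fill_congr {F' : Finset (ℤ × ℤ)} {a : Bool} {ω ω' : RswCfg} (h1 : ω.S \ rsxIn F' = ω'.S \ rsxIn F')
    (h2 : ω.D \ F' = ω'.D \ F') (h3 : ω.O \ rswInt F' = ω'.O \ rswInt F') : at92mFill F' a ω = at92mFill F' a ω' := by
  unfold at92mFill rsxMix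
  rw [h1, h2, h3]

theorem at92m_not_in {F' : Finset (ℤ × ℤ)} {f v : ℤ × ℤ} (hf : f ∉ F') (hv : at92hCor f v) : v ∉ rsxIn F' :=
  fun h => (rsx_in_iff.1 h) (at92h_onPolygon hf hv)

theorem at92m_fill_adm {F F' : Finset (ℤ × ℤ)} (h : F' ⊆ F) {a : Bool} {ω : RswCfg}
    (hadm : IsAdmissibleSpins (rswTau F ω) (rswTauD F ω)) (hcut : RsxCut F F' a ω) :
    IsAdmissibleSpins (rswTau F (at92mFill F' a ω)) (rswTauD F (at92mFill F' a ω)) := by
  rw [at92d_adm_iff] at hadm ⊢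
  refine ⟨(rsx_bc_mix h true _ ω).2 hadm.1, fun e he => ?_⟩
  unfold at92mFill
  by_cases hi : e ∈ rswInt F'
  · right
    have hi' := rsx_mem_int.1 hi
    rw [rsx_mix_D_in _ ω hi'.1, rsx_mix_D_in _ ω hi'.2]
    simp [rsxCst]
  · have n1 : e.1 ∉ rsxIn F' := fun hh => hi (rsx_mem_int.2 (rsx_in_faces1 hh))
    have n2 : rswEnd e ∉ rsxIn F' := fun hh => hi (rsx_mem_int.2 (rsx_in_faces2 hh))
    rw [rsx_mix_S_out _ ω n1, rsx_mix_S_out _ ω n2]
    by_cases hx : e.1 ∈ F' ∨ rswCo e ∈ F'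
    · left
      have c1 := hcut.1 e.1 (rsx_end_corner1 hx) (fun hh => n1 (rsx_in_iff.2 (not_not.2 hh)))
      have c2 := hcut.1 (rswEnd e) (rsx_end_corner2 hx) (fun hh => n2 (rsx_in_iff.2 (not_not.2 hh)))
      rw [c1, c2]
    · rw [not_or] at hx
      rw [rsx_mix_D_out _ ω hx.1, rsx_mix_D_out _ ω hx.2]
      exact hadm.2 e he

/-- the heights on a wall-touching set of faces off `F'` do not see the filling -/
theorem at92m_fill_ht {F F' : Finset (ℤ × ℤ)} (hext : At92hExt F) (h : F' ⊆ F) {a : Bool} {ω : RswCfg}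
    (hadm : IsAdmissibleSpins (rswTau F ω) (rswTauD F ω)) (hcut : RsxCut F F' a ω)
    {Bs : Finset (ℤ × ℤ)} (hBs : Bs ⊆ F) (hdis : ∀ f ∈ Bs, f ∉ F') (w : At92fWall F Bs) :
    ∀ f ∈ Bs, ∀ v, at92hCor f v → rswH F (at92mFill F' a ω) v = rswH F ω v :=
  at92m_ht_congr hext (at92m_fill_adm h hadm hcut) hadm hBs w
    (fun f hf v hv => rsx_mix_S_out _ ω (at92m_not_in (hdis f hf) hv)) (fun f hf => rsx_mix_D_out _ ω (hdis f hf))

/-! ## D. the class `At92hExt` is closed under the exploration -/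

theorem at92m_adj_symm {f g : ℤ × ℤ} (h : at92hAdj f g) : at92hAdj g f := by
  unfold at92hAdj at h ⊢
  rw [abs_sub_comm g.1, abs_sub_comm g.2]
  exact h

theorem at92m_adj_of_corner {f g v : ℤ × ℤ} (h1 : at92hCor f v) (h2 : at92hCor g v) : at92hAdj f g := by
  unfold at92hCor at h1 h2
  unfold at92hAdj
  rw [abs_le, abs_le]
  constructor <;> constructor <;> omega

theorem at92m_adj_of_step {F : Finset (ℤ × ℤ)} {a : Bool} {ω : RswCfg} {f g : ℤ × ℤ} (h : RswStep F a ω f g) : at92hAdj f g := by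
  obtain ⟨_, _, e, he, _⟩ := h
  have hc := at92f_cor e
  rcases he with ⟨rfl, rfl⟩ | ⟨rfl, rfl⟩
  · exact at92m_adj_of_corner hc.1 hc.2.2.1
  · exact at92m_adj_of_corner hc.2.2.1 hc.1

theorem at92m_ext_sdiff {F B : Finset (ℤ × ℤ)} (hext : At92hExt F) (hB : B ⊆ F) (wB : At92fWall F B) (a : Bool) (ω : RswCfg) :
    At92hExt (F \ at92mOut F a B ω) := by
  intro S hS hne hcl
  have hnot : ∀ x, x ∉ F \ at92mOut F a B ω ↔ (x ∉ F ∨ x ∈ at92mOut F a B ω) := by
    intro x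
    rw [Finset.mem_sdiff]
    tauto
  have hiff : ∀ x y, x ∉ F \ at92mOut F a B ω → y ∉ F \ at92mOut F a B ω → at92hAdj x y → (x ∈ S ↔ y ∈ S) :=
    fun x y hx hy hxy => ⟨fun h => hcl x h y hy hxy, fun h => hcl y h x hx (at92m_adj_symm hxy)⟩
  -- every explored face is tied to an exterior face
  have htie : ∀ k ∈ at92mOut F a B ω, ∃ h, h ∉ F ∧ (k ∈ S ↔ h ∈ S) := by
    intro k hk
    obtain ⟨_, b, hb, hr⟩ := at92m_mem_out.1 hk
    have hbK := at92m_B_sub_out hB a ω hb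
    have s1 : ∀ x, Relation.ReflTransGen (RswStep F a ω) b x → (x ∈ at92mOut F a B ω ∧ (x ∈ S ↔ b ∈ S)) := by
      intro x hx
      induction hx with
      | refl => exact ⟨hbK, Iff.rfl⟩
      | tail _ hs ih =>
        have hc := at92m_out_step ih.1 hs
        exact ⟨hc, (hiff _ _ ((hnot _).2 (Or.inr ih.1)) ((hnot _).2 (Or.inr hc)) (at92m_adj_of_step hs)).symm.trans ih.2⟩
    obtain ⟨g1, hchain, v, hv, hpol⟩ := wB b hb
    have s2 : ∀ x, Relation.ReflTransGen (fun p q => q ∈ B ∧ at92hAdj p q) b x → (x ∈ B ∧ (x ∈ S ↔ b ∈ S)) := by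
      intro x hx
      induction hx with
      | refl => exact ⟨hb, Iff.rfl⟩
      | tail _ hs ih =>
        exact ⟨hs.1, (hiff _ _ ((hnot _).2 (Or.inr (at92m_B_sub_out hB a ω ih.1)))
          ((hnot _).2 (Or.inr (at92m_B_sub_out hB a ω hs.1))) hs.2).symm.trans ih.2⟩
    obtain ⟨h, hhF, hhv⟩ := at92h_exists_ext hpol
    refine ⟨h, hhF, ?_⟩
    have t1 := (s1 k hr).2
    have t2 := (s2 g1 hchain)
    have t3 := hiff g1 h ((hnot _).2 (Or.inr (at92m_B_sub_out hB a ω t2.1))) ((hnot _).2 (Or.inl hhF)) (at92m_adj_of_corner hv hhv)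
    exact t1.trans (t2.2.symm.trans t3)
  -- an exterior face lies in `S`
  have hex : ∃ h, h ∉ F ∧ h ∈ S := by
    obtain ⟨x, hx⟩ := hne
    rcases (hnot x).1 (hS x hx) with h | h
    · exact ⟨x, h, hx⟩
    · obtain ⟨h', h1, h2⟩ := htie x h
      exact ⟨h', h1, h2.1 hx⟩
  obtain ⟨h0, h0F, h0S⟩ := hex
  have hall : ∀ g, g ∉ F → g ∈ S := by
    have := hext {f | f ∉ F ∧ f ∈ S} (fun f hf => hf.1) ⟨h0, h0F, h0S⟩
      (fun f hf g hg hadj => ⟨hg, hcl f hf.2 g ((hnot g).2 (Or.inl hg)) hadj⟩)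
    exact fun g hg => (this g hg).2
  intro g hg
  rcases (hnot g).1 hg with h | h
  · exact hall g h
  · obtain ⟨h', h1, h2⟩ := htie g h
    exact h2.2 (hall h' h1)

/-! ## E. MIX-DICT : the field `mix` of `Gd72Pl` from `GaussMixR` -/

theorem at92m_out_out (Bx : Finset (ℤ × ℤ)) (ω : RswCfg) : rskOut Bx (rskOut Bx ω) = rskOut Bx ω := by
  refine at92p_cfg_ext ?_ ?_ ?_ <;> ext x <;> simp [rskOut]

open Classical in
/-- the value of `G` on the cleaned height of ANY admissible configuration with the exterior part `ζ` (`0` if there is none) -/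
noncomputable def at92mG0 (F Bx : Finset (ℤ × ℤ)) (G : (ℤ × ℤ → ℝ) → ℝ) (ζ : RswCfg) : ℝ :=
  if h : ∃ η : RswCfg, IsAdmissibleSpins (rswTau F η) (rswTauD F η) ∧ rskOut Bx η = ζ then
    G (at92pCl F (rswH F (Classical.choose h))) else 0

/-- the exterior version of an observable of the heights -/
noncomputable def at92mG (F Bx : Finset (ℤ × ℤ)) (G : (ℤ × ℤ → ℝ) → ℝ) (ω : RswCfg) : ℝ := at92mG0 F Bx G (rskOut Bx ω)

theorem at92m_G_outside (F Bx : Finset (ℤ × ℤ)) (G : (ℤ × ℤ → ℝ) → ℝ) : RskOutside Bx (at92mG F Bx G) := by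
  intro ω
  unfold at92mG
  rw [at92m_out_out]

theorem at92m_G_le (F Bx : Finset (ℤ × ℤ)) {G : (ℤ × ℤ → ℝ) → ℝ} (hG : ∀ h, |G h| ≤ 1) (ω : RswCfg) : |at92mG F Bx G ω| ≤ 1 := by
  unfold at92mG at92mG0
  split_ifs
  · exact hG _
  · simp

theorem at92m_core_not {Bx : Finset (ℤ × ℤ)} {f v : ℤ × ℤ} (hf : f ∉ Bx) (hv : at92hCor f v) : v ∉ rskCore Bx := by
  classical
  unfold rskCore
  rw [Finset.mem_filter]
  rintro ⟨_, h⟩
  exact h (at92h_onPolygon hf hv)

/-- **exterior determination**: on an admissible configuration the exterior version is the observable -/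
theorem at92m_G_eq {F : Finset (ℤ × ℤ)} (hext : At92hExt F) (u0 : ℤ × ℤ) (L : ℕ) {G : (ℤ × ℤ → ℝ) → ℝ}
    (hG : ∀ h h' : ℤ × ℤ → ℝ, (∀ u, u ∉ at92pVB u0 L → h u = h' u) → G h = G h') {ω : RswCfg}
    (hadm : IsAdmissibleSpins (rswTau F ω) (rswTauD F ω)) :
    at92mG F (rswBox u0 L) G ω = G (at92pCl F (rswH F ω)) := by
  have hex : ∃ η : RswCfg, IsAdmissibleSpins (rswTau F η) (rswTauD F η) ∧ rskOut (rswBox u0 L) η = rskOut (rswBox u0 L) ω := ⟨ω, hadm, rfl⟩
  unfold at92mG at92mG0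
  rw [dif_pos hex]
  obtain ⟨hadm', hout⟩ := Classical.choose_spec hex
  set η := Classical.choose hex with hη
  have hS : η.S \ rskCore (rswBox u0 L) = ω.S \ rskCore (rswBox u0 L) := congrArg RswCfg.S hout
  have hD : η.D \ rswBox u0 L = ω.D \ rswBox u0 L := congrArg RswCfg.D hout
  have key := at92m_ht_congr hext hadm' hadm (Bs := F \ rswBox u0 L) Finset.sdiff_subset (at92f_wall_out F u0 L)
    (fun f hf v hv => rsx_sdiff_mem hS (at92m_core_not (Finset.mem_sdiff.1 hf).2 hv))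
    (fun f hf => rsx_sdiff_mem hD (Finset.mem_sdiff.1 hf).2)
  refine hG _ _ fun u hu => ?_
  unfold at92pCl
  by_cases hc : u ∈ cornersOf F
  · rw [if_pos hc, if_pos hc]
    obtain ⟨f, hf, hcor⟩ := at92h_mem_corners.1 hc
    refine key f (Finset.mem_sdiff.2 ⟨hf, fun hb => hu ?_⟩) u hcor
    have hb' := at92f_mem_box.1 hb
    rw [at92p_mem_VB]
    unfold at92hCor at hcor
    constructor <;> constructor <;> omega
  · rw [if_neg hc, if_neg hc]

theorem at92m_X_inside {S : Finset (ℤ × ℤ)} {Ψ : (ℤ × ℤ → ℝ) → ℝ} (hloc : ∀ h h' : ℤ × ℤ → ℝ, (∀ u ∈ S, h u = h' u) → Ψ h = Ψ h')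
    {c : ℤ × ℤ} {m : ℕ} (hS : S ⊆ at92pVB c m) : RskInside (rswBox c (m + 2)) (at92pX Ψ c) := by
  intro ω
  have hsub : at92pVB c (m + 1) ⊆ rswBox c (m + 2) := at92p_VB_sub_box c (m + 1)
  refine at92p_X_loc hloc hS _ _ ?_ ?_ ?_
  · ext x
    simp only [rskIn, Finset.mem_inter]
    constructor
    · rintro ⟨⟨h1, _⟩, h2⟩; exact ⟨h1, h2⟩
    · rintro ⟨h1, h2⟩; exact ⟨⟨h1, at92h_self_mem_corners (hsub h2)⟩, h2⟩
  · ext x
    simp only [rskIn, Finset.mem_inter]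
    constructor
    · rintro ⟨⟨h1, _⟩, h2⟩; exact ⟨h1, h2⟩
    · rintro ⟨h1, h2⟩; exact ⟨⟨h1, hsub h2⟩, h2⟩
  · simp

/-- the field `mix` of `Gd72Pl`, alone -/
def At92pMix (t : ℝ) : Prop :=
  ∃ C κ : ℝ, 0 < C ∧ 0 < κ ∧ ∀ (F : Finset (ℤ × ℤ)) (u0 : ℤ × ℤ) (r L : ℕ), Gd72Jor F → 1 ≤ r → C * r ≤ L → gd72FB u0 L ⊆ F →
    ∀ G Ψ : (ℤ × ℤ → ℝ) → ℝ, Gd72Ext (gd72VB u0 L) G → (∀ h, |G h| ≤ 1) → Gd72Loc (gd72VB u0 r) Ψ → Gd72Grad Ψ → (∀ h, |Ψ h| ≤ 1) →
      |gd72E t F (fun h => G h * Ψ h) - gd72E t F G * gd72Pl t Ψ| ≤ C * ((r : ℝ) / L) ^ κ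

open Filter Topology in
/-- **MIX-DICT** -/
theorem at92m_mix {t : ℝ} (H : GaussMixR t) (hP : At92pPlane t) : At92pMix t := by
  obtain ⟨C0, κ, hC0, hκ, H⟩ := H
  have h3 : (0 : ℝ) < 3 ^ κ := Real.rpow_pos_of_pos (by norm_num) κ
  refine ⟨max (max (3 * C0) 3) (C0 * 3 ^ κ), κ, lt_max_of_lt_right (by positivity), hκ, ?_⟩
  intro F u0 r L hJ hr hCL hbox G Ψ hG hG1 hΨ hΨg hΨ1
  obtain ⟨δ, hδ, hγ⟩ := hJ
  have hJF : RswJordan F := dm7_jordan_of hδ hγ
  have hext : At92hExt F := at92p_ext_of_jordan hJF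
  have hr' : (1 : ℝ) ≤ r := by exact_mod_cast hr
  have hA : 3 * C0 * r ≤ L :=
    le_trans (mul_le_mul_of_nonneg_right (le_trans (le_max_left _ _) (le_max_left _ _)) (by positivity)) hCL
  have hB : (3 : ℝ) * r ≤ L :=
    le_trans (mul_le_mul_of_nonneg_right (le_trans (le_max_right _ _) (le_max_left _ _)) (by positivity)) hCL
  have hL0 : (0 : ℝ) < L := by linarith
  have hCL' : C0 * ((r + 2 : ℕ) : ℝ) ≤ L := by
    push_cast
    nlinarith
  have hrL : r + 1 ≤ L := by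
    have : 3 * r ≤ L := by exact_mod_cast hB
    omega
  -- the two dictionaries in `F`
  have hbox1 : rswBox u0 (r + 1) ⊆ F := (at92p_box_mono u0 hrL).trans hbox
  have eG : gd72E t F G = rswE t F true (at92mG F (rswBox u0 L) G) := by
    change at92pE t F G = _
    rw [at92p_E_rsw]
    exact at92p_E_congr t F true fun ω hw => (at92m_G_eq hext u0 L hG (at92f_adm_of_wt hw)).symm
  have eGΨ : gd72E t F (fun h => G h * Ψ h) = rswE t F true (fun ω => at92mG F (rswBox u0 L) G ω * at92pX Ψ u0 ω) := by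
    change at92pE t F (fun h => G h * Ψ h) = _
    rw [at92p_E_rsw]
    refine at92p_E_congr t F true fun ω hw => ?_
    have hadm := at92f_adm_of_wt hw
    rw [at92m_G_eq hext u0 L hG hadm, at92p_X_eq hext hadm hΨ hΨg (Finset.Subset.refl _) hbox1]
  have hX1 : ∀ ω, |at92pX Ψ u0 ω| ≤ 1 := fun ω => hΨ1 _
  -- the bound at every large box
  have hn : ∀ᶠ n : ℕ in atTop, |gd72E t F (fun h => G h * Ψ h) - gd72E t F G * at92pE t (rswBox 0 n) Ψ| ≤ C0 * (((r + 2 : ℕ) : ℝ) / L) ^ κ := by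
    filter_upwards [eventually_ge_atTop (max 1 (L + (u0.1.natAbs + u0.2.natAbs)))] with n hn
    have hn1 : 1 ≤ n := le_trans (le_max_left _ _) hn
    have hn2 : L + (u0.1.natAbs + u0.2.natAbs) ≤ n := le_trans (le_max_right _ _) hn
    have hbn : rswBox u0 L ⊆ rswBox 0 n :=
      at92p_box_sub (by simp only [Prod.fst_zero, sub_zero]; omega) (by simp only [Prod.snd_zero, sub_zero]; omega)
    have hbn1 : rswBox u0 (r + 1) ⊆ rswBox 0 n := (at92p_box_mono u0 hrL).trans hbn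
    rw [at92p_E_X t (at92p_ext_of_jordan (at92p_jordan_box 0 n hn1)) hΨ hΨg (Finset.Subset.refl _) hbn1, eG, eGΨ]
    exact H F (rswBox 0 n) u0 true true (r + 2) L hJF (at92p_jordan_box 0 n hn1) (by omega) hCL' hbox hbn _ _
      (at92m_G_outside F _ G) (at92m_G_le F _ hG1) (at92m_X_inside hΨ (Finset.Subset.refl _)) hX1
  have hlim := (at92p_pl_all hP _ Ψ hΨ hΨg).1
  have hlim2 : Tendsto (fun n : ℕ => |gd72E t F (fun h => G h * Ψ h) - gd72E t F G * at92pE t (rswBox 0 n) Ψ|) atTop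
      (𝓝 |gd72E t F (fun h => G h * Ψ h) - gd72E t F G * at92pPl t Ψ|) :=
    ((tendsto_const_nhds.sub (tendsto_const_nhds.mul hlim))).abs
  have hfin := le_of_tendsto hlim2 hn
  refine le_trans hfin ?_
  have e1 : (((r + 2 : ℕ) : ℝ) / L) ^ κ ≤ 3 ^ κ * ((r : ℝ) / L) ^ κ := by
    rw [← Real.mul_rpow (by norm_num) (by positivity)]
    refine Real.rpow_le_rpow (by positivity) ?_ hκ.le
    rw [mul_div_assoc', div_le_div_iff_of_pos_right hL0]
    push_cast
    linarith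
  calc C0 * (((r + 2 : ℕ) : ℝ) / L) ^ κ ≤ C0 * (3 ^ κ * ((r : ℝ) / L) ^ κ) := mul_le_mul_of_nonneg_left e1 hC0.le
    _ = C0 * 3 ^ κ * ((r : ℝ) / L) ^ κ := by ring
    _ ≤ max (max (3 * C0) 3) (C0 * 3 ^ κ) * ((r : ℝ) / L) ^ κ := mul_le_mul_of_nonneg_right (le_max_right _ _) (by positivity)

/-- **the plane package of 72 from the two exits of RSW and the mixing** -/
theorem at92p_gd72 {t : ℝ} (hP : At92pPlane t) (hM : At92pMom t) (hmix : At92pMix t) : Gd72Pl t where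
  lim := fun S G hl hg => (at92p_pl_all hP S G hl hg).1
  tr := fun S G hl hg w => at92p_pl_tr hP S G hl hg w
  mix := hmix
  mom := fun m => at92p_pl_mom hP hM m

end Claimed.Agent.R292
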