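import Claimed.Agent.R291.Lim.DecA
import Claimed.Agent.R291.Lim.Kit165

/-!
# Row 292 (S0540), Gauss/DecA172 : THE DECOUPLING INEQUALITY, FULLY MODEL FREE      (owner helper172; prefix `dec172_`, structures `Dec172*`)      0 sorry

AT paper, Sec. 6, proof of [lem:neutral-pair-mixing], last paragraph ("the unbounded factors cost only logarithms"), without coupling:
port of R291/Lim/DecA to ANY expectation and ANY plane functional on ANY configuration space `Ω`.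
* `Dec172Exp E`        `E : (Ω → ℝ) → ℝ` is linear, monotone, normalised                   (`dec172_exp_lmE` : every finite weighted law `lmE A w`)
* `Dec172Pl 𝒢 P`       `P` is linear, monotone, normalised ON THE CLASS `𝒢` of observables, which is stable under `φ ∘ (G, G')` and contains the constants
* `dec172_abs`         truncation algebra:  `|E(ΦG) - E(Φ) p| ≤ M² ε + K/M`
* `dec172_mix`         a mixing bound for observables bounded by `1` applied to the truncations of unbounded observables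
* **`dec172_core`**    `Φ ∈ ℰ` (exterior class, stable under `φ ∘ Φ`), `G ∈ 𝒢`, both unbounded:
                       `|E(ΦG) - E(Φ) P(G)| ≤ M² ε + (a + b + a(1+c)/2 + (1+a)c/2)/M` for every `M > 0`
* `dec172_opt`         the choice `M = ε^(-1/3)`:  `≤ (1 + K) ε^(1/3)`
-/

set_option autoImplicit false

namespace Claimed.Agent.R292

open Filter Topology Set
open Claimed.Agent.R291

/-- an expectation -/
structure Dec172Exp {Ω : Type*} (E : (Ω → ℝ) → ℝ) : Prop where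
  add : ∀ G G' : Ω → ℝ, E (fun a => G a + G' a) = E G + E G'
  smul : ∀ (c : ℝ) (G : Ω → ℝ), E (fun a => c * G a) = c * E G
  mono : ∀ G G' : Ω → ℝ, (∀ a, G a ≤ G' a) → E G ≤ E G'
  one : E (fun _ => 1) = 1

/-- every finite weighted law is an expectation -/
theorem dec172_exp_lmE {Ω : Type*} {A : Finset Ω} {w : Ω → ℝ} (hw : ∀ a ∈ A, 0 ≤ w a) (hZ : 0 < ∑ a ∈ A, w a) :
    Dec172Exp (lmE A w) where
  add := fun G G' => lm_E_add A w G G'
  smul := fun c G => lm_E_mul_left A w c G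
  mono := fun _ _ h => lm_E_mono hw fun a _ => h a
  one := lm_E_const hZ 1

section exp

variable {Ω : Type*} {E : (Ω → ℝ) → ℝ}

theorem Dec172Exp.sub (H : Dec172Exp E) (G G' : Ω → ℝ) : E (fun a => G a - G' a) = E G - E G' := by
  have h1 : (fun a => G a - G' a) = fun a => G a + (-1) * G' a := by funext a; ring
  rw [h1, H.add G (fun a => (-1) * G' a), H.smul]
  ring

theorem Dec172Exp.const (H : Dec172Exp E) (c : ℝ) : E (fun _ => c) = c := by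
  have h1 : (fun _ : Ω => c) = fun _ => c * 1 := by funext a; ring
  rw [h1, H.smul c (fun _ => 1), H.one, mul_one]

theorem Dec172Exp.nonneg (H : Dec172Exp E) {G : Ω → ℝ} (h : ∀ a, 0 ≤ G a) : 0 ≤ E G := by
  have := H.mono (fun _ => 0) G h
  rwa [H.const] at this

theorem Dec172Exp.abs_le (H : Dec172Exp E) (G : Ω → ℝ) : |E G| ≤ E fun a => |G a| := by
  rw [_root_.abs_le]
  constructor
  · have := H.mono (fun a => (-1) * |G a|) G fun a => by linarith [neg_abs_le (G a)]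
    rw [H.smul] at this
    linarith
  · exact H.mono _ _ fun a => le_abs_self _

end exp

/-- a plane functional on a class of observables -/
structure Dec172Pl {Ω : Type*} (𝒢 : (Ω → ℝ) → Prop) (P : (Ω → ℝ) → ℝ) : Prop where
  comp2 : ∀ G G' : Ω → ℝ, 𝒢 G → 𝒢 G' → ∀ φ : ℝ → ℝ → ℝ, 𝒢 fun a => φ (G a) (G' a)
  cst : ∀ c : ℝ, 𝒢 fun _ => c
  add : ∀ G G' : Ω → ℝ, 𝒢 G → 𝒢 G' → P (fun a => G a + G' a) = P G + P G'
  smul : ∀ (c : ℝ) (G : Ω → ℝ), 𝒢 G → P (fun a => c * G a) = c * P G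
  mono : ∀ G G' : Ω → ℝ, 𝒢 G → 𝒢 G' → (∀ a, G a ≤ G' a) → P G ≤ P G'
  one : P (fun _ => 1) = 1

section pl

variable {Ω : Type*} {𝒢 : (Ω → ℝ) → Prop} {P : (Ω → ℝ) → ℝ}

theorem Dec172Pl.comp (H : Dec172Pl 𝒢 P) {G : Ω → ℝ} (hG : 𝒢 G) (φ : ℝ → ℝ) : 𝒢 fun a => φ (G a) :=
  H.comp2 G G hG hG fun s _ => φ s

theorem Dec172Pl.const (H : Dec172Pl 𝒢 P) (c : ℝ) : P (fun _ => c) = c := by
  have h1 : (fun _ : Ω => c) = fun _ => c * 1 := by funext a; ring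
  rw [h1, H.smul c (fun _ => 1) (H.cst 1), H.one, mul_one]

/-- comparison `|P G1 - P G2| ≤ P G3` from `|G1 - G2| ≤ G3` -/
theorem Dec172Pl.abs_sub_le (H : Dec172Pl 𝒢 P) {G1 G2 G3 : Ω → ℝ} (g1 : 𝒢 G1) (g2 : 𝒢 G2) (g3 : 𝒢 G3)
    (h : ∀ a, |G1 a - G2 a| ≤ G3 a) : |P G1 - P G2| ≤ P G3 := by
  have a1 := H.mono G1 (fun a => G2 a + G3 a) g1 (H.comp2 G2 G3 g2 g3 (· + ·))
    fun a => by have := (abs_le.1 (h a)).2; linarith
  have a2 := H.mono G2 (fun a => G1 a + G3 a) g2 (H.comp2 G1 G3 g1 g3 (· + ·))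
    fun a => by have := (abs_le.1 (h a)).1; linarith
  rw [H.add G2 G3 g2 g3] at a1
  rw [H.add G1 G3 g1 g3] at a2
  rw [abs_le]
  constructor <;> linarith

end pl

/-! ### truncation algebra -/

theorem dec172_abs {Ω : Type*} {E : (Ω → ℝ) → ℝ} (H : Dec172Exp E) (Φ G : Ω → ℝ) {M ε a bb c pG pGM : ℝ} (hM : 0 < M)
    (hmix : |E (fun ω => limTr M (Φ ω) * limTr M (G ω)) - E (fun ω => limTr M (Φ ω)) * pGM| ≤ M ^ 2 * ε)
    (hΦ2 : E (fun ω => Φ ω ^ 2) ≤ a) (hΦ4 : E (fun ω => Φ ω ^ 4) ≤ a)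
    (hG2 : E (fun ω => G ω ^ 2) ≤ bb) (hG4 : E (fun ω => G ω ^ 4) ≤ bb)
    (hp1 : |pGM| ≤ (1 + c) / 2) (hp2 : |pG - pGM| ≤ c / M) :
    |E (fun ω => Φ ω * G ω) - E Φ * pG| ≤ M ^ 2 * ε + (a + bb + a * ((1 + c) / 2) + (1 + a) / 2 * c) / M := by
  have ha : 0 ≤ a := (H.nonneg fun ω => by positivity).trans hΦ2
  have s1 : |E (fun ω => Φ ω * G ω) - E (fun ω => limTr M (Φ ω) * limTr M (G ω))| ≤ (a + bb) / M := by
    rw [← H.sub]
    refine (H.abs_le _).trans ?_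
    refine (H.mono _ _ fun ω => lim_dec_pt hM (Φ ω) (G ω)).trans ?_
    have e : (fun ω => (Φ ω ^ 4 + G ω ^ 2 + Φ ω ^ 2 + G ω ^ 4) / (2 * M))
        = fun ω => (2 * M)⁻¹ * (((Φ ω ^ 4 + G ω ^ 2) + Φ ω ^ 2) + G ω ^ 4) := by
      funext ω; rw [div_eq_mul_inv, mul_comm]
    rw [e, H.smul, H.add (fun ω => (Φ ω ^ 4 + G ω ^ 2) + Φ ω ^ 2) (fun ω => G ω ^ 4),
      H.add (fun ω => Φ ω ^ 4 + G ω ^ 2) (fun ω => Φ ω ^ 2), H.add (fun ω => Φ ω ^ 4) (fun ω => G ω ^ 2)]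
    have : (a + bb) / M = (2 * M)⁻¹ * (a + bb + a + bb) := by field_simp; ring
    rw [this]
    refine mul_le_mul_of_nonneg_left ?_ (by positivity)
    linarith
  have s3 : |E (fun ω => limTr M (Φ ω)) - E Φ| ≤ a / M := by
    rw [← H.sub]
    refine (H.abs_le _).trans ?_
    have : ∀ ω, |limTr M (Φ ω) - Φ ω| ≤ M⁻¹ * Φ ω ^ 2 := fun ω => by
      have := lim_tr_err hM (Φ ω) (m := 1) le_rfl
      rw [abs_sub_comm]
      simpa [div_eq_mul_inv, mul_comm] using this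
    refine (H.mono _ _ fun ω => this ω).trans ?_
    rw [H.smul, div_eq_mul_inv, mul_comm]
    exact mul_le_mul_of_nonneg_right hΦ2 (by positivity)
  have s4 : |E Φ| ≤ (1 + a) / 2 := by
    refine (H.abs_le _).trans ?_
    have : ∀ ω, |Φ ω| ≤ 2⁻¹ * (1 + Φ ω ^ 2) := fun ω => by
      have := sq_nonneg (|Φ ω| - 1)
      have e2 : |Φ ω| ^ 2 = Φ ω ^ 2 := sq_abs _
      nlinarith
    refine (H.mono _ _ fun ω => this ω).trans ?_
    rw [H.smul, H.add (fun _ => 1) (fun ω => Φ ω ^ 2), H.one]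
    linarith
  have e : E (fun ω => Φ ω * G ω) - E Φ * pG
      = (E (fun ω => Φ ω * G ω) - E (fun ω => limTr M (Φ ω) * limTr M (G ω)))
        + (E (fun ω => limTr M (Φ ω) * limTr M (G ω)) - E (fun ω => limTr M (Φ ω)) * pGM)
        + (E (fun ω => limTr M (Φ ω)) - E Φ) * pGM + E Φ * (pGM - pG) := by ring
  have t3 : |(E (fun ω => limTr M (Φ ω)) - E Φ) * pGM| ≤ a / M * ((1 + c) / 2) := by
    rw [abs_mul]; exact mul_le_mul s3 hp1 (abs_nonneg _) (by positivity)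
  have t4 : |E Φ * (pGM - pG)| ≤ (1 + a) / 2 * (c / M) := by
    rw [abs_mul, abs_sub_comm]; exact mul_le_mul s4 hp2 (abs_nonneg _) (by positivity)
  rw [e]
  refine (abs_add_le _ _).trans ((add_le_add ((abs_add_le _ _).trans (add_le_add ((abs_add_le _ _).trans (add_le_add s1 hmix)) t3)) t4).trans
    (le_of_eq ?_))
  field_simp
  ring

/-! ### the mixing input on unbounded observables -/

/-- the mixing bound for observables bounded by `1`, applied to truncations -/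
theorem dec172_mix {Ω : Type*} {E P : (Ω → ℝ) → ℝ} {ℰ 𝒢 : (Ω → ℝ) → Prop} (HE : Dec172Exp E) (HP : Dec172Pl 𝒢 P)
    (hℰ : ∀ Φ : Ω → ℝ, ℰ Φ → ∀ φ : ℝ → ℝ, ℰ fun ω => φ (Φ ω)) {ε : ℝ}
    (hmix : ∀ Φ Ψ : Ω → ℝ, ℰ Φ → (∀ ω, |Φ ω| ≤ 1) → 𝒢 Ψ → (∀ ω, |Ψ ω| ≤ 1) → |E (fun ω => Φ ω * Ψ ω) - E Φ * P Ψ| ≤ ε)
    {Φ G : Ω → ℝ} (hΦ : ℰ Φ) (hG : 𝒢 G) {M : ℝ} (hM : 0 < M) :
    |E (fun ω => limTr M (Φ ω) * limTr M (G ω)) - E (fun ω => limTr M (Φ ω)) * P (fun ω => limTr M (G ω))| ≤ M ^ 2 * ε := by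
  have hb : ∀ t : ℝ, |M⁻¹ * limTr M t| ≤ 1 := fun t => by
    rw [abs_mul, abs_of_pos (inv_pos.2 hM), inv_mul_le_iff₀ hM, mul_one]
    exact lim_tr_abs_le hM.le t
  have key := hmix (fun ω => M⁻¹ * limTr M (Φ ω)) (fun ω => M⁻¹ * limTr M (G ω))
    (hℰ Φ hΦ fun t => M⁻¹ * limTr M t) (fun ω => hb _) (HP.comp hG fun t => M⁻¹ * limTr M t) fun ω => hb _
  have e1 : (fun ω => M⁻¹ * limTr M (Φ ω) * (M⁻¹ * limTr M (G ω))) = fun ω => (M⁻¹ * M⁻¹) * (limTr M (Φ ω) * limTr M (G ω)) := by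
    funext ω; ring
  have e2 : P (fun ω => M⁻¹ * limTr M (G ω)) = M⁻¹ * P (fun ω => limTr M (G ω)) :=
    HP.smul M⁻¹ _ (HP.comp hG (limTr M))
  rw [e1, e2, HE.smul, HE.smul] at key
  have e3 : M⁻¹ * M⁻¹ * E (fun ω => limTr M (Φ ω) * limTr M (G ω))
      - M⁻¹ * E (fun ω => limTr M (Φ ω)) * (M⁻¹ * P fun ω => limTr M (G ω))
      = (M ^ 2)⁻¹ * (E (fun ω => limTr M (Φ ω) * limTr M (G ω))
        - E (fun ω => limTr M (Φ ω)) * P fun ω => limTr M (G ω)) := by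
    field_simp
  rw [e3, abs_mul, abs_of_pos (by positivity), inv_mul_le_iff₀ (by positivity)] at key
  exact key

/-- **THE DECOUPLING INEQUALITY**: `Φ` exterior, `G` in the class of the plane functional; no bound on `Φ`, `G` -/
theorem dec172_core {Ω : Type*} {E P : (Ω → ℝ) → ℝ} {ℰ 𝒢 : (Ω → ℝ) → Prop} (HE : Dec172Exp E) (HP : Dec172Pl 𝒢 P)
    (hℰ : ∀ Φ : Ω → ℝ, ℰ Φ → ∀ φ : ℝ → ℝ, ℰ fun ω => φ (Φ ω)) {ε : ℝ}
    (hmix : ∀ Φ Ψ : Ω → ℝ, ℰ Φ → (∀ ω, |Φ ω| ≤ 1) → 𝒢 Ψ → (∀ ω, |Ψ ω| ≤ 1) → |E (fun ω => Φ ω * Ψ ω) - E Φ * P Ψ| ≤ ε)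
    {Φ G : Ω → ℝ} (hΦ : ℰ Φ) (hG : 𝒢 G) {a b c : ℝ}
    (h1 : E (fun ω => Φ ω ^ 2) ≤ a) (h2 : E (fun ω => Φ ω ^ 4) ≤ a) (h3 : E (fun ω => G ω ^ 2) ≤ b) (h4 : E (fun ω => G ω ^ 4) ≤ b)
    (h5 : P (fun ω => G ω ^ 2) ≤ c) {M : ℝ} (hM : 0 < M) :
    |E (fun ω => Φ ω * G ω) - E Φ * P G| ≤ M ^ 2 * ε + (a + b + a * ((1 + c) / 2) + (1 + a) / 2 * c) / M := by
  have gT := HP.comp hG (limTr M)
  have gS := HP.comp hG (· ^ 2)
  have p1 : |P (fun ω => limTr M (G ω))| ≤ (1 + c) / 2 := by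
    have g3 := HP.comp hG fun t => 2⁻¹ * (1 + t ^ 2)
    have := HP.abs_sub_le gT (HP.cst 0) g3 fun ω => by
      rw [sub_zero]
      refine (lim_tr_abs_le_abs hM.le _).trans ?_
      have := sq_nonneg (|G ω| - 1)
      have e2 : |G ω| ^ 2 = G ω ^ 2 := sq_abs _
      nlinarith
    rw [HP.const, sub_zero] at this
    refine this.trans ?_
    have e : P (fun ω => 2⁻¹ * (1 + G ω ^ 2)) = 2⁻¹ * (1 + P fun ω => G ω ^ 2) := by
      rw [HP.smul 2⁻¹ (fun ω => 1 + G ω ^ 2) (HP.comp hG fun t => 1 + t ^ 2),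
        HP.add (fun _ => 1) (fun ω => G ω ^ 2) (HP.cst 1) gS, HP.one]
    rw [e]
    linarith
  have p2 : |P G - P (fun ω => limTr M (G ω))| ≤ c / M := by
    have g3 := HP.comp hG fun t => M⁻¹ * t ^ 2
    have := HP.abs_sub_le hG gT g3 fun ω => by
      have := lim_tr_err hM (G ω) (m := 1) le_rfl
      simpa [div_eq_mul_inv, mul_comm] using this
    refine this.trans ?_
    rw [HP.smul M⁻¹ (fun ω => G ω ^ 2) gS, div_eq_mul_inv, mul_comm]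
    exact mul_le_mul_of_nonneg_right h5 (by positivity)
  exact dec172_abs HE Φ G hM (dec172_mix HE HP hℰ hmix hΦ hG hM) h1 h2 h3 h4 p1 p2

/-- the optimal truncation `M = ε^(-1/3)` -/
theorem dec172_opt {ε K X : ℝ} (hε : 0 < ε) (h : ∀ M : ℝ, 0 < M → X ≤ M ^ 2 * ε + K / M) :
    X ≤ (1 + K) * ε ^ ((1 : ℝ) / 3) := by
  have hM : 0 < ε ^ (-(1 : ℝ) / 3) := Real.rpow_pos_of_pos hε _
  refine (h _ hM).trans (le_of_eq ?_)
  have e1 : (ε ^ (-(1 : ℝ) / 3)) ^ 2 * ε = ε ^ ((1 : ℝ) / 3) := by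
    rw [← Real.rpow_natCast, ← Real.rpow_mul hε.le]
    nth_rewrite 2 [← Real.rpow_one ε]
    rw [← Real.rpow_add hε]
    norm_num
  have e2 : K / ε ^ (-(1 : ℝ) / 3) = K * ε ^ ((1 : ℝ) / 3) := by
    rw [div_eq_mul_inv, ← Real.rpow_neg hε.le]
    norm_num
  rw [e1, e2]
  ring

end Claimed.Agent.R292
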