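import Claimed.Agent.R292.Gauss.SmDepth182
import Claimed.Agent.R292.Defs.GaussArch

/-!
# Row 292 (S0540), Gauss/DepthAd182 : `GaussDepth` (Defs/GaussArch) FROM `Gsm182In`      (owner helper182; prefix `gsd182_`)
Adapter of `gsd182_depth4` (Gauss/SmDepth182) to the record consumed by `gbd172_bd`.  0 sorry.
-/

set_option autoImplicit false

namespace Claimed.Agent.R292

open MeasureTheory Filter Topology Set
open Claims Claims.C0468 Claimed.Agent.R291

/-- `GaussDepth` (Defs/GaussArch) from the lattice input -/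
theorem gsd182_gaussDepth {t : ℝ} (hIn : Gsm182In t) {D : Set (ℝ × ℝ)} (hD : IsOpen D)
    {δ : ℕ → ℝ} {F : ℕ → Finset (ℤ × ℤ)} (hF : IsAdmissibleApprox D δ F) : GaussDepth t D δ F := by
  obtain ⟨C, hC, H⟩ := gsd182_depth4 hIn hD hF
  refine ⟨1 / 16, C, by norm_num, by norm_num, hC, fun z hz A g _ _ h0 hA hs => ?_⟩
  filter_upwards [H z hz] with n hn
  exact hn A g h0 hA hs

end Claimed.Agent.R292
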