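import Mathlib

/-!
# Row 292 (S0540), Gauss/MixR92 : BLOCK MIX-R, the arithmetic      (owner helper92, unit GAUSS; prefix `gmr92_`)      0 sorry

`ρ = Nat.sqrt (r * L)`, `1 ≤ r`, `16 r ≤ L`:  `4 r ≤ ρ`, `4 ρ ≤ L` (`gmr92_sqrt`; all order relations: `gmr92_order`), both arm ratios are `≤ 4 √(r/L)`
(`gmr92_in`, `gmr92_out`);  **`gmr92_num`**, `gmr92_num_gen` : the constants `C`, `κ = α / 2` of `GaussMixR` from the constants `CA`, `α` of `GaussArm`.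
-/

set_option autoImplicit false

namespace Claimed.Agent.R292

theorem gmr92_sqrt {r L : ℕ} (hr : 1 ≤ r) (hL : 16 * r ≤ L) :
    4 * r ≤ Nat.sqrt (r * L) ∧ 4 * Nat.sqrt (r * L) ≤ L := by
  constructor
  · rw [Nat.le_sqrt]
    nlinarith
  · have h := Nat.sqrt_le (r * L)
    by_contra hc
    rw [not_le] at hc
    nlinarith

/-- `√(r L) < ρ + 1` and `ρ ≤ √(r L)` in the reals -/
theorem gmr92_sqrt_real (r L : ℕ) :
    ((Nat.sqrt (r * L) : ℕ) : ℝ) ≤ Real.sqrt ((r : ℝ) * L) ∧ Real.sqrt ((r : ℝ) * L) < ((Nat.sqrt (r * L) : ℕ) : ℝ) + 1 := by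
  constructor
  · apply Real.le_sqrt_of_sq_le
    have h := Nat.sqrt_le' (r * L)
    exact_mod_cast h
  · rw [Real.sqrt_lt' (by positivity)]
    have h := Nat.lt_succ_sqrt' (r * L)
    have h2 : ((r * L : ℕ) : ℝ) < ((Nat.succ (Nat.sqrt (r * L)) ^ 2 : ℕ) : ℝ) := by exact_mod_cast h
    push_cast at h2
    exact h2

theorem gmr92_ratio {r L : ℕ} (hr : 1 ≤ r) (hL : 16 * r ≤ L) :
    Real.sqrt ((r : ℝ) * L) / L = Real.sqrt ((r : ℝ) / L) ∧ (r : ℝ) / Real.sqrt ((r : ℝ) * L) = Real.sqrt ((r : ℝ) / L) := by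
  have hr' : (0 : ℝ) < r := by exact_mod_cast hr
  have hL' : (0 : ℝ) < L := by
    have : 0 < L := by omega
    exact_mod_cast this
  have e1 : Real.sqrt ((r : ℝ) * L) = Real.sqrt r * Real.sqrt L := Real.sqrt_mul hr'.le _
  have e2 : Real.sqrt ((r : ℝ) / L) = Real.sqrt r / Real.sqrt L := Real.sqrt_div hr'.le _
  have sr : Real.sqrt r * Real.sqrt r = r := Real.mul_self_sqrt hr'.le
  have sL : Real.sqrt L * Real.sqrt L = L := Real.mul_self_sqrt hL'.le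
  have pr : 0 < Real.sqrt r := Real.sqrt_pos.2 hr'
  have pL : 0 < Real.sqrt L := Real.sqrt_pos.2 hL'
  constructor
  · rw [e1, e2, div_eq_div_iff hL'.ne' pL.ne']
    calc Real.sqrt r * Real.sqrt L * Real.sqrt L = Real.sqrt r * (Real.sqrt L * Real.sqrt L) := by ring
      _ = Real.sqrt r * L := by rw [sL]
  · rw [e1, e2, div_eq_div_iff (mul_pos pr pL).ne' pL.ne']
    calc (r : ℝ) * Real.sqrt L = (Real.sqrt r * Real.sqrt r) * Real.sqrt L := by rw [sr]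
      _ = Real.sqrt r * (Real.sqrt r * Real.sqrt L) := by ring

/-- inner ratio -/
theorem gmr92_in_ratio {r L : ℕ} (hr : 1 ≤ r) (hL : 16 * r ≤ L) :
    ((r : ℝ) + 1) / ((Nat.sqrt (r * L) - 1 : ℕ) : ℝ) ≤ 4 * Real.sqrt ((r : ℝ) / L) := by
  obtain ⟨h1, h2⟩ := gmr92_sqrt hr hL
  obtain ⟨-, h4⟩ := gmr92_sqrt_real r L
  have hr' : (1 : ℝ) ≤ r := by exact_mod_cast hr
  have hρ : 1 ≤ Nat.sqrt (r * L) := by omega
  have hρ4 : (4 : ℝ) ≤ (Nat.sqrt (r * L) : ℕ) := by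
    have : 4 ≤ Nat.sqrt (r * L) := by omega
    exact_mod_cast this
  rw [Nat.cast_sub hρ, Nat.cast_one, ← (gmr92_ratio hr hL).2]
  set s := Real.sqrt ((r : ℝ) * L) with hs
  set ρ := ((Nat.sqrt (r * L) : ℕ) : ℝ) with hρdef
  have hs0 : 0 < s := lt_of_lt_of_le (by norm_num) (le_trans hρ4 (gmr92_sqrt_real r L).1)
  rw [div_le_iff₀ (by linarith), mul_div_assoc', div_mul_eq_mul_div, le_div_iff₀ hs0]
  -- (r + 1) s ≤ 4 r (ρ - 1)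
  have a1 : s ≤ 2 * (ρ - 1) := by linarith
  have a2 : (r : ℝ) + 1 ≤ 2 * r := by linarith
  calc ((r : ℝ) + 1) * s ≤ (2 * r) * (2 * (ρ - 1)) := by
        apply mul_le_mul a2 a1 hs0.le (by linarith)
    _ = 4 * r * (ρ - 1) := by ring

/-- outer ratio -/
theorem gmr92_out_ratio {r L : ℕ} (hr : 1 ≤ r) (hL : 16 * r ≤ L) :
    (((Nat.sqrt (r * L) : ℕ) : ℝ) + 1) / ((L - 1 : ℕ) : ℝ) ≤ 4 * Real.sqrt ((r : ℝ) / L) := by
  obtain ⟨h1, h2⟩ := gmr92_sqrt hr hL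
  obtain ⟨h3, -⟩ := gmr92_sqrt_real r L
  have hL1 : 1 ≤ L := by omega
  have hL16 : (16 : ℝ) ≤ L := by
    have : 16 ≤ L := by omega
    exact_mod_cast this
  have hρ4 : (4 : ℝ) ≤ (Nat.sqrt (r * L) : ℕ) := by
    have : 4 ≤ Nat.sqrt (r * L) := by omega
    exact_mod_cast this
  rw [Nat.cast_sub hL1, Nat.cast_one, ← (gmr92_ratio hr hL).1]
  set s := Real.sqrt ((r : ℝ) * L) with hs
  set ρ := ((Nat.sqrt (r * L) : ℕ) : ℝ) with hρdef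
  have hs0 : 0 < s := lt_of_lt_of_le (by norm_num) (le_trans hρ4 h3)
  rw [div_le_iff₀ (by linarith), mul_div_assoc', div_mul_eq_mul_div, le_div_iff₀ (by linarith)]
  -- (ρ + 1) L ≤ 4 s (L - 1)
  have a1 : ρ + 1 ≤ 2 * s := by linarith
  have a2 : (L : ℝ) ≤ 2 * ((L : ℝ) - 1) := by linarith
  calc (ρ + 1) * (L : ℝ) ≤ (2 * s) * (2 * ((L : ℝ) - 1)) := by
        apply mul_le_mul a1 a2 (by linarith) (by linarith)
    _ = 4 * s * ((L : ℝ) - 1) := by ring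

theorem gmr92_pow {x y α : ℝ} (hx : 0 ≤ x) (hy : 0 ≤ y) (hα : 0 ≤ α) (h : x ≤ 4 * Real.sqrt y) :
    x ^ α ≤ 4 ^ α * y ^ (α / 2) := by
  calc x ^ α ≤ (4 * Real.sqrt y) ^ α := Real.rpow_le_rpow hx h hα
    _ = 4 ^ α * (Real.sqrt y) ^ α := Real.mul_rpow (by norm_num) (Real.sqrt_nonneg _)
    _ = 4 ^ α * y ^ (α / 2) := by
        rw [Real.sqrt_eq_rpow, ← Real.rpow_mul hy]
        congr 2
        ring

/-- **the inner arm term** -/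
theorem gmr92_in {r L : ℕ} (hr : 1 ≤ r) (hL : 16 * r ≤ L) {α : ℝ} (hα : 0 ≤ α) :
    (((r : ℝ) + 1) / ((Nat.sqrt (r * L) - 1 : ℕ) : ℝ)) ^ α ≤ 4 ^ α * ((r : ℝ) / L) ^ (α / 2) :=
  gmr92_pow (by positivity) (by positivity) hα (gmr92_in_ratio hr hL)

/-- **the outer arm term** -/
theorem gmr92_out {r L : ℕ} (hr : 1 ≤ r) (hL : 16 * r ≤ L) {α : ℝ} (hα : 0 ≤ α) :
    ((((Nat.sqrt (r * L) : ℕ) : ℝ) + 1) / ((L - 1 : ℕ) : ℝ)) ^ α ≤ 4 ^ α * ((r : ℝ) / L) ^ (α / 2) :=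
  gmr92_pow (by positivity) (by positivity) hα (gmr92_out_ratio hr hL)

/-- all the order relations between `r`, `ρ`, `L` which the geometry needs -/
theorem gmr92_order {r ρ L : ℕ} (hr : 1 ≤ r) (h1 : 4 * r ≤ ρ) (h2 : 4 * ρ ≤ L) :
    r ≤ ρ ∧ r + 1 ≤ ρ - 1 ∧ 1 ≤ ρ - 1 ∧ 2 ≤ ρ ∧ ρ + 1 ≤ L - 1 ∧ ρ + 1 ≤ L ∧ ρ < L ∧ 1 ≤ L - 1 ∧ r < ρ ∧ 16 ≤ L := by
  omega

/-- **THE ARITHMETIC OF MIX-R**, general weights `a`, `b` in front of the two arm terms -/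
theorem gmr92_num_gen {CA α a b : ℝ} (hC : 0 < CA) (hα : 0 < α) (ha : 0 ≤ a) (hb : 0 ≤ b) :
    ∃ C κ : ℝ, 0 < C ∧ 0 < κ ∧ ∀ r L : ℕ, 1 ≤ r → C * r ≤ L →
      (4 * r ≤ Nat.sqrt (r * L) ∧ 4 * Nat.sqrt (r * L) ≤ L) ∧
      a * (CA * (((r : ℝ) + 1) / ((Nat.sqrt (r * L) - 1 : ℕ) : ℝ)) ^ α)
        + b * (CA * ((((Nat.sqrt (r * L) : ℕ) : ℝ) + 1) / ((L - 1 : ℕ) : ℝ)) ^ α) ≤ C * ((r : ℝ) / L) ^ κ := by
  refine ⟨max 16 ((a + b) * CA * 4 ^ α), α / 2, lt_of_lt_of_le (by norm_num) (le_max_left _ _), by positivity, ?_⟩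
  intro r L hr hL
  have h16 : 16 * r ≤ L := by
    have h : (16 : ℝ) * r ≤ L :=
      le_trans (mul_le_mul_of_nonneg_right (le_max_left _ _) (Nat.cast_nonneg r)) hL
    exact_mod_cast h
  refine ⟨gmr92_sqrt hr h16, ?_⟩
  have h1 := gmr92_in hr h16 hα.le
  have h2 := gmr92_out hr h16 hα.le
  have hq : 0 ≤ ((r : ℝ) / L) ^ (α / 2) := by positivity
  calc a * (CA * (((r : ℝ) + 1) / ((Nat.sqrt (r * L) - 1 : ℕ) : ℝ)) ^ α)
        + b * (CA * ((((Nat.sqrt (r * L) : ℕ) : ℝ) + 1) / ((L - 1 : ℕ) : ℝ)) ^ α)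
      ≤ a * (CA * (4 ^ α * ((r : ℝ) / L) ^ (α / 2))) + b * (CA * (4 ^ α * ((r : ℝ) / L) ^ (α / 2))) := by
        gcongr
    _ = ((a + b) * CA * 4 ^ α) * ((r : ℝ) / L) ^ (α / 2) := by ring
    _ ≤ max 16 ((a + b) * CA * 4 ^ α) * ((r : ℝ) / L) ^ (α / 2) :=
        mul_le_mul_of_nonneg_right (le_max_right _ _) hq

/-- the shape announced to 181 / 72: `2 ε + 2 P`, `ε = 2 * arm` -/
theorem gmr92_num {CA α : ℝ} (hC : 0 < CA) (hα : 0 < α) :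
    ∃ C κ : ℝ, 0 < C ∧ 0 < κ ∧ ∀ r L : ℕ, 1 ≤ r → C * r ≤ L →
      (4 * r ≤ Nat.sqrt (r * L) ∧ 4 * Nat.sqrt (r * L) ≤ L) ∧
      2 * (2 * (CA * (((r : ℝ) + 1) / ((Nat.sqrt (r * L) - 1 : ℕ) : ℝ)) ^ α))
        + 2 * (CA * ((((Nat.sqrt (r * L) : ℕ) : ℝ) + 1) / ((L - 1 : ℕ) : ℝ)) ^ α) ≤ C * ((r : ℝ) / L) ^ κ := by
  obtain ⟨C, κ, h1, h2, h⟩ := gmr92_num_gen (a := 4) (b := 2) hC hα (by norm_num) (by norm_num)
  refine ⟨C, κ, h1, h2, fun r L hr hL => ⟨(h r L hr hL).1, le_trans (le_of_eq ?_) (h r L hr hL).2⟩⟩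
  ring

end Claimed.Agent.R292
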