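import Mathlib
import Claimed.Agent.R292.Api

/-!
# Row 292 (S0540), Gauss/Riem172 : RIEMANN SUMS ON `δ ℤ²` (block G-NEUT of unit GAUSS)      (owner helper172; prefix `riem172_`)      0 sorry

Model free, Mathlib only (+ the frozen `cornersOf`, `faceRegionSq`, `IsAdmissibleApprox` for the last section).
* `riem172_cell`        `|∫_a^{a+δ} h - δ h(a)| ≤ L δ²` for `h` Lipschitz
* `riem172_one`         one variable: `|δ ∑_{-N ≤ k < N} h(δ k) - ∫ h| ≤ L δ² (2N)`, `h` Lipschitz, zero off `(-R,R)`, `R ≤ δ N`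
* `riem172_box`         two variables on the box `[-N,N)²`
* `riem172_sum_eq`      two finite sets which contain all the nonzero terms give the same sum
* **`riem172_main`**    `g ∈ C¹_c(ℝ²)` ⟹ `∃ C, ∀ δ ∈ (0,1], ∀ S ⊇ {v | g(δ v) ≠ 0}, |δ² ∑_{v ∈ S} g(δ v) - ∫ g| ≤ C δ`
* `riem172_tendsto`     the limit along a sequence of meshes;  `riem172_neutral`  (`∫ g = 0` ⟹ the total lattice weight tends to `0`, rate `C δ`)
* `riem172_site_mem`    a lattice site inside `faceRegionSq δ F` is a corner of `F`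
* **`riem172_corners`** under `IsAdmissibleApprox D δ F`, `tsupport g ⊆ D`: `δ_n² ∑_{v ∈ cornersOf (F n)} g(δ_n v) → ∫ g`, and eventually within `C δ_n`
-/

set_option autoImplicit false

namespace Claimed.Agent.R292

open MeasureTheory Filter Topology Set
open Claims Claims.C0468

/-! ### one variable -/

theorem riem172_cont {h : ℝ → ℝ} {L : ℝ} (hL : ∀ x y, |h x - h y| ≤ L * |x - y|) : Continuous h := by
  have hL0 : 0 ≤ L := by
    have := hL 0 1
    have h1 : |(0 : ℝ) - 1| = 1 := by norm_num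
    rw [h1, mul_one] at this
    exact (abs_nonneg _).trans this
  have : LipschitzWith (Real.toNNReal L) h := by
    refine LipschitzWith.of_dist_le_mul fun x y => ?_
    rw [Real.dist_eq, Real.dist_eq, Real.coe_toNNReal L hL0]
    exact hL x y
  exact this.continuous

theorem riem172_cell {h : ℝ → ℝ} {L : ℝ} (hL : ∀ x y, |h x - h y| ≤ L * |x - y|) (a : ℝ) {δ : ℝ} (hδ : 0 < δ) :
    |(∫ x in a..(a + δ), h x) - δ * h a| ≤ L * δ ^ 2 := by
  have hc := riem172_cont hL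
  have hL0 : 0 ≤ L := by
    have := hL 0 1
    have h1 : |(0 : ℝ) - 1| = 1 := by norm_num
    rw [h1, mul_one] at this
    exact (abs_nonneg _).trans this
  have e : (∫ x in a..(a + δ), h x) - δ * h a = ∫ x in a..(a + δ), (h x - h a) := by
    rw [intervalIntegral.integral_sub (hc.intervalIntegrable _ _) (continuous_const.intervalIntegrable _ _),
      intervalIntegral.integral_const]
    simp
  rw [e]
  have := intervalIntegral.norm_integral_le_of_norm_le_const (a := a) (b := a + δ) (C := L * δ)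
    (f := fun x => h x - h a) (fun x hx => by
      rw [uIoc_of_le (by linarith)] at hx
      rw [Real.norm_eq_abs]
      refine (hL x a).trans (mul_le_mul_of_nonneg_left ?_ hL0)
      rw [abs_of_pos (by linarith [hx.1])]
      linarith [hx.2])
  rw [Real.norm_eq_abs] at this
  refine this.trans (le_of_eq ?_)
  have : |a + δ - a| = δ := by rw [add_sub_cancel_left, abs_of_pos hδ]
  rw [this]
  ring

theorem riem172_reindex (N : ℕ) (f : ℤ → ℝ) :
    ∑ k ∈ Finset.Ico (-(N : ℤ)) N, f k = ∑ j ∈ Finset.range (2 * N), f ((j : ℤ) - N) := by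
  refine Finset.sum_nbij' (fun k => (k + N).toNat) (fun j => (j : ℤ) - N) ?_ ?_ ?_ ?_ ?_
  · intro k hk
    rw [Finset.mem_Ico] at hk
    rw [Finset.mem_range]
    omega
  · intro j hj
    rw [Finset.mem_range] at hj
    rw [Finset.mem_Ico]
    omega
  · intro k hk
    rw [Finset.mem_Ico] at hk
    show (((k + N).toNat : ℕ) : ℤ) - N = k
    omega
  · intro j hj
    show ((j : ℤ) - N + N).toNat = j
    omega
  · intro k hk
    rw [Finset.mem_Ico] at hk
    congr 1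
    show k = (((k + N).toNat : ℕ) : ℤ) - N
    omega

/-- Riemann sums in one variable -/
theorem riem172_one {h : ℝ → ℝ} {L R : ℝ} (hL : ∀ x y, |h x - h y| ≤ L * |x - y|) (hR : ∀ x, R ≤ |x| → h x = 0)
    {δ : ℝ} (hδ : 0 < δ) (N : ℕ) (hN : R ≤ δ * N) :
    |δ * ∑ k ∈ Finset.Ico (-(N : ℤ)) N, h (δ * k) - ∫ x, h x| ≤ L * δ ^ 2 * (2 * N) := by
  have hc := riem172_cont hL
  set a : ℕ → ℝ := fun j => δ * ((j : ℝ) - N) with ha
  have h1 : ∫ x, h x = ∫ x in (a 0)..(a (2 * N)), h x := by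
    symm
    refine intervalIntegral.integral_eq_integral_of_support_subset fun x hx => ?_
    have hx' : |x| < R := by
      by_contra hcon
      exact hx (hR x (not_lt.1 hcon))
    rw [abs_lt] at hx'
    simp only [ha]
    push_cast
    constructor
    · nlinarith [hx'.1]
    · nlinarith [hx'.2]
  have h2 : ∫ x in (a 0)..(a (2 * N)), h x = ∑ j ∈ Finset.range (2 * N), ∫ x in (a j)..(a (j + 1)), h x :=
    (intervalIntegral.sum_integral_adjacent_intervals fun j _ => hc.intervalIntegrable _ _).symm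
  rw [h1, h2, riem172_reindex, Finset.mul_sum, ← Finset.sum_sub_distrib]
  refine (Finset.abs_sum_le_sum_abs _ _).trans ?_
  have h3 : ∀ j ∈ Finset.range (2 * N),
      |δ * h (δ * (((j : ℤ) - (N : ℤ) : ℤ) : ℝ)) - ∫ x in (a j)..(a (j + 1)), h x| ≤ L * δ ^ 2 := by
    intro j _
    have e1 : δ * (((j : ℤ) - (N : ℤ) : ℤ) : ℝ) = a j := by simp only [ha]; push_cast; ring
    have e2 : a (j + 1) = a j + δ := by simp only [ha]; push_cast; ring
    rw [e1, e2, abs_sub_comm]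
    exact riem172_cell hL (a j) hδ
  refine (Finset.sum_le_sum h3).trans (le_of_eq ?_)
  rw [Finset.sum_const, Finset.card_range, nsmul_eq_mul]
  push_cast
  ring

/-! ### two variables -/

/-- hypotheses on `g` in coordinates -/
structure Riem172Box (g : ℝ × ℝ → ℝ) (L R : ℝ) : Prop where
  cont : Continuous g
  comp : HasCompactSupport g
  lip1 : ∀ x x' y, |g (x, y) - g (x', y)| ≤ L * |x - x'|
  lip2 : ∀ x y y', |g (x, y) - g (x, y')| ≤ L * |y - y'|
  zero1 : ∀ x y, R ≤ |x| → g (x, y) = 0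
  zero2 : ∀ x y, R ≤ |y| → g (x, y) = 0
  Rpos : 0 < R

theorem Riem172Box.L_nonneg {g : ℝ × ℝ → ℝ} {L R : ℝ} (H : Riem172Box g L R) : 0 ≤ L := by
  have := H.lip1 0 1 0
  have h1 : |(0 : ℝ) - 1| = 1 := by norm_num
  rw [h1, mul_one] at this
  exact (abs_nonneg _).trans this

theorem Riem172Box.slice_eq {g : ℝ × ℝ → ℝ} {L R : ℝ} (H : Riem172Box g L R) (x : ℝ) :
    ∫ y, g (x, y) = ∫ y in (-R)..R, g (x, y) := by
  symm
  refine intervalIntegral.integral_eq_integral_of_support_subset fun y hy => ?_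
  have hy' : |y| < R := by
    by_contra hcon
    exact hy (H.zero2 x y (not_lt.1 hcon))
  rw [abs_lt] at hy'
  exact ⟨hy'.1, hy'.2.le⟩

theorem Riem172Box.marg_lip {g : ℝ × ℝ → ℝ} {L R : ℝ} (H : Riem172Box g L R) (x x' : ℝ) :
    |(∫ y, g (x, y)) - ∫ y, g (x', y)| ≤ (L * (2 * R)) * |x - x'| := by
  have c1 : Continuous fun y => g (x, y) := H.cont.comp (Continuous.prodMk continuous_const continuous_id)
  have c2 : Continuous fun y => g (x', y) := H.cont.comp (Continuous.prodMk continuous_const continuous_id)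
  rw [H.slice_eq, H.slice_eq, ← intervalIntegral.integral_sub (c1.intervalIntegrable _ _) (c2.intervalIntegrable _ _)]
  have := intervalIntegral.norm_integral_le_of_norm_le_const (a := -R) (b := R) (C := L * |x - x'|)
    (f := fun y => g (x, y) - g (x', y)) (fun y _ => by
      rw [Real.norm_eq_abs]; exact H.lip1 x x' y)
  rw [Real.norm_eq_abs] at this
  refine this.trans (le_of_eq ?_)
  have : |R - -R| = 2 * R := by
    rw [abs_of_pos (by linarith [H.Rpos])]; ring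
  rw [this]
  ring

theorem Riem172Box.marg_zero {g : ℝ × ℝ → ℝ} {L R : ℝ} (H : Riem172Box g L R) (x : ℝ) (hx : R ≤ |x|) :
    ∫ y, g (x, y) = 0 := by
  simp only [H.zero1 x _ hx, integral_zero]

theorem Riem172Box.integral_eq {g : ℝ × ℝ → ℝ} {L R : ℝ} (H : Riem172Box g L R) :
    ∫ z, g z = ∫ x, ∫ y, g (x, y) := by
  have hi : Integrable g (volume.prod volume) := H.cont.integrable_of_hasCompactSupport H.comp
  exact integral_prod g hi

/-- Riemann sums on the box -/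
theorem riem172_box {g : ℝ × ℝ → ℝ} {L R : ℝ} (H : Riem172Box g L R) {δ : ℝ} (hδ : 0 < δ) (N : ℕ) (hN : R ≤ δ * N) :
    |δ ^ 2 * ∑ a ∈ Finset.Ico (-(N : ℤ)) N, ∑ b ∈ Finset.Ico (-(N : ℤ)) N, g (δ * a, δ * b) - ∫ z, g z|
      ≤ L * δ * (2 * (δ * N)) ^ 2 + L * (2 * R) * δ * (2 * (δ * N)) := by
  set G : ℝ → ℝ := fun x => ∫ y, g (x, y) with hG
  have hA : |δ * ∑ a ∈ Finset.Ico (-(N : ℤ)) N, G (δ * a) - ∫ x, G x| ≤ (L * (2 * R)) * δ ^ 2 * (2 * N) :=
    riem172_one (fun x x' => H.marg_lip x x') (fun x hx => H.marg_zero x hx) hδ N hN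
  have hB : ∀ a : ℤ, |δ * ∑ b ∈ Finset.Ico (-(N : ℤ)) N, g (δ * a, δ * b) - G (δ * a)| ≤ L * δ ^ 2 * (2 * N) :=
    fun a => riem172_one (fun y y' => H.lip2 (δ * a) y y') (fun y hy => H.zero2 (δ * a) y hy) hδ N hN
  have e : δ ^ 2 * ∑ a ∈ Finset.Ico (-(N : ℤ)) N, ∑ b ∈ Finset.Ico (-(N : ℤ)) N, g (δ * a, δ * b) - ∫ z, g z
      = δ * ∑ a ∈ Finset.Ico (-(N : ℤ)) N, (δ * ∑ b ∈ Finset.Ico (-(N : ℤ)) N, g (δ * a, δ * b) - G (δ * a))
        + (δ * ∑ a ∈ Finset.Ico (-(N : ℤ)) N, G (δ * a) - ∫ x, G x) := by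
    rw [H.integral_eq, Finset.sum_sub_distrib, ← Finset.mul_sum]
    ring
  rw [e]
  refine (abs_add_le _ _).trans ?_
  have h1 : |δ * ∑ a ∈ Finset.Ico (-(N : ℤ)) N, (δ * ∑ b ∈ Finset.Ico (-(N : ℤ)) N, g (δ * a, δ * b) - G (δ * a))|
      ≤ δ * ((2 * N) * (L * δ ^ 2 * (2 * N))) := by
    rw [abs_mul, abs_of_pos hδ]
    refine mul_le_mul_of_nonneg_left ?_ hδ.le
    refine (Finset.abs_sum_le_sum_abs _ _).trans ((Finset.sum_le_sum fun a _ => hB a).trans (le_of_eq ?_))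
    rw [Finset.sum_const, Int.card_Ico, nsmul_eq_mul]
    congr 1
    have : ((N : ℤ) - -(N : ℤ)).toNat = 2 * N := by omega
    rw [this]
    push_cast
    ring
  refine (add_le_add h1 hA).trans (le_of_eq ?_)
  ring

theorem riem172_sum_eq {ι : Type*} (S T : Finset ι) (f : ι → ℝ) (hS : ∀ v, f v ≠ 0 → v ∈ S) (hT : ∀ v, f v ≠ 0 → v ∈ T) :
    ∑ v ∈ S, f v = ∑ v ∈ T, f v := by
  rw [← finsum_eq_sum_of_support_subset f (s := S) (fun v hv => hS v hv),
    ← finsum_eq_sum_of_support_subset f (s := T) (fun v hv => hT v hv)]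

/-- a `C¹` function with compact support satisfies the coordinate hypotheses -/
theorem riem172_box_of {g : ℝ × ℝ → ℝ} (hg : ContDiff ℝ 1 g) (hc : HasCompactSupport g) : ∃ L R : ℝ, Riem172Box g L R := by
  obtain ⟨C, hC⟩ := hg.lipschitzWith_of_hasCompactSupport hc one_ne_zero
  obtain ⟨R, hR⟩ := hc.isCompact.isBounded.subset_closedBall (0 : ℝ × ℝ)
  have hz : ∀ z : ℝ × ℝ, |R| + 1 ≤ ‖z‖ → g z = 0 := by
    intro z hz
    by_contra hne
    have : z ∈ Metric.closedBall (0 : ℝ × ℝ) R := hR (subset_tsupport g hne)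
    rw [mem_closedBall_zero_iff] at this
    linarith [le_abs_self R]
  refine ⟨C, |R| + 1, hg.continuous, hc, fun x x' y => ?_, fun x y y' => ?_, fun x y hx => ?_, fun x y hy => ?_, by positivity⟩
  · have := hC.dist_le_mul (x, y) (x', y)
    rw [Real.dist_eq, Prod.dist_eq, Real.dist_eq, dist_self, max_eq_left (abs_nonneg _)] at this
    exact this
  · have := hC.dist_le_mul (x, y) (x, y')
    rw [Real.dist_eq, Prod.dist_eq] at this
    simp only [dist_self, Real.dist_eq] at this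
    rwa [max_eq_right (abs_nonneg _)] at this
  · refine hz _ (hx.trans ?_)
    rw [Prod.norm_def]
    exact le_max_left _ _
  · refine hz _ (hy.trans ?_)
    rw [Prod.norm_def]
    exact le_max_right _ _

/-- **RIEMANN SUMS ON `δ ℤ²`, with a rate** -/
theorem riem172_main {g : ℝ × ℝ → ℝ} (hg : ContDiff ℝ 1 g) (hc : HasCompactSupport g) :
    ∃ C : ℝ, 0 ≤ C ∧ ∀ δ : ℝ, 0 < δ → δ ≤ 1 → ∀ S : Finset (ℤ × ℤ), (∀ v : ℤ × ℤ, g (δ * v.1, δ * v.2) ≠ 0 → v ∈ S) →
      |δ ^ 2 * ∑ v ∈ S, g (δ * v.1, δ * v.2) - ∫ z, g z| ≤ C * δ := by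
  obtain ⟨L, R, H⟩ := riem172_box_of hg hc
  have hL := H.L_nonneg
  have hR := H.Rpos
  refine ⟨L * (2 * (R + 1)) ^ 2 + L * (2 * R) * (2 * (R + 1)), by positivity, fun δ hδ hδ1 S hS => ?_⟩
  set N : ℕ := ⌈R / δ⌉₊ with hNdef
  have hN1 : R ≤ δ * N := by
    have := Nat.le_ceil (R / δ)
    rw [div_le_iff₀ hδ] at this
    linarith
  have hN2 : δ * N ≤ R + 1 := by
    have := Nat.ceil_lt_add_one (a := R / δ) (by positivity)
    have h2 : δ * (N : ℝ) < δ * (R / δ + 1) := mul_lt_mul_of_pos_left this hδ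
    have h3 : δ * (R / δ + 1) = R + δ := by field_simp
    linarith
  have hN0 : 0 ≤ δ * N := by positivity
  have e : ∑ v ∈ S, g (δ * v.1, δ * v.2)
      = ∑ a ∈ Finset.Ico (-(N : ℤ)) N, ∑ b ∈ Finset.Ico (-(N : ℤ)) N, g (δ * a, δ * b) := by
    rw [← Finset.sum_product' (f := fun a b : ℤ => g (δ * (a : ℝ), δ * (b : ℝ)))]
    refine riem172_sum_eq S _ (fun v : ℤ × ℤ => g (δ * v.1, δ * v.2)) hS fun v hv => ?_
    have h1 : |δ * (v.1 : ℝ)| < R := by
      by_contra hcon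
      exact hv (H.zero1 _ _ (not_lt.1 hcon))
    have h2 : |δ * (v.2 : ℝ)| < R := by
      by_contra hcon
      exact hv (H.zero2 _ _ (not_lt.1 hcon))
    rw [abs_lt] at h1 h2
    have k1 : -(N : ℝ) < v.1 ∧ (v.1 : ℝ) < N := by
      constructor
      · by_contra hcon
        nlinarith [not_lt.1 hcon, h1.1]
      · by_contra hcon
        nlinarith [not_lt.1 hcon, h1.2]
    have k2 : -(N : ℝ) < v.2 ∧ (v.2 : ℝ) < N := by
      constructor
      · by_contra hcon
        nlinarith [not_lt.1 hcon, h2.1]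
      · by_contra hcon
        nlinarith [not_lt.1 hcon, h2.2]
    rw [Finset.mem_product, Finset.mem_Ico, Finset.mem_Ico]
    refine ⟨⟨?_, ?_⟩, ⟨?_, ?_⟩⟩
    · have : (-(N : ℤ) : ℝ) < v.1 := by push_cast; exact k1.1
      exact_mod_cast this.le
    · exact_mod_cast k1.2
    · have : (-(N : ℤ) : ℝ) < v.2 := by push_cast; exact k2.1
      exact_mod_cast this.le
    · exact_mod_cast k2.2
  rw [e]
  refine (riem172_box H hδ N hN1).trans ?_
  have q1 : (2 * (δ * N)) ^ 2 ≤ (2 * (R + 1)) ^ 2 := by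
    apply pow_le_pow_left₀ (by positivity)
    linarith
  have q2 : L * δ * (2 * (δ * N)) ^ 2 ≤ L * δ * (2 * (R + 1)) ^ 2 := mul_le_mul_of_nonneg_left q1 (by positivity)
  have q3 : L * (2 * R) * δ * (2 * (δ * N)) ≤ L * (2 * R) * δ * (2 * (R + 1)) :=
    mul_le_mul_of_nonneg_left (by linarith) (by positivity)
  calc L * δ * (2 * (δ * N)) ^ 2 + L * (2 * R) * δ * (2 * (δ * N))
      ≤ L * δ * (2 * (R + 1)) ^ 2 + L * (2 * R) * δ * (2 * (R + 1)) := add_le_add q2 q3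
    _ = (L * (2 * (R + 1)) ^ 2 + L * (2 * R) * (2 * (R + 1))) * δ := by ring

/-- the limit along a sequence of meshes -/
theorem riem172_tendsto {g : ℝ × ℝ → ℝ} (hg : ContDiff ℝ 1 g) (hc : HasCompactSupport g) {δ : ℕ → ℝ} (hδ : ∀ n, 0 < δ n)
    (hδ0 : Tendsto δ atTop (𝓝 0)) (S : ℕ → Finset (ℤ × ℤ))
    (hS : ∀ᶠ n in atTop, ∀ v : ℤ × ℤ, g (δ n * v.1, δ n * v.2) ≠ 0 → v ∈ S n) :
    Tendsto (fun n => δ n ^ 2 * ∑ v ∈ S n, g (δ n * v.1, δ n * v.2)) atTop (𝓝 (∫ z, g z)) := by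
  obtain ⟨C, -, H⟩ := riem172_main hg hc
  rw [tendsto_iff_dist_tendsto_zero]
  have h0 : Tendsto (fun n => C * δ n) atTop (𝓝 0) := by simpa using hδ0.const_mul C
  refine squeeze_zero' (Eventually.of_forall fun n => dist_nonneg) ?_ h0
  filter_upwards [hS, hδ0.eventually (ge_mem_nhds (by norm_num : (0 : ℝ) < 1))] with n h1 h2
  rw [Real.dist_eq]
  exact H (δ n) (hδ n) h2 (S n) h1

/-- the total lattice weight of a neutral test is `O(δ)` -/
theorem riem172_neutral {g : ℝ × ℝ → ℝ} (hg : ContDiff ℝ 1 g) (hc : HasCompactSupport g) (h0 : ∫ z, g z = 0) :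
    ∃ C : ℝ, 0 ≤ C ∧ ∀ δ : ℝ, 0 < δ → δ ≤ 1 → ∀ S : Finset (ℤ × ℤ), (∀ v : ℤ × ℤ, g (δ * v.1, δ * v.2) ≠ 0 → v ∈ S) →
      |δ ^ 2 * ∑ v ∈ S, g (δ * v.1, δ * v.2)| ≤ C * δ := by
  obtain ⟨C, hC, H⟩ := riem172_main hg hc
  refine ⟨C, hC, fun δ hδ h1 S hS => ?_⟩
  have := H δ hδ h1 S hS
  rwa [h0, sub_zero] at this

/-! ### the corners of an admissible approximation -/

/-- a lattice site which lies in the polygonal region is a corner of a face of `F` -/
theorem riem172_site_mem {δ : ℝ} (hδ : 0 < δ) {F : Finset (ℤ × ℤ)} {v : ℤ × ℤ}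
    (hv : ((δ * v.1, δ * v.2) : ℝ × ℝ) ∈ faceRegionSq δ F) : v ∈ cornersOf F := by
  have h1 := interior_subset hv
  simp only [mem_iUnion, exists_prop] at h1
  obtain ⟨f, hf, hx, hy⟩ := h1
  simp only [mem_Icc] at hx hy
  have a1 : (f.1 : ℝ) ≤ v.1 := le_of_mul_le_mul_left hx.1 hδ
  have a2 : (v.1 : ℝ) ≤ f.1 + 1 := le_of_mul_le_mul_left hx.2 hδ
  have b1 : (f.2 : ℝ) ≤ v.2 := le_of_mul_le_mul_left hy.1 hδ
  have b2 : (v.2 : ℝ) ≤ f.2 + 1 := le_of_mul_le_mul_left hy.2 hδ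
  have a1' : f.1 ≤ v.1 := by exact_mod_cast a1
  have a2' : v.1 ≤ f.1 + 1 := by exact_mod_cast a2
  have b1' : f.2 ≤ v.2 := by exact_mod_cast b1
  have b2' : v.2 ≤ f.2 + 1 := by exact_mod_cast b2
  unfold cornersOf
  rw [Finset.mem_biUnion]
  refine ⟨f, hf, ?_⟩
  simp only [Finset.mem_insert, Finset.mem_singleton, Prod.ext_iff]
  omega

/-- eventually all the sites which see the test are corners -/
theorem riem172_sites {D : Set (ℝ × ℝ)} {δ : ℕ → ℝ} {F : ℕ → Finset (ℤ × ℤ)} (hF : IsAdmissibleApprox D δ F)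
    {g : ℝ × ℝ → ℝ} (hc : HasCompactSupport g) (hD : tsupport g ⊆ D) :
    ∀ᶠ n in atTop, ∀ v : ℤ × ℤ, g (δ n * v.1, δ n * v.2) ≠ 0 → v ∈ cornersOf (F n) := by
  filter_upwards [hF.2.2.1 (tsupport g) hc.isCompact hD] with n hn v hv
  exact riem172_site_mem (hF.1 n) (hn (subset_tsupport g hv))

/-- **the total frozen weight of a test converges to its integral** -/
theorem riem172_corners {D : Set (ℝ × ℝ)} {δ : ℕ → ℝ} {F : ℕ → Finset (ℤ × ℤ)} (hF : IsAdmissibleApprox D δ F)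
    {g : ℝ × ℝ → ℝ} (hg : ContDiff ℝ 1 g) (hc : HasCompactSupport g) (hD : tsupport g ⊆ D) :
    Tendsto (fun n => δ n ^ 2 * ∑ v ∈ cornersOf (F n), g (δ n * v.1, δ n * v.2)) atTop (𝓝 (∫ z, g z)) :=
  riem172_tendsto hg hc hF.1 hF.2.1 _ (riem172_sites hF hc hD)

/-- ... with the rate -/
theorem riem172_corners_rate {D : Set (ℝ × ℝ)} {δ : ℕ → ℝ} {F : ℕ → Finset (ℤ × ℤ)} (hF : IsAdmissibleApprox D δ F)
    {g : ℝ × ℝ → ℝ} (hg : ContDiff ℝ 1 g) (hc : HasCompactSupport g) (hD : tsupport g ⊆ D) :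
    ∃ C : ℝ, 0 ≤ C ∧ ∀ᶠ n in atTop,
      |δ n ^ 2 * ∑ v ∈ cornersOf (F n), g (δ n * v.1, δ n * v.2) - ∫ z, g z| ≤ C * δ n := by
  obtain ⟨C, hC, H⟩ := riem172_main hg hc
  refine ⟨C, hC, ?_⟩
  filter_upwards [riem172_sites hF hc hD, hF.2.1.eventually (ge_mem_nhds (by norm_num : (0 : ℝ) < 1))] with n h1 h2
  exact H (δ n) (hF.1 n) h2 _ h1

end Claimed.Agent.R292
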