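import Claimed.Agent.R292.Gauss.Sm182

/-!
# Row 292 (S0540), Gauss/SmDepth182 : THE MOMENT BOUND AT THE SCALE OF THE DEPTH      (owner helper182, unit GAUSS; ordered by 181, GAUSS-2; prefix `gsd182_`)

Blueprint: `bdy_sm_depth` of R291/Bdy/Mom Part 1 (TEX eq. boundary:uniform-depth-moments).  Consumer: `gauss_bd` (A3, Cauchy--Schwarz step).   0 sorry of its own.
A test of size `M` carried by the disc of radius `θ · dep`, `dep = limDep D z`, ANY `z ∈ D`, has `2m`-th moment `≤ C (M dep²)^(2m)` eventually, `C` INDEPENDENT of `z`.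
New with respect to R291: the approximation is NOT inside `D`; the outer radius comes from a point of the frontier of the discrete region (`γs n x`, close to `γ x`, `γ x` nearest to `z`).

* `gsd182_square_subset`   a box of faces of `F` spans an open square of the region
* `gsd182_radii`           base point, inner and outer radius from a point OFF the region at sup-distance `≤ ρ`
* `gsd182_core`            one mesh, any `m`:  `E (∑ W H)^(2m) ≤ (C1 · 36 M r² · (1 + √log ((ρ + 3 r)/r)))^(2m)`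
* `gsd182_ball_dep`        `ball z (limDep D z) ⊆ D`
* **`gsd182_depth`** (any `m`), `gsd182_depth4` (the fourth moment, `0 ≤ g ≤ A / dep²`:  `≤ C A⁴`), `gsd182_depth4_exit` (from `exit_rsw_mom_smear`)
-/

set_option autoImplicit false

namespace Claimed.Agent.R292

open MeasureTheory Filter Topology Set
open Claims Claims.C0468 Claimed.Agent.R291

/-- a box of faces of `F` spans an open square of the region -/
theorem gsd182_square_subset {δ : ℝ} (hδ : 0 < δ) {F : Finset (ℤ × ℤ)} {z0 : ℤ × ℤ} {N : ℕ} (h : rswBox z0 N ⊆ F) :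
    Set.Ioo (δ * ((z0.1 : ℝ) - N)) (δ * ((z0.1 : ℝ) + N)) ×ˢ Set.Ioo (δ * ((z0.2 : ℝ) - N)) (δ * ((z0.2 : ℝ) + N)) ⊆
      faceRegionSq δ F := by
  unfold faceRegionSq
  apply interior_maximal _ (isOpen_Ioo.prod isOpen_Ioo)
  rintro y ⟨⟨h1, h2⟩, h3, h4⟩
  simp only [mem_iUnion, exists_prop]
  have f1 : δ * (⌊y.1 / δ⌋ : ℝ) ≤ y.1 := by
    have := Int.floor_le (y.1 / δ)
    rw [le_div_iff₀ hδ] at this
    linarith
  have f2 : y.1 < δ * (⌊y.1 / δ⌋ : ℝ) + δ := by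
    have := Int.lt_floor_add_one (y.1 / δ)
    rw [div_lt_iff₀ hδ] at this
    linarith
  have g1 : δ * (⌊y.2 / δ⌋ : ℝ) ≤ y.2 := by
    have := Int.floor_le (y.2 / δ)
    rw [le_div_iff₀ hδ] at this
    linarith
  have g2 : y.2 < δ * (⌊y.2 / δ⌋ : ℝ) + δ := by
    have := Int.lt_floor_add_one (y.2 / δ)
    rw [div_lt_iff₀ hδ] at this
    linarith
  refine ⟨(⌊y.1 / δ⌋, ⌊y.2 / δ⌋), h ?_, ⟨f1, by rw [mul_add, mul_one]; exact f2.le⟩, g1, by rw [mul_add, mul_one]; exact g2.le⟩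
  rw [gsm182_mem_box]
  refine ⟨⟨?_, ?_⟩, ?_, ?_⟩
  · have a1 : δ * ((z0.1 : ℝ) - N) < δ * ((⌊y.1 / δ⌋ : ℝ) + 1) := by rw [mul_add, mul_one]; linarith
    have a2 := lt_of_mul_lt_mul_left a1 hδ.le
    have a3 : z0.1 - (N : ℤ) < ⌊y.1 / δ⌋ + 1 := by exact_mod_cast a2
    simp only
    omega
  · have a1 : δ * (⌊y.1 / δ⌋ : ℝ) < δ * ((z0.1 : ℝ) + N) := by linarith
    have a2 := lt_of_mul_lt_mul_left a1 hδ.le
    exact_mod_cast a2
  · have a1 : δ * ((z0.2 : ℝ) - N) < δ * ((⌊y.2 / δ⌋ : ℝ) + 1) := by rw [mul_add, mul_one]; linarith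
    have a2 := lt_of_mul_lt_mul_left a1 hδ.le
    have a3 : z0.2 - (N : ℤ) < ⌊y.2 / δ⌋ + 1 := by exact_mod_cast a2
    simp only
    omega
  · have a1 : δ * (⌊y.2 / δ⌋ : ℝ) < δ * ((z0.2 : ℝ) + N) := by linarith
    have a2 := lt_of_mul_lt_mul_left a1 hδ.le
    exact_mod_cast a2

/-- the three integer data, the outer radius from a point off the region -/
theorem gsd182_radii {F : Finset (ℤ × ℤ)} {d c ρ r : ℝ} (hd : 0 < d) (hρ : 0 < ρ) (hr : 0 < r)
    (hdr : d ≤ r) (hrc : 12 * r ≤ c) {z q : ℝ × ℝ}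
    (hin : ∀ y : ℝ × ℝ, |y.1 - z.1| ≤ c → |y.2 - z.2| ≤ c → y ∈ faceRegionSq d F)
    (hq : q ∉ faceRegionSq d F) (hq1 : |q.1 - z.1| ≤ ρ) (hq2 : |q.2 - z.2| ≤ ρ) :
    ∃ (z0 : ℤ × ℤ) (a N : ℕ), 1 ≤ a ∧ (a : ℝ) * d ≤ 3 * r ∧ 0 < (N : ℝ) ∧ (N : ℝ) / a ≤ (ρ + 3 * r) / r ∧
      (∀ v : ℤ × ℤ, ((d * v.1, d * v.2) : ℝ × ℝ) ∈ wkBall z r → v ∈ rswBox z0 a) ∧
      rswBox z0 (3 * a) ⊆ F ∧ ¬ rswBox z0 N ⊆ F := by
  obtain ⟨x1, hx1⟩ : ∃ x : ℤ, x = ⌊z.1 / d⌋ := ⟨_, rfl⟩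
  obtain ⟨x2, hx2⟩ : ∃ x : ℤ, x = ⌊z.2 / d⌋ := ⟨_, rfl⟩
  obtain ⟨a, ha⟩ : ∃ a : ℕ, a = ⌈r / d⌉₊ + 1 := ⟨_, rfl⟩
  obtain ⟨N, hN⟩ : ∃ N : ℕ, N = ⌈ρ / d⌉₊ + 2 := ⟨_, rfl⟩
  have f1 : d * (x1 : ℝ) ≤ z.1 := by
    have := Int.floor_le (z.1 / d)
    rw [le_div_iff₀ hd] at this
    rw [hx1]; linarith
  have f2 : z.1 < d * (x1 : ℝ) + d := by
    have := Int.lt_floor_add_one (z.1 / d)
    rw [div_lt_iff₀ hd] at this
    rw [hx1]; linarith
  have g1 : d * (x2 : ℝ) ≤ z.2 := by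
    have := Int.floor_le (z.2 / d)
    rw [le_div_iff₀ hd] at this
    rw [hx2]; linarith
  have g2 : z.2 < d * (x2 : ℝ) + d := by
    have := Int.lt_floor_add_one (z.2 / d)
    rw [div_lt_iff₀ hd] at this
    rw [hx2]; linarith
  have a1 : r + d ≤ d * (a : ℝ) := by
    have := Nat.le_ceil (r / d)
    rw [div_le_iff₀ hd] at this
    rw [ha]; push_cast; linarith
  have a2 : d * (a : ℝ) ≤ 3 * r := by
    have h1 := Nat.ceil_lt_add_one (a := r / d) (by positivity)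
    have h2 : (⌈r / d⌉₊ : ℝ) * d < (r / d + 1) * d := mul_lt_mul_of_pos_right h1 hd
    have h3 : (r / d + 1) * d = r + d := by field_simp
    rw [ha]; push_cast; linarith
  have a0 : (0 : ℝ) < a := by rw [ha]; positivity
  have ha1 : 1 ≤ a := by rw [ha]; omega
  have n1 : ρ + 2 * d ≤ d * (N : ℝ) := by
    have := Nat.le_ceil (ρ / d)
    rw [div_le_iff₀ hd] at this
    rw [hN]; push_cast; linarith
  have n2 : d * (N : ℝ) ≤ ρ + 3 * r := by
    have h1 := Nat.ceil_lt_add_one (a := ρ / d) (by positivity)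
    have h2 : (⌈ρ / d⌉₊ : ℝ) * d < (ρ / d + 1) * d := mul_lt_mul_of_pos_right h1 hd
    have h3 : (ρ / d + 1) * d = ρ + d := by field_simp
    rw [hN]; push_cast; linarith
  have n0 : (0 : ℝ) < N := by rw [hN]; positivity
  refine ⟨(x1, x2), a, N, ha1, by linarith, n0, ?_, ?_, ?_, ?_⟩
  · rw [div_le_div_iff₀ a0 hr]
    have e1 : d * ((N : ℝ) * r) ≤ d * ((ρ + 3 * r) * a) := by
      have t1 : d * (N : ℝ) * r ≤ (ρ + 3 * r) * r := mul_le_mul_of_nonneg_right n2 hr.le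
      have t2 : (ρ + 3 * r) * r ≤ (ρ + 3 * r) * (d * a) := mul_le_mul_of_nonneg_left (by linarith) (by positivity)
      calc d * ((N : ℝ) * r) = d * (N : ℝ) * r := by ring
        _ ≤ (ρ + 3 * r) * (d * a) := t1.trans t2
        _ = d * ((ρ + 3 * r) * a) := by ring
    exact le_of_mul_le_mul_left e1 hd
  · intro v h1
    have h2 : (d * v.1 - z.1) ^ 2 + (d * v.2 - z.2) ^ 2 ≤ r ^ 2 := h1
    have b1 : |d * v.1 - z.1| ≤ r :=
      abs_le_of_sq_le_sq (by linarith [sq_nonneg (d * (v.2 : ℝ) - z.2)]) hr.le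
    have b2 : |d * v.2 - z.2| ≤ r :=
      abs_le_of_sq_le_sq (by linarith [sq_nonneg (d * (v.1 : ℝ) - z.1)]) hr.le
    rw [abs_le] at b1 b2
    rw [gsm182_mem_box]
    refine ⟨⟨?_, ?_⟩, ?_, ?_⟩
    · have : d * ((x1 : ℝ) - a) ≤ d * v.1 := by rw [mul_sub]; linarith
      have := le_of_mul_le_mul_left this hd
      exact_mod_cast this
    · have : d * (v.1 : ℝ) < d * ((x1 : ℝ) + a) := by rw [mul_add]; linarith
      have := lt_of_mul_lt_mul_left this hd.le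
      exact_mod_cast this
    · have : d * ((x2 : ℝ) - a) ≤ d * v.2 := by rw [mul_sub]; linarith
      have := le_of_mul_le_mul_left this hd
      exact_mod_cast this
    · have : d * (v.2 : ℝ) < d * ((x2 : ℝ) + a) := by rw [mul_add]; linarith
      have := lt_of_mul_lt_mul_left this hd.le
      exact_mod_cast this
  · intro f hf
    rw [gsm182_mem_box] at hf
    obtain ⟨⟨c1, c2⟩, c3, c4⟩ := hf
    have c1' : (x1 : ℝ) - 3 * a ≤ f.1 := by exact_mod_cast c1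
    have c2' : (f.1 : ℝ) + 1 ≤ x1 + 3 * a := by exact_mod_cast c2
    have c3' : (x2 : ℝ) - 3 * a ≤ f.2 := by exact_mod_cast c3
    have c4' : (f.2 : ℝ) + 1 ≤ x2 + 3 * a := by exact_mod_cast c4
    have m1 := mul_le_mul_of_nonneg_left c1' hd.le
    have m2 := mul_le_mul_of_nonneg_left c2' hd.le
    have m3 := mul_le_mul_of_nonneg_left c3' hd.le
    have m4 := mul_le_mul_of_nonneg_left c4' hd.le
    rw [mul_sub] at m1 m3
    rw [mul_add, mul_add] at m2 m4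
    have e3 : d * (3 * (a : ℝ)) = 3 * (d * a) := by ring
    rw [e3] at m1 m2 m3 m4
    apply gsm182_face_of_centre hd
    apply hin
    · simp only
      rw [abs_le, mul_add]
      constructor <;> linarith
    · simp only
      rw [abs_le, mul_add]
      constructor <;> linarith
  · intro hsub
    apply hq
    apply gsd182_square_subset hd hsub
    rw [abs_le] at hq1 hq2
    simp only
    refine ⟨⟨?_, ?_⟩, ?_, ?_⟩
    · rw [mul_sub]; linarith
    · rw [mul_add]; linarith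
    · rw [mul_sub]; linarith
    · rw [mul_add]; linarith

theorem gsd182_core {t : ℝ} {m : ℕ} {C1 : ℝ} (hC1 : 0 < C1)
    (hIn : ∀ (F : Finset (ℤ × ℤ)) (z0 : ℤ × ℤ) (a n : ℕ) (A : ℝ) (w : (ℤ × ℤ) →₀ ℝ),
      RswJordan F → 1 ≤ a → rswBox z0 (3 * a) ⊆ F → ¬ rswBox z0 n ⊆ F → RswSm z0 a A w →
      rswE t F true (fun ω => |rswArr w (rswH F ω)| ^ (2 * m)) ≤
        (C1 * A * (1 + Real.sqrt (Real.log ((n : ℝ) / a)))) ^ (2 * m))
    {F : Finset (ℤ × ℤ)} (hJ : RswJordan F) {d c ρ r : ℝ} (hd : 0 < d) (hρ : 0 < ρ) (hr : 0 < r)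
    (hdr : d ≤ r) (hrc : 12 * r ≤ c) {z q : ℝ × ℝ}
    (hin : ∀ y : ℝ × ℝ, |y.1 - z.1| ≤ c → |y.2 - z.2| ≤ c → y ∈ faceRegionSq d F)
    (hq : q ∉ faceRegionSq d F) (hq1 : |q.1 - z.1| ≤ ρ) (hq2 : |q.2 - z.2| ≤ ρ)
    {M : ℝ} {W : ℤ × ℤ → ℝ} (hW : ∀ v, |W v| ≤ M * d ^ 2)
    (hW0 : ∀ v : ℤ × ℤ, ((d * v.1, d * v.2) : ℝ × ℝ) ∉ wkBall z r → W v = 0) :
    lmE (at92Adm F) (at92W t) (fun p => (∑ v ∈ cornersOf F, W v * atHeight p.1 p.2 v) ^ (2 * m)) ≤
      (C1 * (36 * (M * r ^ 2)) * (1 + Real.sqrt (Real.log ((ρ + 3 * r) / r)))) ^ (2 * m) := by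
  classical
  have hd2 : 0 < d ^ 2 := by positivity
  have hM : 0 ≤ M := by
    have := (abs_nonneg _).trans (hW 0)
    by_contra hc
    push Not at hc
    have : M * d ^ 2 < 0 := mul_neg_of_neg_of_pos hc hd2
    linarith
  obtain ⟨z0, a, N, ha1, a2, n0, hx, hsupp, hbox, hnot⟩ := gsd182_radii hd hρ hr hdr hrc hin hq hq1 hq2
  have a0 : (0 : ℝ) < a := by exact_mod_cast ha1
  obtain ⟨w, hwv⟩ : ∃ w : (ℤ × ℤ) →₀ ℝ, w = Finsupp.onFinset (cornersOf F) (fun v => if v ∈ cornersOf F then W v else 0)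
    (fun v hv => by by_contra hc; exact hv (if_neg hc)) := ⟨_, rfl⟩
  have hwv' : ∀ v, w v = if v ∈ cornersOf F then W v else 0 := fun v => by rw [hwv]; rfl
  have hwabs : ∀ v, |w v| ≤ M * d ^ 2 := by
    intro v
    rw [hwv']
    split_ifs
    · exact hW v
    · rw [abs_zero]; positivity
  obtain ⟨A, hA⟩ : ∃ A : ℝ, A = 4 * M * ((a : ℝ) * d) ^ 2 := ⟨_, rfl⟩
  have hA0 : 0 ≤ A := by rw [hA]; positivity
  have hA36 : A ≤ 36 * (M * r ^ 2) := by
    have e1 : ((a : ℝ) * d) ^ 2 ≤ (3 * r) ^ 2 := pow_le_pow_left₀ (by positivity) a2 2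
    have e2 := mul_le_mul_of_nonneg_left e1 hM
    calc A = 4 * (M * ((a : ℝ) * d) ^ 2) := by rw [hA]; ring
      _ ≤ 4 * (M * (3 * r) ^ 2) := by linarith
      _ = 36 * (M * r ^ 2) := by ring
  have hws : w.support ⊆ rswBox z0 a := by
    intro v hv
    rw [Finsupp.mem_support_iff, hwv'] at hv
    apply hsupp
    by_contra hc
    apply hv
    rw [hW0 v hc]
    simp
  have hSm : RswSm z0 a A w := by
    refine ⟨hws, ?_, ?_⟩
    · calc ∑ u ∈ w.support, |w u| ≤ ∑ u ∈ rswBox z0 a, |w u| :=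
            Finset.sum_le_sum_of_subset_of_nonneg hws fun _ _ _ => abs_nonneg _
        _ ≤ ∑ _u ∈ rswBox z0 a, M * d ^ 2 := Finset.sum_le_sum fun u _ => hwabs u
        _ = A := by rw [Finset.sum_const, nsmul_eq_mul, gsm182_card_box, hA]; ring
    · intro u
      have h1 := mul_le_mul_of_nonneg_right (hwabs u) (by positivity : (0 : ℝ) ≤ (a : ℝ) ^ 2)
      have h2 : 0 ≤ M * ((a : ℝ) * d) ^ 2 := by positivity
      calc |w u| * (a : ℝ) ^ 2 ≤ M * d ^ 2 * (a : ℝ) ^ 2 := h1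
        _ = M * ((a : ℝ) * d) ^ 2 := by ring
        _ ≤ A := by rw [hA]; linarith
  have key := hIn F z0 a N A w hJ ha1 hbox hnot hSm
  have hfun : (fun ω : RswCfg => |rswArr w (rswH F ω)| ^ (2 * m)) =
      fun ω => (fun p : at92Cfg F => (∑ v ∈ cornersOf F, W v * atHeight p.1 p.2 v) ^ (2 * m)) (rswTau F ω, rswTauD F ω) := by
    funext ω
    simp only
    rw [(even_two_mul m).pow_abs]
    congr 1
    unfold rswArr rswH
    rw [hwv, Finsupp.onFinset_sum _ (fun _ => by simp)]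
    refine Finset.sum_congr rfl fun v hv => ?_
    rw [if_pos hv]
  rw [hfun, gsm182_rswE t F (fun p : at92Cfg F => (∑ v ∈ cornersOf F, W v * atHeight p.1 p.2 v) ^ (2 * m))] at key
  refine key.trans ?_
  have hs : Real.sqrt (Real.log ((N : ℝ) / a)) ≤ Real.sqrt (Real.log ((ρ + 3 * r) / r)) :=
    Real.sqrt_le_sqrt (Real.log_le_log (div_pos n0 a0) hx)
  have hs0 := Real.sqrt_nonneg (Real.log ((N : ℝ) / a))
  have hMr : 0 ≤ M * r ^ 2 := by positivity
  apply pow_le_pow_left₀ (by positivity)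
  gcongr

/-- the open ball of radius the depth stays in `D` -/
theorem gsd182_ball_dep {D : Set (ℝ × ℝ)} {z : ℝ × ℝ} (hz : z ∈ D) : Metric.ball z (limDep D z) ⊆ D := by
  intro y hy
  by_contra hyD
  have hpos : 0 < limDep D z := lt_of_le_of_lt dist_nonneg (Metric.mem_ball.1 hy)
  obtain ⟨w, hw1, hw2⟩ := gsm182_meets_frontier (convex_ball z (limDep D z)).isPreconnected
    ⟨z, Metric.mem_ball_self hpos, hz⟩ ⟨y, hy, hyD⟩
  have h1 : limDep D z ≤ dist z w := Metric.infDist_le_dist_of_mem hw2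
  have h2 : dist w z < limDep D z := Metric.mem_ball.1 hw1
  rw [dist_comm] at h2
  linarith

/-- **the moment bound at the scale of the depth**, `θ = 1/16`, the constant does not depend on `z` -/
theorem gsd182_depth {t : ℝ} (hIn : Gsm182In t) {D : Set (ℝ × ℝ)} (hD : IsOpen D)
    {δ : ℕ → ℝ} {F : ℕ → Finset (ℤ × ℤ)} (hF : IsAdmissibleApprox D δ F) (m : ℕ) :
    ∃ C : ℝ, 0 < C ∧ ∀ z ∈ D, ∀ᶠ n in atTop, ∀ (M : ℝ) (g : ℝ × ℝ → ℝ),
      (∀ y, |g y| ≤ M) → (∀ y, y ∉ wkBall z (1 / 16 * limDep D z) → g y = 0) →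
      gaussM t (δ n) (F n) (Multiset.replicate (2 * m) g) ≤ C * (M * limDep D z ^ 2) ^ (2 * m) := by
  obtain ⟨C1, hC1, hIn'⟩ := hIn (2 * m)
  have hs0 := Real.sqrt_nonneg (Real.log 35)
  refine ⟨(C1 * 36 * (1 + Real.sqrt (Real.log 35))) ^ (2 * m), by positivity, fun z hz => ?_⟩
  obtain ⟨hδ, hδ0, hcov, γ, γs, _, _, hγ, hγs, hclose⟩ := id hF
  have hne : (frontier D).Nonempty := by rw [← hγ]; exact ⟨γ 1, mem_range_self 1⟩
  obtain ⟨dep, hdep⟩ : ∃ dep : ℝ, dep = limDep D z := ⟨_, rfl⟩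
  rw [← hdep]
  have hd0 : 0 < dep := by
    have hzf : z ∉ frontier D := fun h => by
      have := h.2
      rw [hD.interior_eq] at this
      exact this hz
    rw [hdep]
    exact (isClosed_frontier.notMem_iff_infDist_pos hne).mp hzf
  obtain ⟨q, hq, hqd⟩ := isClosed_frontier.exists_infDist_eq_dist hne z
  have hqd' : dist z q = dep := by rw [hdep]; exact hqd.symm
  rw [← hγ] at hq
  obtain ⟨x, rfl⟩ := hq
  have hKc : IsCompact (Metric.closedBall z (3 * dep / 4)) := isCompact_closedBall z _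
  have hKD : Metric.closedBall z (3 * dep / 4) ⊆ D :=
    (Metric.closedBall_subset_ball (by rw [← hdep]; linarith)).trans (gsd182_ball_dep hz)
  have e1 : ∀ᶠ n in atTop, δ n < 1 / 16 * dep := hδ0.eventually (gt_mem_nhds (by positivity))
  filter_upwards [hcov _ hKc hKD, e1, hclose dep hd0] with n hn1 hn2 hn3 M g hg hg0
  have hM : 0 ≤ M := (abs_nonneg _).trans (hg 0)
  rw [gsm182_gaussM]
  -- the point off the region
  have hqn : γs n x ∉ faceRegionSq (δ n) (F n) := by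
    have h1 : γs n x ∈ frontier (faceRegionSq (δ n) (F n)) := by rw [← (hγs n).2.2]; exact mem_range_self x
    have h2 : IsOpen (faceRegionSq (δ n) (F n)) := by unfold faceRegionSq; exact isOpen_interior
    rw [h2.frontier_eq] at h1
    exact h1.2
  have hzq : |(γ x).1 - z.1| ≤ dep ∧ |(γ x).2 - z.2| ≤ dep := by
    rw [Prod.dist_eq, Real.dist_eq, Real.dist_eq] at hqd'
    constructor
    · rw [abs_sub_comm, ← hqd']; exact le_max_left _ _
    · rw [abs_sub_comm, ← hqd']; exact le_max_right _ _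
  have hcl := hn3 x
  have c1 : |(γs n x).1 - (γ x).1| < dep :=
    abs_lt_of_sq_lt_sq (by nlinarith [sq_nonneg ((γs n x).2 - (γ x).2)]) hd0.le
  have c2 : |(γs n x).2 - (γ x).2| < dep :=
    abs_lt_of_sq_lt_sq (by nlinarith [sq_nonneg ((γs n x).1 - (γ x).1)]) hd0.le
  have hq1 : |(γs n x).1 - z.1| ≤ 2 * dep := by
    have := abs_sub_le (γs n x).1 (γ x).1 z.1
    linarith [hzq.1]
  have hq2 : |(γs n x).2 - z.2| ≤ 2 * dep := by
    have := abs_sub_le (γs n x).2 (γ x).2 z.2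
    linarith [hzq.2]
  have key := gsd182_core (m := m) hC1 hIn' (gsm182_jordan_approx hF n) (c := 3 * dep / 4) (ρ := 2 * dep)
    (r := 1 / 16 * dep) (z := z) (q := γs n x) (hδ n) (by positivity) (by positivity) hn2.le (by linarith)
    (fun y h1 h2 => hn1 (by
      rw [Metric.mem_closedBall, Prod.dist_eq, Real.dist_eq, Real.dist_eq]
      exact max_le h1 h2)) hqn hq1 hq2 (M := M) (W := fun v => δ n ^ 2 * g (δ n * v.1, δ n * v.2))
    (fun v => by
      rw [abs_mul, abs_of_nonneg (by positivity : (0 : ℝ) ≤ δ n ^ 2), mul_comm]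
      exact mul_le_mul_of_nonneg_right (hg _) (by positivity))
    (fun v hv => by rw [hg0 _ hv, mul_zero])
  refine key.trans ?_
  have e35 : (2 * dep + 3 * (1 / 16 * dep)) / (1 / 16 * dep) = 35 := by field_simp; norm_num
  rw [e35, ← mul_pow]
  apply pow_le_pow_left₀ (by positivity)
  have h1 : M * (1 / 16 * dep) ^ 2 ≤ M * dep ^ 2 := by
    apply mul_le_mul_of_nonneg_left _ hM
    apply pow_le_pow_left₀ (by positivity)
    linarith
  calc C1 * (36 * (M * (1 / 16 * dep) ^ 2)) * (1 + Real.sqrt (Real.log 35))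
      ≤ C1 * (36 * (M * dep ^ 2)) * (1 + Real.sqrt (Real.log 35)) := by gcongr
    _ = C1 * 36 * (1 + Real.sqrt (Real.log 35)) * (M * dep ^ 2) := by ring

/-- the form consumed by (A3): fourth moment of a bump `0 ≤ g ≤ A / dep²` -/
theorem gsd182_depth4 {t : ℝ} (hIn : Gsm182In t) {D : Set (ℝ × ℝ)} (hD : IsOpen D)
    {δ : ℕ → ℝ} {F : ℕ → Finset (ℤ × ℤ)} (hF : IsAdmissibleApprox D δ F) :
    ∃ C : ℝ, 0 < C ∧ ∀ z ∈ D, ∀ᶠ n in atTop, ∀ (A : ℝ) (g : ℝ × ℝ → ℝ),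
      (∀ y, 0 ≤ g y) → (∀ y, g y ≤ A / limDep D z ^ 2) → (∀ y, y ∉ wkBall z (1 / 16 * limDep D z) → g y = 0) →
      gaussM t (δ n) (F n) (Multiset.replicate 4 g) ≤ C * A ^ 4 := by
  obtain ⟨C, hC, H⟩ := gsd182_depth hIn hD hF 2
  refine ⟨C, hC, fun z hz => ?_⟩
  have hne : (frontier D).Nonempty := by
    obtain ⟨_, _, _, γ, _, _, _, hγ, _⟩ := hF
    rw [← hγ]; exact ⟨γ 1, mem_range_self 1⟩
  have hd0 : 0 < limDep D z := by
    have hzf : z ∉ frontier D := fun h => by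
      have := h.2
      rw [hD.interior_eq] at this
      exact this hz
    exact (isClosed_frontier.notMem_iff_infDist_pos hne).mp hzf
  filter_upwards [H z hz] with n hn A g hg0 hgA hgs
  have h1 := hn (A / limDep D z ^ 2) g (fun y => by rw [abs_of_nonneg (hg0 y)]; exact hgA y) hgs
  have e : A / limDep D z ^ 2 * limDep D z ^ 2 = A := by field_simp
  rw [e] at h1
  exact h1

theorem gsd182_depth4_exit (t : ℝ) (ht1 : 1 / 2 ≤ t) (ht2 : t < 1) {D : Set (ℝ × ℝ)} (hD : IsOpen D)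
    {δ : ℕ → ℝ} {F : ℕ → Finset (ℤ × ℤ)} (hF : IsAdmissibleApprox D δ F) :
    ∃ C : ℝ, 0 < C ∧ ∀ z ∈ D, ∀ᶠ n in atTop, ∀ (A : ℝ) (g : ℝ × ℝ → ℝ),
      (∀ y, 0 ≤ g y) → (∀ y, g y ≤ A / limDep D z ^ 2) → (∀ y, y ∉ wkBall z (1 / 16 * limDep D z) → g y = 0) →
      gaussM t (δ n) (F n) (Multiset.replicate 4 g) ≤ C * A ^ 4 :=
  gsd182_depth4 (gsm182_in_of_exit t ht1 ht2) hD hF

end Claimed.Agent.R292
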