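import Claimed.Agent.R292.Gauss.Dec72
import Claimed.Agent.R292.Model.DictM21
import Claimed.Agent.R292.Spec.Inst79

/-!
# Row 292 (S0540), Gauss/Var72 : THE BRIDGE  plane package of GAUSS (`Gauss/Dec72`)  <->  vocabulary of MODEL / instance of SPEC      (owner helper72; prefix `gv72_`, defs `gv72*`)      0 sorry

* `gv72_ext_box`, `gv72_ex_box`   the exterior of a box of faces is star connected (`At92hExt`), hence every admissible pair of spins in a box has a height (`Mdl21Ex`)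
* **`gv72_dict`**    GENERAL OBSERVABLES: `gd72E t F G = mdlFz t⁻¹ F (gv72Pull G)`, `gv72Pull G h = G (fun v => h (mdlV v) / 2)`      (from `Model/Dict21`, `Model/DictM21` of 21)
* **`gv72_pl`**      `gd72Pl t G = mdlPln t⁻¹ (gv72Pull G)`
* **`gv72_var`**     `gd72Var t = asiVg t⁻¹`;   **`gv72_aspin`**  `AspIn (asiVg t⁻¹) → AspIn (gd72Var t)`      (so `exit_spec` applies to the variogram consumed by `gd72_dec`)
* `gv72_lim`, `gv72_tr`   the fields `lim`, `tr` of `Gd72Pl t` from `AsiHt t⁻¹` (Defs/SPECI)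
-/

set_option autoImplicit false

namespace Claimed.Agent.R292

open MeasureTheory Filter Topology Set
open Claims Claims.C0468 Claimed.Agent.R291

/-! ## 1. The exterior of a box is star connected -/

theorem gv72_line (P : ℤ → Prop) (y0 : ℤ) (h0 : P y0) (hs : ∀ y, P y → P (y + 1) ∧ P (y - 1)) (y : ℤ) : P y :=
  Int.inductionOn' (motive := fun z => P z) y y0 h0 (fun k _ hk => (hs k hk).1) (fun k _ hk => (hs k hk).2)

theorem gv72_ext_box (u0 : ℤ × ℤ) (n : ℕ) : At92hExt (gd72FB u0 n) := by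
  intro S hS hne hcl g hg
  set a := u0.1
  set b := u0.2
  have hext : ∀ f : ℤ × ℤ, f ∉ gd72FB u0 n ↔ (f.1 < a - n ∨ a + n ≤ f.1) ∨ (f.2 < b - n ∨ b + n ≤ f.2) := by
    intro f
    rw [gd72_mem_FB]
    constructor
    · intro h
      by_contra hc
      push Not at hc
      exact h ⟨⟨hc.1.1, hc.1.2⟩, ⟨hc.2.1, hc.2.2⟩⟩
    · rintro h ⟨⟨h1, h2⟩, ⟨h3, h4⟩⟩
      rcases h with (h | h) | (h | h) <;> omega
  -- vertical and horizontal lines
  have hV : ∀ x y0 : ℤ, (x < a - n ∨ a + n ≤ x) → (x, y0) ∈ S → ∀ y, (x, y) ∈ S := by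
    intro x y0 hx h0 y
    refine gv72_line (fun y => (x, y) ∈ S) y0 h0 (fun y hy => ⟨?_, ?_⟩) y
    · exact hcl _ hy _ ((hext _).2 (Or.inl hx)) ⟨by simp, by simp⟩
    · exact hcl _ hy _ ((hext _).2 (Or.inl hx)) ⟨by simp, by simp⟩
  have hH : ∀ x0 y : ℤ, (y < b - n ∨ b + n ≤ y) → (x0, y) ∈ S → ∀ x, (x, y) ∈ S := by
    intro x0 y hy h0 x
    refine gv72_line (fun x => (x, y) ∈ S) x0 h0 (fun x hx => ⟨?_, ?_⟩) x
    · exact hcl _ hx _ ((hext _).2 (Or.inr hy)) ⟨by simp, by simp⟩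
    · exact hcl _ hx _ ((hext _).2 (Or.inr hy)) ⟨by simp, by simp⟩
  -- the top row
  have htop : ∀ x, (x, b + n) ∈ S := by
    obtain ⟨f0, hf0⟩ := hne
    rcases (hext f0).1 (hS f0 hf0) with h | h
    · exact hH f0.1 _ (Or.inr le_rfl) (hV f0.1 f0.2 h hf0 _)
    · have h1 := hH f0.1 f0.2 h hf0 (a + n)
      exact hH (a + n) _ (Or.inr le_rfl) (hV (a + n) f0.2 (Or.inr le_rfl) h1 _)
  rcases (hext g).1 hg with h | h
  · exact hV g.1 _ h (htop g.1) g.2
  · exact hH (a + n) g.2 h (hV (a + n) _ (Or.inr le_rfl) (htop _) g.2) g.1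

theorem gv72_ex_box (u0 : ℤ × ℤ) (n : ℕ) : Mdl21Ex (gd72FB u0 n) := mdl21_ex_of_ext (gv72_ext_box u0 n)

theorem gv72_FB_eq (u0 : ℤ × ℤ) (n : ℕ) : gd72FB u0 n = rswBox u0 n := rfl

/-! ## 2. The dictionary for general observables -/

/-- pull back of an observable of the primal heights `H = K / 2` to the turned corner lattice -/
noncomputable def gv72Pull (G : (ℤ × ℤ → ℝ) → ℝ) (h : MdlS → ℤ) : ℝ := G fun v => (h (mdlV v) : ℝ) / 2

theorem gv72_eqns_cite : True := by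
  have := @gv72Pull.eq_1
  trivial

theorem gv72_H_eq {F : Finset (ℤ × ℤ)} (hex : Mdl21Ex F) {p : at92Cfg F} (hp : p ∈ at92Adm F) :
    gd72H p = fun v => ((mdl21K p.1 p.2).1 v : ℝ) / 2 := by
  have ha := (at92_mem_adm p).1 hp
  funext v
  unfold gd72H
  by_cases hv : v ∈ cornersOf F
  · rw [if_pos hv, (mdl21_K_spec ha (hex _ _ ha)).2.1 v hv]
  · rw [if_neg hv]
    simp [mdl21K, hv]

/-- **THE DICTIONARY, general observables of the cleaned primal height** -/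
theorem gv72_dict {F : Finset (ℤ × ℤ)} (hex : Mdl21Ex F) {t : ℝ} (ht : t ≠ 0) (G : (ℤ × ℤ → ℝ) → ℝ) :
    gd72E t F G = mdlFz t⁻¹ F (gv72Pull G) := by
  have e1 : ∀ p ∈ at92Adm F, at92W t p = t ^ mdl21NE F * (t⁻¹) ^ mdl21NC F (mdl21K p.1 p.2) := by
    intro p hp
    have ha := (at92_mem_adm p).1 hp
    unfold at92W
    rw [mdl21_weight ht ha, mdl21_NCs_eq ha (hex _ _ ha)]
  unfold gd72E lmE mdlFz mdlEQ mdlZQ mdlWt
  rw [mdl21m_sum hex, mdl21m_sum hex]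
  simp only [mdl21m_N, gv72Pull, mdl21m_H_V]
  rw [← mdl21_sum hex (fun K => (t⁻¹) ^ mdl21NC F K * G fun v => (K.1 v : ℝ) / 2), ← mdl21_sum hex (fun K => (t⁻¹) ^ mdl21NC F K)]
  rw [Finset.sum_congr rfl fun p hp => by rw [e1 p hp, gv72_H_eq hex hp, mul_assoc], Finset.sum_congr rfl e1,
    ← Finset.mul_sum, ← Finset.mul_sum, mul_div_mul_left _ _ (pow_ne_zero _ ht)]

/-- the plane functionals agree -/
theorem gv72_pl {t : ℝ} (ht : t ≠ 0) (G : (ℤ × ℤ → ℝ) → ℝ) : gd72Pl t G = mdlPln t⁻¹ (gv72Pull G) := by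
  unfold gd72Pl mdlPln
  congr 1
  funext n
  exact gv72_dict (gv72_ex_box 0 n) ht G

/-- **the variogram of `Gauss/Dec72` is the variogram of the instance of SPEC** -/
theorem gv72_var {t : ℝ} (ht : t ≠ 0) : gd72Var t = asiVg t⁻¹ := by
  funext u
  unfold gd72Var asiVg
  rw [gv72_pl ht]
  congr 1
  funext h
  unfold gv72Pull
  ring

theorem gv72_aspin {t : ℝ} (ht : t ≠ 0) (h : AspIn (asiVg t⁻¹)) : AspIn (gd72Var t) := by
  rw [gv72_var ht]; exact h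

/-! ## 3. The fields `lim`, `tr` of the plane package from `AsiHt` -/

theorem gv72_pull_loc {S : Finset (ℤ × ℤ)} {G : (ℤ × ℤ → ℝ) → ℝ} (h : Gd72Loc S G) : MdlLoc (S.image mdlV) (gv72Pull G) := by
  intro k k' hh
  unfold gv72Pull
  exact h _ _ fun u hu => by rw [hh _ (Finset.mem_image_of_mem _ hu)]

theorem gv72_pull_grad {G : (ℤ × ℤ → ℝ) → ℝ} (h : Gd72Grad G) : MdlGrad (gv72Pull G) := by
  intro k c
  unfold gv72Pull
  rw [← h (fun v => (k (mdlV v) : ℝ) / 2) ((c : ℝ) / 2)]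
  congr 1
  funext v
  push_cast
  ring

theorem gv72_lim {t : ℝ} (ht : t ≠ 0) (hP : AsiHt t⁻¹) (S : Finset (ℤ × ℤ)) (G : (ℤ × ℤ → ℝ) → ℝ) (l : Gd72Loc S G) (g : Gd72Grad G) :
    Tendsto (fun n : ℕ => gd72E t (gd72FB 0 n) G) atTop (𝓝 (gd72Pl t G)) := by
  rw [gv72_pl ht]
  refine (hP.lim _ _ (gv72_pull_loc l) (gv72_pull_grad g)).congr fun n => ?_
  exact (gv72_dict (gv72_ex_box 0 n) ht G).symm

theorem gv72_tr {t : ℝ} (ht : t ≠ 0) (hP : AsiHt t⁻¹) (S : Finset (ℤ × ℤ)) (G : (ℤ × ℤ → ℝ) → ℝ) (l : Gd72Loc S G) (g : Gd72Grad G)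
    (w : ℤ × ℤ) : gd72Pl t (fun h => G fun u => h (u + w)) = gd72Pl t G := by
  rw [gv72_pl ht, gv72_pl ht, ← hP.trans _ _ (mdlV w) (asi_V_even w) (gv72_pull_loc l) (gv72_pull_grad g)]
  congr 1
  funext h
  unfold gv72Pull
  show (G fun u => (h (mdlV (u + w)) : ℝ) / 2) = G fun v => (h (mdlV v + mdlV w) : ℝ) / 2
  simp only [asi_V_add]

end Claimed.Agent.R292
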